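import Vale.Agent.P352.H746.Nec2
import Vale.Agent.P352.H121.Vir

/-!
# Additivity of the second moments `K a` in the null vector `a` implies the constraint
-/

set_option linter.all false

noncomputable section

open MeasureTheory Filter Topology Set
open scoped ContDiff ComplexConjugate

namespace Vale.Agent.P352.H993

open GF (Ix V Fn Fld bas eta o sim)
open H755 (XX XX_sim md_add md_add_l md_sub md_sub_l md_smul md_smul_l md_comm A_addX sim_shift)
open H496 H15 H246
open H746 (kv kh kh_kv kh_cont tg_lim int_affine tgy tst_shift adm_of)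

variable {D : Type*} [NormedAddCommGroup D] [InnerProductSpace ℂ D]
variable {Q : GF.Theory D} {T : Ix → Ix → GF.Fld D} {J : Ix → GF.Fld D}
  {A : (V → V) → D → D} {K : V → D → D}

/-- The second moments `K a` are additive in the null vector `a`. -/
def AddK (K : V → D → D) : Prop := ∀ a b c d v, IsNull a → IsNull b → IsNull c → IsNull d →
  a + b = c + d → K a v + K b v = K c v + K d v

/-- the deviation from the commutation relations -/
def Ev (Q : GF.Theory D) (A : (V → V) → D → D) (K : V → D → D) (x a : V) (v : D) : D :=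
  Q.U 1 GF.one x (K a (Q.U 1 GF.one (-x) v)) - K a v - A (XX a x) v

lemma exists_w (a b : V) : ∃ w : V, GF.mdot a w = 0 ∧ GF.mdot b w = 0 ∧ GF.mdot w w = -1 := by
  let f : V →ₗ[ℝ] (Fin 3 → ℝ) :=
    { toFun := fun x => ![GF.mdot a x, GF.mdot b x, x 0]
      map_add' := by
        intro x y
        funext i
        fin_cases i <;> simp [md_add]
      map_smul' := by
        intro c x
        funext i
        fin_cases i <;> simp [md_smul] }
  have h1 : LinearMap.ker f ≠ ⊥ := by
    apply LinearMap.ker_ne_bot_of_finrank_lt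
    show Module.finrank ℝ (Fin 3 → ℝ) < Module.finrank ℝ (Fin 4 → ℝ)
    simp
  obtain ⟨x, hx, hx0⟩ := Submodule.exists_mem_ne_zero_of_ne_bot h1
  have h2 : f x = 0 := hx
  have e1 : GF.mdot a x = 0 := congrFun h2 0
  have e2 : GF.mdot b x = 0 := congrFun h2 1
  have e3 : x 0 = 0 := congrFun h2 2
  have e4 : GF.mdot x x = -(x 1 ^ 2 + x 2 ^ 2 + x 3 ^ 2) := by
    simp only [GF.mdot, Fin.sum_univ_four, eta, o, ↓reduceIte, Fin.isValue, one_ne_zero,
      Fin.reduceEq, e3]
    ring
  have e5 : 0 < x 1 ^ 2 + x 2 ^ 2 + x 3 ^ 2 := by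
    by_contra hle
    push Not at hle
    have p1 := sq_nonneg (x 1)
    have p2 := sq_nonneg (x 2)
    have p3 := sq_nonneg (x 3)
    have q1 : x 1 = 0 := by
      have : x 1 ^ 2 = 0 := by linarith
      exact pow_eq_zero_iff (two_ne_zero) |>.1 this
    have q2 : x 2 = 0 := by
      have : x 2 ^ 2 = 0 := by linarith
      exact pow_eq_zero_iff (two_ne_zero) |>.1 this
    have q3 : x 3 = 0 := by
      have : x 3 ^ 2 = 0 := by linarith
      exact pow_eq_zero_iff (two_ne_zero) |>.1 this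
    apply hx0
    funext i
    fin_cases i
    · exact e3
    · exact q1
    · exact q2
    · exact q3
  set S : ℝ := x 1 ^ 2 + x 2 ^ 2 + x 3 ^ 2 with hS
  refine ⟨(Real.sqrt S)⁻¹ • x, ?_, ?_, ?_⟩
  · rw [md_smul, e1, mul_zero]
  · rw [md_smul, e2, mul_zero]
  · rw [md_smul, md_smul_l, e4]
    have h3 : Real.sqrt S * Real.sqrt S = S := Real.mul_self_sqrt e5.le
    have h4 : Real.sqrt S ≠ 0 := (Real.sqrt_pos.2 e5).ne'
    field_simp
    nlinarith

lemma U_add' (x : V) (v w : D) :
    Q.U 1 GF.one x (v + w) = Q.U 1 GF.one x v + Q.U 1 GF.one x w :=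
  Vale.Agent.P352.U_add one_pos Vale.Agent.P352.isLor_one x v w

lemma Ev_zero (hT : Q.IsStress T) (h : NullCharges Q T J A K) {a x : V} (ha : IsNull a)
    (hx : GF.mdot a x = 0) (v : D) : Ev Q A K x a v = 0 := by
  unfold Ev
  rw [H755.tra_zero hT h ha hx]
  abel

/-- the deviation depends on `a · x` only -/
lemma Ev_dep (hT : Q.IsStress T) (hJ : IsVirial Q T J) (h : NullCharges Q T J A K) {a x y : V}
    (ha : IsNull a) (hxy : GF.mdot a x = GF.mdot a y) (v : D) :
    Ev Q A K x a v = Ev Q A K y a v := by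
  set x0 : V := x - y with hx0
  have hax0 : GF.mdot a x0 = 0 := by rw [hx0, md_sub, hxy, sub_self]
  have hs0 : IsSim 0 (XX a x0) := by
    have h1 := XX_sim a x0
    rw [hax0] at h1
    simpa using h1
  have e1 : Q.U 1 GF.one x (K a (Q.U 1 GF.one (-x) v)) = Q.U 1 GF.one y
      (Q.U 1 GF.one x0 (K a (Q.U 1 GF.one (-x0) (Q.U 1 GF.one (-y) v)))) := by
    rw [H755.UU, H755.UU]
    have c1 : y + x0 = x := by rw [hx0]; abel
    have c2 : -x0 + -y = -x := by rw [hx0]; abel
    rw [c1, c2]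
  have e4 : A (XX a x) v = A (XX a y) v + A (fun z => XX a x0 (z - y)) v := by
    rw [← A_addX h.toRep v (XX_sim a y) (sim_shift hs0 y)]
    refine congrArg (fun X => A X v) (funext fun z => ?_)
    have hx : x = x0 + y := by rw [hx0]; abel
    rw [hx]
    funext n
    simp only [XX, cK, md_smul, md_smul_l, md_add, md_add_l, md_sub, md_sub_l, hax0,
      Pi.add_apply, Pi.sub_apply, Pi.smul_apply, smul_eq_mul]
    rw [md_comm x0 y]
    ring
  unfold Ev
  rw [e1, H755.tra_zero hT h ha hax0, U_add', H846.conj_A hT hJ h hs0 ha, e4]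
  abel

lemma K_r (hT : Q.IsStress T) (h : NullCharges Q T J A K) {a : V} (ha : IsNull a) {r : ℝ}
    (hr : 0 < r) (v : D) : K (r • a) v = (r : ℂ) • K a v := by
  have hra : IsNull (r • a) := ⟨by rw [md_smul, md_smul_l, ha.1]; simp, by
    have := mul_pos hr ha.2
    simpa using this⟩
  have e : sim 1 GF.one 0 (r • a) = r • a := by
    have h1 := Vale.Agent.P352.sim_one (0 : V) (r • a)
    funext n
    have := congrFun h1 n
    simpa using this
  have h1 := H755.nc_cov hT h (s := 1) (r := r) (L := GF.one) (a := r • a) (b := a) v one_pos hr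
    Vale.Agent.P352.isLor_one hra ha e
  rw [H755.U0, H755.U0] at h1
  simpa using h1

lemma Ev_r (hT : Q.IsStress T) (h : NullCharges Q T J A K) {a : V} (ha : IsNull a) {r : ℝ}
    (hr : 0 < r) (x : V) (v : D) : Ev Q A K x (r • a) v = (r : ℂ) • Ev Q A K x a v := by
  have e : A (XX (r • a) x) v = (r : ℂ) • A (XX a x) v := by
    have h1 := H755.A_lin2 h.toRep r 0 v (XX_sim a x) (XX_sim a x)
    have h2 : (XX (r • a) x) = fun z => r • XX a x z + (0:ℝ) • XX a x z := by
      funext z n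
      simp only [XX, cK, md_smul, md_smul_l, md_add, md_add_l, md_sub, md_sub_l,
        Pi.add_apply, Pi.sub_apply, Pi.smul_apply, smul_eq_mul]
      ring
    rw [h2, h1]
    simp
  unfold Ev
  rw [K_r hT h ha hr, K_r hT h ha hr, e,
    Vale.Agent.P352.U_smul one_pos Vale.Agent.P352.isLor_one, smul_sub, smul_sub]

lemma Ev_add (h : NullCharges Q T J A K) (hK : AddK K) {a b c d : V} (ha : IsNull a)
    (hb : IsNull b) (hc : IsNull c) (hd : IsNull d) (he : a + b = c + d) (x : V) (v : D) :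
    Ev Q A K x a v + Ev Q A K x b v = Ev Q A K x c v + Ev Q A K x d v := by
  have h1 := hK a b c d (Q.U 1 GF.one (-x) v) ha hb hc hd he
  have h2 := hK a b c d v ha hb hc hd he
  have h3 := congrArg (Q.U 1 GF.one x) h1
  rw [U_add', U_add'] at h3
  have h4 : A (XX a x) v + A (XX b x) v = A (XX c x) v + A (XX d x) v := by
    rw [← A_addX h.toRep v (XX_sim a x) (XX_sim b x), ← A_addX h.toRep v (XX_sim c x) (XX_sim d x)]
    refine congrArg (fun X => A X v) (funext fun z => ?_)
    have ea : a = c + d - b := by rw [← he]; abel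
    rw [ea]
    funext n
    simp only [XX, cK, md_smul, md_smul_l, md_add, md_add_l, md_sub, md_sub_l,
      Pi.add_apply, Pi.sub_apply, Pi.smul_apply, smul_eq_mul]
    ring
  unfold Ev
  calc _ = (Q.U 1 GF.one x (K a (Q.U 1 GF.one (-x) v)) +
        Q.U 1 GF.one x (K b (Q.U 1 GF.one (-x) v))) - (K a v + K b v) -
        (A (XX a x) v + A (XX b x) v) := by abel
    _ = _ := by rw [h3, h2, h4]; abel

/-- the null vectors `a + s w + (s²/2) b` -/
def ns (a b w : V) (s : ℝ) : V := a + s • w + (s ^ 2 / 2) • b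

section

variable {a b w : V}

lemma ns_dot (a b w x : V) (s : ℝ) :
    GF.mdot (ns a b w s) x = GF.mdot a x + s * GF.mdot w x + s ^ 2 / 2 * GF.mdot b x := by
  unfold ns
  rw [md_add_l, md_add_l, md_smul_l, md_smul_l]

lemma ns_null (ha : IsNull a) (hb : IsNull b) (hab : GF.mdot a b = 1) (haw : GF.mdot a w = 0)
    (hbw : GF.mdot b w = 0) (hww : GF.mdot w w = -1) {s : ℝ} (hs : s ≠ 0) :
    IsNull (ns a b w s) := by
  have e1 : GF.mdot a (ns a b w s) = s ^ 2 / 2 := by
    rw [md_comm, ns_dot, ha.1, md_comm w a, haw, md_comm b a, hab]; ring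
  have e2 : GF.mdot w (ns a b w s) = -s := by
    rw [md_comm, ns_dot, hww, haw, hbw]; ring
  have e3 : GF.mdot b (ns a b w s) = 1 := by
    rw [md_comm, ns_dot, hab, md_comm w b, hbw, hb.1]; ring
  have h0 : GF.mdot (ns a b w s) (ns a b w s) = 0 := by
    rw [ns_dot, e1, e2, e3]; ring
  have hs2 : 0 < s ^ 2 := by positivity
  exact ⟨h0, H755.null_pos ha h0 (by rw [e1]; linarith)⟩

lemma null_r (ha : IsNull a) {r : ℝ} (hr : 0 < r) : IsNull (r • a) :=
  ⟨by rw [md_smul, md_smul_l, ha.1]; simp, by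
    have := mul_pos hr ha.2
    simpa using this⟩

lemma ns_rel (a b w : V) (s : ℝ) :
    ns a b w s + ns a b w (-s) = (2 : ℝ) • a + (s ^ 2) • b := by
  unfold ns
  module

variable (hT : Q.IsStress T) (hJ : IsVirial Q T J) (h : NullCharges Q T J A K) (hK : AddK K)
  (ha : IsNull a) (hb : IsNull b) (hab : GF.mdot a b = 1) (haw : GF.mdot a w = 0)
  (hbw : GF.mdot b w = 0) (hww : GF.mdot w w = -1)

include hT hJ h hK ha hb hab haw hbw hww in
lemma stA {s : ℝ} (hs : s ≠ 0) {x y : V} (hxy : GF.mdot (ns a b w s) x = 2 * GF.mdot a y)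
    (v : D) : Ev Q A K x (ns a b w s) v = Ev Q A K y ((2 : ℝ) • a) v := by
  set t : ℝ := GF.mdot a y with ht
  set z : V := t • b - (t / s) • w with hz
  have z1 : GF.mdot a z = t := by rw [hz, md_sub, md_smul, md_smul, hab, haw]; ring
  have z2 : GF.mdot b z = 0 := by rw [hz, md_sub, md_smul, md_smul, hb.1, hbw]; ring
  have z3 : GF.mdot w z = t / s := by
    rw [hz, md_sub, md_smul, md_smul, md_comm w b, hbw, hww]; ring
  have n1 : GF.mdot (ns a b w s) z = 2 * t := by
    rw [ns_dot, z1, z2, z3]; field_simp; ring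
  have n2 : GF.mdot (ns a b w (-s)) z = 0 := by
    rw [ns_dot, z1, z2, z3]; field_simp; ring
  have hs2 : 0 < s ^ 2 := by positivity
  have h1 := Ev_add h hK (ns_null ha hb hab haw hbw hww hs)
    (ns_null ha hb hab haw hbw hww (neg_ne_zero.2 hs)) (null_r ha two_pos) (null_r hb hs2)
    (ns_rel a b w s) z v
  rw [Ev_zero hT h (ns_null ha hb hab haw hbw hww (neg_ne_zero.2 hs)) n2,
    Ev_zero hT h (null_r hb hs2) (x := z) (by rw [md_smul_l, z2, mul_zero]), add_zero,
    add_zero] at h1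
  rw [Ev_dep hT hJ h (ns_null ha hb hab haw hbw hww hs) (hxy.trans n1.symm), h1]
  exact Ev_dep hT hJ h (null_r ha two_pos) (by rw [md_smul_l, md_smul_l, z1, ht]) v

include hT hJ h hK ha hb hab haw hbw hww in
lemma stB {s : ℝ} (hs : s ≠ 0) {x y : V} (hxy : GF.mdot (ns a b w s) x = s ^ 2 * GF.mdot b y)
    (v : D) : Ev Q A K x (ns a b w s) v = Ev Q A K y ((s ^ 2 : ℝ) • b) v := by
  set t : ℝ := GF.mdot b y with ht
  set z : V := t • a - (s * t / 2) • w with hz
  have z1 : GF.mdot a z = 0 := by rw [hz, md_sub, md_smul, md_smul, ha.1, haw]; ring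
  have z2 : GF.mdot b z = t := by
    rw [hz, md_sub, md_smul, md_smul, md_comm b a, hab, hbw]; ring
  have z3 : GF.mdot w z = s * t / 2 := by
    rw [hz, md_sub, md_smul, md_smul, md_comm w a, haw, hww]; ring
  have n1 : GF.mdot (ns a b w s) z = s ^ 2 * t := by
    rw [ns_dot, z1, z2, z3]; ring
  have n2 : GF.mdot (ns a b w (-s)) z = 0 := by
    rw [ns_dot, z1, z2, z3]; ring
  have hs2 : 0 < s ^ 2 := by positivity
  have h1 := Ev_add h hK (ns_null ha hb hab haw hbw hww hs)
    (ns_null ha hb hab haw hbw hww (neg_ne_zero.2 hs)) (null_r ha two_pos) (null_r hb hs2)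
    (ns_rel a b w s) z v
  rw [Ev_zero hT h (ns_null ha hb hab haw hbw hww (neg_ne_zero.2 hs)) n2,
    Ev_zero hT h (null_r ha two_pos) (x := z) (by rw [md_smul_l, z1, mul_zero]), add_zero,
    zero_add] at h1
  rw [Ev_dep hT hJ h (ns_null ha hb hab haw hbw hww hs) (hxy.trans n1.symm), h1]
  exact Ev_dep hT hJ h (null_r hb hs2) (by rw [md_smul_l, md_smul_l, z2, ht]) v

include hT hJ h hK ha hb hab in
lemma Ev_odd {x y : V} (hxy : GF.mdot a x = -GF.mdot a y) (v : D) :
    Ev Q A K x a v = -Ev Q A K y a v := by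
  obtain ⟨w, haw, hbw, hww⟩ := exists_w a b
  set z : V := (-(2 * GF.mdot a x)) • w with hz
  have z1 : GF.mdot a z = 0 := by rw [hz, md_smul, haw]; ring
  have z2 : GF.mdot b z = 0 := by rw [hz, md_smul, hbw]; ring
  have z3 : GF.mdot w z = 2 * GF.mdot a x := by rw [hz, md_smul, hww]; ring
  have h1 := Ev_add h hK (ns_null ha hb hab haw hbw hww one_ne_zero)
    (ns_null ha hb hab haw hbw hww (neg_ne_zero.2 one_ne_zero)) (null_r ha two_pos)
    (null_r hb (r := (1:ℝ) ^ 2) (by norm_num)) (ns_rel a b w 1) z v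
  rw [stA hT hJ h hK ha hb hab haw hbw hww one_ne_zero (x := z) (y := x)
      (by rw [ns_dot, z1, z2, z3]; ring),
    stA hT hJ h hK ha hb hab haw hbw hww (neg_ne_zero.2 one_ne_zero) (x := z) (y := y)
      (by rw [ns_dot, z1, z2, z3, hxy]; ring),
    Ev_zero hT h (null_r ha two_pos) (x := z) (by rw [md_smul_l, z1, mul_zero]),
    Ev_zero hT h (null_r hb (r := (1:ℝ) ^ 2) (by norm_num)) (x := z)
      (by rw [md_smul_l, z2, mul_zero]), add_zero,
    Ev_r hT h ha two_pos, Ev_r hT h ha two_pos, ← smul_add] at h1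
  have h2 := (smul_eq_zero.1 h1).resolve_left (by norm_num)
  exact eq_neg_of_add_eq_zero_left h2

include hT hJ h hK ha hb hab in
lemma Ev_hom {r : ℝ} (hr : 0 < r) {x y : V} (hxy : GF.mdot a x = r * GF.mdot b y) (v : D) :
    Ev Q A K x a v = (r : ℂ) • Ev Q A K y b v := by
  obtain ⟨w, haw, hbw, hww⟩ := exists_w a b
  set s : ℝ := Real.sqrt (2 * r) with hs
  have hs0 : 0 < s := Real.sqrt_pos.2 (by linarith)
  have hs2 : s ^ 2 = 2 * r := Real.sq_sqrt (by linarith)
  set t : ℝ := GF.mdot a x with ht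
  set z : V := t • b - (t / s) • w with hz
  have z1 : GF.mdot a z = t := by rw [hz, md_sub, md_smul, md_smul, hab, haw]; ring
  have z2 : GF.mdot b z = 0 := by rw [hz, md_sub, md_smul, md_smul, hb.1, hbw]; ring
  have z3 : GF.mdot w z = t / s := by
    rw [hz, md_sub, md_smul, md_smul, md_comm w b, hbw, hww]; ring
  have n1 : GF.mdot (ns a b w s) z = 2 * t := by
    rw [ns_dot, z1, z2, z3]; field_simp; ring
  have h1 := stA hT hJ h hK ha hb hab haw hbw hww hs0.ne' (x := z) (y := x) n1 v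
  have h2 := stB hT hJ h hK ha hb hab haw hbw hww hs0.ne' (x := z) (y := y)
    (by rw [n1, hs2, hxy]; ring) v
  rw [h1, Ev_r hT h ha two_pos, hs2, Ev_r hT h hb (by linarith)] at h2
  have h3 : ((2 : ℝ) : ℂ) • (Ev Q A K x a v - (r : ℂ) • Ev Q A K y b v) = 0 := by
    rw [smul_sub, h2, smul_smul]
    push_cast
    rw [sub_self]
  have h4 := (smul_eq_zero.1 h3).resolve_left (by norm_num)
  exact sub_eq_zero.1 h4

include hT hJ h hK ha hb hab in
lemma Ev_lin (u : ℝ) (v : D) : Ev Q A K (u • b) a v = (u : ℂ) • Ev Q A K b a v := by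
  have hba : GF.mdot b a = 1 := by rw [md_comm, hab]
  have h1 := Ev_hom hT hJ h hK ha hb hab one_pos (x := b) (y := a) (by rw [hab, hba, mul_one]) v
  have key : ∀ r : ℝ, 0 < r → Ev Q A K (r • b) a v = (r : ℂ) • Ev Q A K b a v := by
    intro r hr
    have h2 := Ev_hom hT hJ h hK ha hb hab hr (x := r • b) (y := a)
      (by rw [md_smul, hab, hba]) v
    rw [h2, h1]
    simp
  rcases lt_trichotomy u 0 with hu | hu | hu
  · have h3 := Ev_odd hT hJ h hK ha hb hab (x := u • b) (y := (-u) • b)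
      (by rw [md_smul, md_smul]; ring) v
    rw [h3, key (-u) (by linarith)]
    push_cast
    rw [neg_smul, neg_neg]
  · rw [hu, Ev_zero hT h ha (by rw [md_smul, zero_mul])]
    simp
  · exact key u hu

include hT hJ h hK ha hb hab in
lemma kv_lin (u : ℝ) (v : D) : kv Q A K a b v u = K a v + (u : ℂ) • Ev Q A K b a v := by
  rw [← Ev_lin hT hJ h hK ha hb hab u v]
  unfold Ev kv
  rw [H755.A_XXb h.toRep hb hab u v]
  push_cast
  module

end

/-- **Additivity of the second moments implies the on-shell dilaton constraint.** -/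
theorem trNull_of_add (hT : Q.IsStress T) (hJ : IsVirial Q T J) (h : NullCharges Q T J A K)
    (hK : AddK K) : H121.TrNull T := by
  intro a b κ y ψ v w hA
  have hs : H755.Tst fun u => ψ (u + GF.mdot a y) := tst_shift hA.2.2.2.2.2 _
  have h1 := tg_lim hT hJ h (adm_of hA hs) (Q.U 1 GF.one (-y) v) (Q.U 1 GF.one (-y) w)
  rw [int_affine hs (kh_cont h hA.1 hA.2.1 _ _) (fun u t => by
    rw [kh_kv, kh_kv, kh_kv, kv_lin hT hJ h hK hA.1 hA.2.1 hA.2.2.1,
      kv_lin hT hJ h hK hA.1 hA.2.1 hA.2.2.1, kv_lin hT hJ h hK hA.1 hA.2.1 hA.2.2.1]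
    simp only [inner_add_right, inner_smul_right]
    push_cast
    ring), mul_zero, neg_zero] at h1
  refine h1.congr' ?_
  filter_upwards [eventually_ge_atTop (1:ℝ)] with R hR
  exact tgy hT hA y hR v w

end Vale.Agent.P352.H993

end
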