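import Vale.Agent.P352.H15.BkDefs
import Vale.Agent.P352.H246.Dil
import Vale.Agent.P352.H246.Main

set_option linter.all false

noncomputable section

open MeasureTheory SchwartzMap Complex Filter Topology
open scoped SchwartzMap ComplexConjugate ENNReal LineDeriv ContDiff FourierTransform

/-!
# P352 (helper993): the trace vector, definitions on Schwartz functions
-/

namespace Vale.Agent.P352.H993

open GF (Ix V Fn Sch ev pd bar sim bas o)
open H246
open H15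

/-- derivative along `a` -/
def dS (a : V) (f : 𝓢(Mink, ℂ)) : 𝓢(Mink, ℂ) := ∑ m, (a m : ℂ) • (∂_{eb m} f : 𝓢(Mink, ℂ))

/-- multiplication by `a·x` -/
def axS (a : V) (f : 𝓢(Mink, ℂ)) : 𝓢(Mink, ℂ) := ∑ m, ((GF.eta m * a m : ℝ) : ℂ) • Xm m f

/-- multiplication by `x·x` -/
def xxS (f : 𝓢(Mink, ℂ)) : 𝓢(Mink, ℂ) := ∑ m, (GF.eta m : ℂ) • Xm m (Xm m f)

/-- `kd` on Schwartz functions -/
def kdS (a : V) (Δ : ℝ) (f : 𝓢(Mink, ℂ)) : 𝓢(Mink, ℂ) :=
  xxS (dS a f) - (2 : ℂ) • axS a (Eu f) - ((8 - 2 * Δ : ℝ) : ℂ) • axS a f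

lemma dS_apply (a : V) (f : 𝓢(Mink, ℂ)) (x : Mink) :
    dS a f x = ∑ m, (a m : ℂ) * (∂_{eb m} f : 𝓢(Mink, ℂ)) x := by
  unfold dS
  rw [SchwartzMap.sum_apply]
  rfl

lemma axS_apply (a : V) (f : 𝓢(Mink, ℂ)) (x : Mink) :
    axS a f x = (GF.mdot a x.ofLp : ℂ) * f x := by
  unfold axS
  rw [SchwartzMap.sum_apply, GF.mdot, ofReal_sum, Finset.sum_mul]
  refine Finset.sum_congr rfl fun m _ => ?_
  rw [SchwartzMap.smul_apply, Xm_apply, smul_eq_mul]
  push_cast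
  ring

lemma xxS_apply (f : 𝓢(Mink, ℂ)) (x : Mink) :
    xxS f x = (GF.mdot x.ofLp x.ofLp : ℂ) * f x := by
  unfold xxS
  rw [SchwartzMap.sum_apply, GF.mdot, ofReal_sum, Finset.sum_mul]
  refine Finset.sum_congr rfl fun m _ => ?_
  rw [SchwartzMap.smul_apply, Xm_apply, Xm_apply, smul_eq_mul]
  push_cast
  ring

lemma fl_kdS (a : V) (Δ : ℝ) (f : 𝓢(Mink, ℂ)) : fl (kdS a Δ f) = kd a Δ (fl f) := by
  funext x
  unfold kdS kd ky
  rw [fl_apply, SchwartzMap.sub_apply, SchwartzMap.sub_apply, SchwartzMap.smul_apply,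
    SchwartzMap.smul_apply, xxS_apply, axS_apply, axS_apply, dS_apply, smul_eq_mul, smul_eq_mul]
  unfold Eu
  rw [SchwartzMap.sum_apply]
  simp only [pd_fl, Xm_apply, cK, fl_apply, Pi.sub_apply, Pi.smul_apply, smul_eq_mul]
  simp only [Fin.sum_univ_four]
  push_cast
  ring

lemma fl_dS (a : V) (f : 𝓢(Mink, ℂ)) : fl (dS a f) = fun x => ∑ m, (a m : ℂ) * pd m (fl f) x := by
  funext x
  rw [fl_apply, dS_apply]
  refine Finset.sum_congr rfl fun m _ => ?_
  rw [pd_fl, fl_apply]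

variable {D : Type*} [NormedAddCommGroup D] [InnerProductSpace ℂ D]

/-- the difference of the trace and of the box of `Y` -/
def Xi (Q : GF.Theory D) (T : Ix → Ix → GF.Fld D) (Y : Fn → D) (f : 𝓢(Mink, ℂ)) : D :=
  GF.tr T (fl f) Q.vac - (I / 4) • Y (fl (boxS f))

/-- the component along `a` of the difference of the virial current and of the gradient of `Y` -/
def Wv (Q : GF.Theory D) (J : Ix → GF.Fld D) (Y : Fn → D) (a : V) (f : 𝓢(Mink, ℂ)) : D :=
  ct J a (fl f) Q.vac + (I / 4) • Y (fl (dS a f))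

end Vale.Agent.P352.H993

end
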