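import Vale.Agent.P352.H993.TrPol

set_option linter.all false

noncomputable section

open MeasureTheory SchwartzMap Complex Filter Topology
open scoped SchwartzMap ComplexConjugate ENNReal LineDeriv ContDiff FourierTransform

/-!
# P352 (helper993): the trace of the stress tensor on the vacuum
-/

namespace Vale.Agent.P352.H993

open GF (Ix V Fn Sch ev pd bar sim bas o)
open H246 H246R
open H15
open H731 (simC simS_simC)
open UniformSpace (Completion)

variable {D : Type*} [NormedAddCommGroup D] [InnerProductSpace ℂ D] {Q : GF.Theory D}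

lemma exists_clmD {Z : 𝓢(Mink, ℂ) → D}
    (lin : ∀ (f g : 𝓢(Mink, ℂ)) (c : ℂ), Z (f + c • g) = Z f + c • Z g)
    (cont : Continuous Z) : ∃ κ : 𝓢(Mink, ℂ) →L[ℂ] Completion D, ∀ f, κ f = (Z f : Completion D) := by
  have h0 : Z 0 = 0 := by
    have h := lin 0 0 1
    simp only [smul_zero, add_zero, one_smul] at h
    simpa using h
  refine ⟨⟨⟨⟨fun f => (Z f : Completion D), fun f g => ?_⟩, fun c g => ?_⟩, ?_⟩, fun f => rfl⟩
  · have h := lin f g 1
    rw [one_smul, one_smul] at h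
    rw [h, Completion.coe_add]
  · have h := lin 0 g c
    rw [zero_add, h0, zero_add] at h
    show ((Z (c • g) : D) : Completion D) = c • (Z g : Completion D)
    rw [h, Completion.coe_smul]
  · exact (Completion.continuous_coe D).comp cont

section

variable {T : Ix → Ix → GF.Fld D} {J : Ix → GF.Fld D} {Y : Fn → D}
  (hl : ∀ f g c, GF.IsTest f → GF.IsTest g → Y (fun x => f x + c * g x) = Y f + c • Y g)
  (hc : Continuous fun g => Y (ev g))
  (hcov : ∀ s L x f, 0 < s → GF.IsLor L → GF.IsTest f →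
    Y f = ((s ^ 2 : ℝ) : ℂ) • Q.U s L x (Y fun z => f (sim s L x z)))

include hl in
lemma Y_lin (f g : 𝓢(Mink, ℂ)) (c : ℂ) : Y (fl (f + c • g)) = Y (fl f) + c • Y (fl g) := by
  rw [← fl_add_smul]
  exact hl _ _ c (isTest_fl f) (isTest_fl g)

include hl in
lemma Y_zero : Y (fl 0) = 0 := by
  have h := Y_lin hl 0 0 1
  simp only [smul_zero, add_zero, one_smul] at h
  simpa using h

include hl in
lemma Y_smul (c : ℂ) (g : 𝓢(Mink, ℂ)) : Y (fl (c • g)) = c • Y (fl g) := by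
  have h := Y_lin hl 0 g c
  rwa [zero_add, Y_zero hl, zero_add] at h

include hl in
lemma Y_add (f g : 𝓢(Mink, ℂ)) : Y (fl (f + g)) = Y (fl f) + Y (fl g) := by
  have h := Y_lin hl f g 1
  rwa [one_smul, one_smul] at h

include hl in
lemma Y_sum (g : Ix → 𝓢(Mink, ℂ)) : Y (fl (∑ k, g k)) = ∑ k, Y (fl (g k)) := by
  rw [Fin.sum_univ_four, Fin.sum_univ_four, Y_add hl, Y_add hl, Y_add hl]

include hc in
lemma Y_cont : Continuous fun f : 𝓢(Mink, ℂ) => Y (fl f) := by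
  have h2 : (fun f : 𝓢(Mink, ℂ) => Y (fl f)) = (fun g => Y (ev g)) ∘ toSchL := rfl
  rw [h2]
  exact hc.comp toSchL.continuous

include hcov in
lemma Y_cov {s : ℝ} (hs : 0 < s) {L : Ix → V} (hL : GF.IsLor L) (x : V) (f : 𝓢(Mink, ℂ)) :
    Y (fl f) = ((s ^ 2 : ℝ) : ℂ) • Q.U s L x (Y (fl (simS s hs hL x f))) := by
  rw [hcov s L x (fl f) hs hL (isTest_fl f), fl_sim s hs hL x]

lemma dS_add_smul (a : V) (f g : 𝓢(Mink, ℂ)) (c : ℂ) : dS a (f + c • g) = dS a f + c • dS a g := by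
  rw [dS_add, dS_smul]

lemma continuous_dS (a : V) : Continuous (dS a) := by
  unfold dS
  refine continuous_finsetSum _ fun k _ => ?_
  have h : Continuous fun f : 𝓢(Mink, ℂ) => (∂_{eb k} f : 𝓢(Mink, ℂ)) :=
    LineDeriv.continuous_lineDerivOp (eb k)
  exact h.const_smul (a k : ℂ)

/-! ### Linearity and continuity -/

include hl in
lemma Xi_lin (hT : Q.IsStress T) (f g : 𝓢(Mink, ℂ)) (c : ℂ) :
    Xi Q T Y (f + c • g) = Xi Q T Y f + c • Xi Q T Y g := by
  unfold Xi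
  rw [(PField.tr hT).lin, boxS_add_smul, Y_lin hl]
  simp only [smul_add, smul_sub, smul_smul]
  rw [mul_comm (I / 4) c]
  abel

include hc in
lemma Xi_cont (hT : Q.IsStress T) : Continuous (Xi Q T Y) := by
  unfold Xi
  refine ((PField.tr hT).cont Q.vac).sub ?_
  exact ((Y_cont hc).comp continuous_boxS).const_smul _

include hl in
lemma Wv_lin (hJ : IsVirial Q T J) (a : V) (f g : 𝓢(Mink, ℂ)) (c : ℂ) :
    Wv Q J Y a (f + c • g) = Wv Q J Y a f + c • Wv Q J Y a g := by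
  unfold Wv ct
  rw [dS_add_smul, Y_lin hl]
  simp only [fld_lin (Q.bose_fld _ (hJ.bose _)), smul_add, Finset.sum_add_distrib,
    Finset.smul_sum, smul_smul]
  rw [mul_comm (I / 4) c]
  have : ∀ m : Ix, ((GF.eta m * a m : ℝ) : ℂ) * c = c * ((GF.eta m * a m : ℝ) : ℂ) :=
    fun m => mul_comm _ _
  simp only [this]
  abel

include hc in
lemma Wv_cont (hJ : IsVirial Q T J) (a : V) : Continuous (Wv Q J Y a) := by
  unfold Wv ct
  refine (continuous_finsetSum _ fun m _ =>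
    (fld_cont (Q.bose_fld _ (hJ.bose m)) Q.vac).const_smul _).add ?_
  exact ((Y_cont hc).comp (continuous_dS a)).const_smul _

/-! ### Covariance -/

include hl hcov in
lemma Xi_cov (hT : Q.IsStress T) {s : ℝ} (hs : 0 < s) {L : Ix → V} (hL : GF.IsLor L) (x : V)
    (f : 𝓢(Mink, ℂ)) : Xi Q T Y f = Q.U s L x (Xi Q T Y (simS s hs hL x f)) := by
  unfold Xi
  have h1 := (PField.tr hT).cov_vac s hs hL x f
  have e : ((s ^ ((4 : ℝ) - 4) : ℝ) : ℂ) = 1 := by norm_num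
  rw [e, one_smul] at h1
  have h2 : Y (fl (boxS f)) = Q.U s L x (Y (fl (boxS (simS s hs hL x f)))) := by
    rw [Y_cov hcov hs hL x (boxS f), boxS_simS, Y_smul hl, U_smul hs hL]
  have h3 : ∀ v w : D, Q.U s L x (v - w) = Q.U s L x v - Q.U s L x w := by
    intro v w
    rw [sub_eq_add_neg, ← neg_one_smul ℂ w, U_add hs hL, U_smul hs hL, neg_one_smul,
      ← sub_eq_add_neg]
  rw [h3, U_smul hs hL, ← h1, ← h2]

lemma ld_tauS (b : Mink) (v : Mink) (f : 𝓢(Mink, ℂ)) :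
    (∂_{v} (tauS b f) : 𝓢(Mink, ℂ)) = tauS b (∂_{v} f) := by
  ext x
  rw [tauS_apply]
  apply lineDeriv_eq_of_hasDerivAt
  have h1 := hasDerivAt_line f (x - b) v
  refine h1.congr_of_eventuallyEq (Eventually.of_forall fun t => ?_)
  show tauS b f (x + t • v) = f (x - b + t • v)
  rw [tauS_apply]
  congr 1
  abel

lemma dS_tauS (a : V) (b : Mink) (f : 𝓢(Mink, ℂ)) : dS a (tauS b f) = tauS b (dS a f) := by
  ext x
  rw [tauS_apply, dS_apply, dS_apply]
  simp only [ld_tauS, tauS_apply]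

include hcov in
lemma Y_tau (b : Mink) (f : 𝓢(Mink, ℂ)) : Y (fl (tauS b f)) = U1 Q b (Y (fl f)) := by
  have h := Y_cov hcov one_pos isLor_one b.ofLp (tauS b f)
  rw [simS_tauS] at h
  rw [h]
  simp [U1]

include hcov in
lemma Wv_tau (hJ : IsVirial Q T J) (a : V) (b : Mink) (f : 𝓢(Mink, ℂ)) :
    Wv Q J Y a (tauS b f) = U1 Q b (Wv Q J Y a f) := by
  have hadd : ∀ v w : D, U1 Q b (v + w) = U1 Q b v + U1 Q b w :=
    fun v w => U_add one_pos isLor_one _ v w
  have hsm : ∀ (c : ℂ) (v : D), U1 Q b (c • v) = c • U1 Q b v :=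
    fun c v => U_smul one_pos isLor_one _ c v
  have hJm : ∀ m, J m (fl (tauS b f)) Q.vac = U1 Q b (J m (fl f) Q.vac) := by
    intro m
    have h := U_fld (Q.bose_fld _ (hJ.bose m)) f b Q.vac
    rw [show Q.U 1 GF.one b.ofLp Q.vac = Q.vac from U1_vac b] at h
    exact h.symm
  unfold Wv ct
  rw [dS_tauS, Y_tau hcov, hadd, hsm]
  simp only [hJm, Fin.sum_univ_four, hadd, hsm]

include hl hcov in
lemma Xi_tau (hT : Q.IsStress T) (b : Mink) (f : 𝓢(Mink, ℂ)) :
    Xi Q T Y (tauS b f) = U1 Q b (Xi Q T Y f) := by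
  have h := Xi_cov hl hcov hT one_pos isLor_one b.ofLp (tauS b f)
  rw [simS_tauS] at h
  exact h

/-! ### The divergence -/

include hl in
/-- `Xi` is minus the divergence of the vector field -/
lemma Xi_div (hJ : IsVirial Q T J) (f : 𝓢(Mink, ℂ)) :
    Xi Q T Y f = -∑ m, Wv Q J Y (fun n => if n = m then GF.eta m else 0) (∂_{eb m} f) := by
  have h1 : ∀ m, Wv Q J Y (fun n => if n = m then GF.eta m else 0) (∂_{eb m} f) =
      J m (fl (∂_{eb m} f)) Q.vac +
        (I / 4) • Y (fl ((GF.eta m : ℂ) • (∂_{eb m} (∂_{eb m} f : 𝓢(Mink, ℂ)) : 𝓢(Mink, ℂ)))) := by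
    intro m
    unfold Wv ct
    congr 1
    · rw [Finset.sum_eq_single m]
      · beta_reduce
        rw [if_pos rfl, eta_sq', ofReal_one, one_smul]
      · intro n _ hn
        beta_reduce
        rw [if_neg hn, mul_zero, ofReal_zero, zero_smul]
      · intro h
        exact absurd (Finset.mem_univ _) h
    · congr 3
      unfold dS
      rw [Finset.sum_eq_single m]
      · beta_reduce
        rw [if_pos rfl]
      · intro n _ hn
        beta_reduce
        rw [if_neg hn, ofReal_zero, zero_smul]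
      · intro h
        exact absurd (Finset.mem_univ _) h
  simp only [h1]
  rw [Finset.sum_add_distrib, ← Finset.smul_sum, ← Y_sum hl]
  unfold Xi
  rw [hJ.div (fl f) Q.vac (isTest_fl f)]
  simp only [pd_fl]
  have h2 : (∑ k : Ix, (GF.eta k : ℂ) • (∂_{eb k} (∂_{eb k} f : 𝓢(Mink, ℂ)) : 𝓢(Mink, ℂ))) =
      boxS f := rfl
  rw [h2]
  abel

/-- four null vectors that span -/
def nb : Fin 4 → V := ![![1, 1, 0, 0], ![1, -1, 0, 0], ![1, 0, 1, 0], ![1, 0, 0, 1]]

lemma isNull_nb (i : Fin 4) : H496.IsNull (nb i) := by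
  refine ⟨?_, ?_⟩
  · rw [gf_mdot]
    fin_cases i <;> simp [nb]
  · fin_cases i <;> simp [nb, GF.o]

include hl in
lemma Wv_comb (hJ : IsVirial Q T J) (a : V) (f : 𝓢(Mink, ℂ)) : Wv Q J Y a f =
    (((a 0 - a 2 - a 3 + a 1) / 2 : ℝ) : ℂ) • Wv Q J Y (nb 0) f +
    (((a 0 - a 2 - a 3 - a 1) / 2 : ℝ) : ℂ) • Wv Q J Y (nb 1) f +
    ((a 2 : ℝ) : ℂ) • Wv Q J Y (nb 2) f + ((a 3 : ℝ) : ℂ) • Wv Q J Y (nb 3) f := by
  have h1 : dS a f = (((a 0 - a 2 - a 3 + a 1) / 2 : ℝ) : ℂ) • dS (nb 0) f +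
    (((a 0 - a 2 - a 3 - a 1) / 2 : ℝ) : ℂ) • dS (nb 1) f +
    ((a 2 : ℝ) : ℂ) • dS (nb 2) f + ((a 3 : ℝ) : ℂ) • dS (nb 3) f := by
    ext x
    simp only [SchwartzMap.add_apply, SchwartzMap.smul_apply, dS_apply, Fin.sum_univ_four,
      smul_eq_mul]
    simp [nb]
    ring
  unfold Wv ct
  rw [h1, Y_add hl, Y_add hl, Y_add hl, Y_smul hl, Y_smul hl, Y_smul hl, Y_smul hl]
  simp only [Fin.sum_univ_four, eta_0, eta_1, eta_2, eta_3]
  simp [nb]
  module

/-- **`Xi` vanishes.** -/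
theorem Xi_zero (hT : Q.IsStress T) (hJ : IsVirial Q T J)
    (hl : ∀ f g c, GF.IsTest f → GF.IsTest g → Y (fun x => f x + c * g x) = Y f + c • Y g)
    (hc : Continuous fun g => Y (ev g))
    (hcov : ∀ s L x f, 0 < s → GF.IsLor L → GF.IsTest f →
      Y f = ((s ^ 2 : ℝ) : ℂ) • Q.U s L x (Y fun z => f (sim s L x z)))
    (hsym : ∀ (a : V) (f g : 𝓢(Mink, ℂ)), H496.IsNull a →
      inner ℂ (Xi Q T Y (kdS a 4 g)) (Wv Q J Y a f) +
        inner ℂ (Xi Q T Y g) (Wv Q J Y a (kdS a 2 f)) = 0) (f : 𝓢(Mink, ℂ)) :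
    Xi Q T Y f = 0 := by
  obtain ⟨X, hX⟩ := exists_clmD (Xi_lin hl hT) (Xi_cont hc hT)
  have hU : ∀ (b : Mink) (v w : D), inner ℂ (U1 Q b v) (U1 Q b w) = inner ℂ v w :=
    fun b v w => U1_inner b v w
  have hXt : ∀ g (a : Mink) (z : D), inner ℂ ((U1 Q a z : D) : Completion D) (X (tauS a g)) =
      inner ℂ (z : Completion D) (X g) := by
    intro g a z
    rw [hX, hX, Xi_tau hl hcov hT, Completion.inner_coe, Completion.inner_coe, hU]
  -- vanishing along null directions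
  have h1 : ∀ (a : V), H496.IsNull a → ∀ g f : 𝓢(Mink, ℂ), HasCompactSupport (mftS f) →
      inner ℂ (Xi Q T Y g) (Wv Q J Y a (dS a f)) = 0 := by
    intro a ha
    obtain ⟨W, hW⟩ := exists_clmD (Wv_lin hl hJ a) (Wv_cont hc hJ a)
    obtain ⟨TT, hTT⟩ := exists_TT (Q := Q) (X := X) (W := W) hXt (by
      intro g b z
      rw [hW, hW, Wv_tau hcov hJ, Completion.inner_coe, Completion.inner_coe, hU])
    intro g f hf
    have h2 := TT_van TT (a := a) (B := fun g f => inner ℂ (X g) (W f)) hTT (by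
      intro f g
      show inner ℂ (X (kdS a 4 g)) (W f) + inner ℂ (X g) (W (kdS a 2 f)) = 0
      rw [hX, hX, hW, hW, Completion.inner_coe, Completion.inner_coe]
      exact hsym a f g ha) g f hf
    have h3 : inner ℂ (X g) (W (dS a f)) = 0 := h2
    rwa [hX, hW, Completion.inner_coe] at h3
  have hcs : ∀ (a : V) (f : 𝓢(Mink, ℂ)), HasCompactSupport (mftS f) →
      HasCompactSupport (mftS (dS a f)) := by
    intro a f hf
    rw [mftS_dS]
    refine hf.mono fun x hx => ?_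
    rw [Function.mem_support] at hx ⊢
    intro h
    apply hx
    rw [SchwartzMap.smul_apply, axS_apply, h, mul_zero, smul_zero]
  have hcm : ∀ (m : Ix) (f : 𝓢(Mink, ℂ)), HasCompactSupport (mftS f) →
      HasCompactSupport (mftS (∂_{eb m} f)) := by
    intro m f hf
    rw [mftS_ld]
    refine hf.mono fun x hx => ?_
    rw [Function.mem_support] at hx ⊢
    intro h
    apply hx
    rw [SchwartzMap.smul_apply, Xm_apply, h, mul_zero, smul_zero]
  have hcom : ∀ (a b : V) (f : 𝓢(Mink, ℂ)), dS a (dS b f) = dS b (dS a f) := by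
    intro a b f
    have e : ∀ b, dS b f = ∑ m, (b m : ℂ) • (∂_{eb m} f : 𝓢(Mink, ℂ)) := fun _ => rfl
    have e2 : dS a (dS b f) = ∑ m, (b m : ℂ) • (∂_{eb m} (dS a f) : 𝓢(Mink, ℂ)) := by
      rw [e b]
      rw [Fin.sum_univ_four, Fin.sum_univ_four, dS_add, dS_add, dS_add, dS_smul, dS_smul,
        dS_smul, dS_smul, dS_ld, dS_ld, dS_ld, dS_ld]
    rw [e2]
    rfl
  set Dp : 𝓢(Mink, ℂ) → 𝓢(Mink, ℂ) := fun f => dS (nb 0) (dS (nb 1) (dS (nb 2) (dS (nb 3) f)))
    with hDp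
  have h2 : ∀ (a : V) (g f : 𝓢(Mink, ℂ)), HasCompactSupport (mftS f) →
      inner ℂ (Xi Q T Y g) (Wv Q J Y a (Dp f)) = 0 := by
    intro a g f hf
    have k0 : inner ℂ (Xi Q T Y g) (Wv Q J Y (nb 0) (Dp f)) = 0 :=
      h1 _ (isNull_nb 0) g _ (hcs _ _ (hcs _ _ (hcs _ _ hf)))
    have k1 : inner ℂ (Xi Q T Y g) (Wv Q J Y (nb 1) (Dp f)) = 0 := by
      have : Dp f = dS (nb 1) (dS (nb 0) (dS (nb 2) (dS (nb 3) f))) := hcom _ _ _
      rw [this]
      exact h1 _ (isNull_nb 1) g _ (hcs _ _ (hcs _ _ (hcs _ _ hf)))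
    have k2 : inner ℂ (Xi Q T Y g) (Wv Q J Y (nb 2) (Dp f)) = 0 := by
      have : Dp f = dS (nb 2) (dS (nb 0) (dS (nb 1) (dS (nb 3) f))) := by
        show dS (nb 0) (dS (nb 1) (dS (nb 2) (dS (nb 3) f))) = _
        rw [hcom (nb 1) (nb 2), hcom (nb 0) (nb 2)]
      rw [this]
      exact h1 _ (isNull_nb 2) g _ (hcs _ _ (hcs _ _ (hcs _ _ hf)))
    have k3 : inner ℂ (Xi Q T Y g) (Wv Q J Y (nb 3) (Dp f)) = 0 := by
      have : Dp f = dS (nb 3) (dS (nb 0) (dS (nb 1) (dS (nb 2) f))) := by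
        show dS (nb 0) (dS (nb 1) (dS (nb 2) (dS (nb 3) f))) = _
        rw [hcom (nb 2) (nb 3), hcom (nb 1) (nb 3), hcom (nb 0) (nb 3)]
      rw [this]
      exact h1 _ (isNull_nb 3) g _ (hcs _ _ (hcs _ _ (hcs _ _ hf)))
    rw [Wv_comb hl hJ a]
    simp only [inner_add_right, inner_smul_right, k0, k1, k2, k3, mul_zero, add_zero]
  have h3 : ∀ f, HasCompactSupport (mftS f) → Xi Q T Y (Dp f) = 0 := by
    intro f hf
    have h4 : inner ℂ (Xi Q T Y (Dp f)) (Xi Q T Y (Dp f)) = (0 : ℂ) := by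
      nth_rewrite 2 [Xi_div hl hJ]
      rw [inner_neg_right, inner_sum, neg_eq_zero]
      refine Finset.sum_eq_zero fun m _ => ?_
      have e : (∂_{eb m} (Dp f) : 𝓢(Mink, ℂ)) = Dp (∂_{eb m} f) := by
        show (∂_{eb m} (dS (nb 0) (dS (nb 1) (dS (nb 2) (dS (nb 3) f)))) : 𝓢(Mink, ℂ)) =
          dS (nb 0) (dS (nb 1) (dS (nb 2) (dS (nb 3) (∂_{eb m} f))))
        rw [dS_ld, dS_ld, dS_ld, dS_ld]
      rw [e]
      exact h2 _ _ _ (hcm m f hf)
    exact inner_self_eq_zero.1 h4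
  have h5 : X f = 0 := zero_of_D hXt (by
    intro s hs L hL f v
    rw [hX, hX, Xi_cov hl hcov hT hs hL 0 f, Completion.inner_coe, Completion.inner_coe,
      Q.U_inner s L 0 _ _ hs hL, simS_simC, ofReal_one, one_mul]) (b := nb) isNull_nb (by
    intro f hf
    rw [hX, h3 f hf, Completion.coe_zero]) f
  rw [hX] at h5
  exact Completion.coe_eq_zero_iff.1 h5

end

end Vale.Agent.P352.H993

end
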