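import Vale.Agent.P352.H993.LfLim
import Vale.Agent.P352.H846.CgDefs

set_option linter.all false

noncomputable section

open MeasureTheory Filter Topology Set
open scoped ContDiff ComplexConjugate

/-!
# P352 (helper993): the improvement field on cut off null profiles (row C2 of R9')
-/

namespace Vale.Agent.P352.H993

open GF (Ix V Fn Fld bas eta pd)
open H755 H496 H15 H246
open H846 (cut_tst cut_cv contDiff_cv contDiff_mdot mdot_cv cv)
open H746 (Lf)

variable {D : Type*} [NormedAddCommGroup D] [InnerProductSpace ℂ D]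
variable {Q : GF.Theory D} {T : Ix → Ix → GF.Fld D} {J : Ix → GF.Fld D}
  {A : (V → V) → D → D} {K : V → D → D}

/-! ### Classes of profiles -/

lemma tst_fd {ν : V → ℝ} (hν : Tst ν) {c : V → ℝ} (hc : ContDiff ℝ ∞ c) {y : V → V}
    (hy : ContDiff ℝ ∞ y) : Tst fun z => c z * fderiv ℝ ν z (y z) := by
  have h1 := hν.1.fderiv_right (m := (∞ : WithTop ℕ∞)) (by simp)
  refine ⟨hc.mul (h1.clm_apply hy), ?_⟩
  refine (hν.2.fderiv (𝕜 := ℝ)).mono fun z hz => ?_
  rw [Function.mem_support] at hz ⊢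
  intro h
  apply hz
  rw [h]
  simp

lemma near_fd {ν : V → ℝ} (hν0 : ∀ᶠ x in 𝓝 (0 : V), ν x = 0) (c : V → ℝ) (y : V → V) :
    ∀ᶠ z in 𝓝 (0 : V), c z * fderiv ℝ ν z (y z) = 0 := by
  filter_upwards [hν0.eventually_nhds] with z hz
  have h1 : ν =ᶠ[𝓝 z] fun _ => (0 : ℝ) := hz
  rw [h1.fderiv_eq]
  simp

lemma contDiff_mm : ContDiff ℝ ∞ fun z : V => -GF.mdot z z := by
  unfold GF.mdot
  fun_prop

lemma tst_id_mul {ψ : ℝ → ℝ} (hψ : Tst ψ) : Tst fun u => u * ψ u :=
  ⟨contDiff_id.mul hψ.1, hψ.2.mul_left⟩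

lemma tst_deriv {ψ : ℝ → ℝ} (hψ : Tst ψ) : Tst (deriv ψ) := by
  refine ⟨?_, hψ.2.deriv⟩
  exact (contDiff_infty_iff_deriv.1 hψ.1).2

lemma tst_sq_deriv {ψ : ℝ → ℝ} (hψ : Tst ψ) : Tst fun u => 2 * u ^ 2 * deriv ψ u :=
  ⟨(contDiff_const.mul (contDiff_id.pow 2)).mul (tst_deriv hψ).1, (tst_deriv hψ).2.mul_left⟩

/-! ### Real smearings of the bracket -/

lemma jr_add {B : GF.Fld D} (hB : Q.fld B) {f g : V → ℝ} (hf : Tst f) (hg : Tst g) (v : D) :
    B (fun x => ((f x + g x : ℝ) : ℂ)) v = B (fun x => (f x : ℂ)) v + B (fun x => (g x : ℂ)) v := by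
  have h1 := Q.lin B (fun x => (f x : ℂ)) (fun x => (g x : ℂ)) 1 v hB (tstIs hf) (tstIs hg)
  rw [one_smul] at h1
  rw [← h1]
  congr 1
  funext x
  push_cast
  ring

lemma jr_smul {B : GF.Fld D} (hB : Q.fld B) {g : V → ℝ} (c : ℝ) (hg : Tst g) (v : D) :
    B (fun x => ((c * g x : ℝ) : ℂ)) v = (c : ℂ) • B (fun x => (g x : ℂ)) v := by
  have hz : Tst fun _ : V => (0 : ℝ) := ⟨contDiff_const, HasCompactSupport.zero⟩
  have h0 := jr_add hB hz hz v
  simp only [add_zero] at h0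
  have h0' : B (fun _ => ((0 : ℝ) : ℂ)) v = 0 := left_eq_add.mp h0
  have h1 := Q.lin B (fun _ => ((0 : ℝ) : ℂ)) (fun x => (g x : ℂ)) c v hB (tstIs hz) (tstIs hg)
  rw [h0', zero_add] at h1
  rw [← h1]
  congr 1
  funext x
  push_cast
  ring

lemma tadd {f g : V → ℝ} (hf : Tst f) (hg : Tst g) : Tst fun x => f x + g x :=
  ⟨hf.1.add hg.1, hf.2.add hg.2⟩

lemma tmul {g : V → ℝ} (c : ℝ) (hg : Tst g) : Tst fun x => c * g x :=
  tst_smul contDiff_const hg

lemma jm_add (hJ : IsVirial Q T J) {F G : Ix → V → ℝ} (hF : ∀ m, Tst (F m))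
    (hG : ∀ m, Tst (G m)) (v : D) :
    jm J (fun m x => F m x + G m x) v = jm J F v + jm J G v := by
  unfold jm
  rw [← Finset.sum_add_distrib]
  exact Finset.sum_congr rfl fun m _ => jr_add (Q.bose_fld _ (hJ.bose m)) (hF m) (hG m) v

lemma jm_smul (hJ : IsVirial Q T J) {G : Ix → V → ℝ} (c : ℝ) (hG : ∀ m, Tst (G m)) (v : D) :
    jm J (fun m x => c * G m x) v = (c : ℂ) • jm J G v := by
  unfold jm
  rw [Finset.smul_sum]
  exact Finset.sum_congr rfl fun m _ => jr_smul (Q.bose_fld _ (hJ.bose m)) c (hG m) v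

/-- four terms -/
lemma jm_four (hJ : IsVirial Q T J) {F0 F1 F2 F3 : Ix → V → ℝ} (c0 c1 c2 c3 : ℝ)
    (h0 : ∀ m, Tst (F0 m)) (h1 : ∀ m, Tst (F1 m)) (h2 : ∀ m, Tst (F2 m)) (h3 : ∀ m, Tst (F3 m))
    (v : D) : jm J (fun m x => c0 * F0 m x + (c1 * F1 m x + (c2 * F2 m x + c3 * F3 m x))) v =
      (c0 : ℂ) • jm J F0 v + ((c1 : ℂ) • jm J F1 v + ((c2 : ℂ) • jm J F2 v +
        (c3 : ℂ) • jm J F3 v)) := by
  have t0 : ∀ m, Tst fun x => c0 * F0 m x := fun m => tmul c0 (h0 m)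
  have t1 : ∀ m, Tst fun x => c1 * F1 m x := fun m => tmul c1 (h1 m)
  have t2 : ∀ m, Tst fun x => c2 * F2 m x := fun m => tmul c2 (h2 m)
  have t3 : ∀ m, Tst fun x => c3 * F3 m x := fun m => tmul c3 (h3 m)
  have t23 : ∀ m, Tst fun x => c2 * F2 m x + c3 * F3 m x := fun m => tadd (t2 m) (t3 m)
  have t123 : ∀ m, Tst fun x => c1 * F1 m x + (c2 * F2 m x + c3 * F3 m x) := fun m =>
    tadd (t1 m) (t23 m)
  rw [jm_add hJ t0 t123, jm_add hJ t1 t23, jm_add hJ t2 t3, jm_smul hJ _ h0, jm_smul hJ _ h1,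
    jm_smul hJ _ h2, jm_smul hJ _ h3]

/-- the local part of the bracket -/
def lpp (J : Ix → GF.Fld D) (a c : V) (f : Fn) (v : D) : D :=
  ct J c (kd a 3 f) v + ((2 * GF.mdot a c : ℝ) : ℂ) • ∑ k, (eta k : ℂ) •
    J k (fun x => (x k : ℂ) * f x) v - (2 : ℂ) • ct J a (fun x => (GF.mdot c x : ℂ) * f x) v

lemma bk_lpp (a c : V) (f : Fn) (v : D) : bk J K a c f v =
    K a (ct J c f v) - ct J c f (K a v) + Complex.I • lpp J a c f v := rfl

lemma tst_fdX {g : V → ℝ} (hg : Tst g) (a : V) : Tst fun x => fderiv ℝ g x (cK a x) := by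
  have hy : ContDiff ℝ ∞ (cK a) := by
    unfold cK
    have h1 : ContDiff ℝ ∞ fun z : V => GF.mdot z z := by
      unfold GF.mdot
      fun_prop
    exact ((contDiff_const.mul (contDiff_mdot a)).smul contDiff_id).sub (h1.smul contDiff_const)
  have h := tst_fd hg (c := fun _ => 1) contDiff_const hy
  simpa only [one_mul] using h

/-- the local part of the bracket as a smeared current -/
lemma lpp_real (hJ : IsVirial Q T J) {g : V → ℝ} (hg : Tst g) {a c : V} (hac : GF.mdot a c = 1)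
    (v : D) : lpp J a c (fun x => (g x : ℂ)) v = jm J (fun m x =>
      (eta m * c m) * (-fderiv ℝ g x (cK a x) - 2 * GF.mdot a x * g x) +
        (2 * (eta m * (x m * g x)) + (-2 * (eta m * a m)) * (GF.mdot c x * g x))) v := by
  have hB : ∀ m, Q.fld (J m) := fun m => Q.bose_fld _ (hJ.bose m)
  have e1 : kd a 3 (fun x => (g x : ℂ)) = fun x =>
      ((-fderiv ℝ g x (cK a x) - 2 * GF.mdot a x * g x : ℝ) : ℂ) := by
    funext x
    unfold kd ky
    simp only [pd_tst hg.1]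
    rw [← sum_dr hg.1]
    push_cast
    ring
  have t1 : Tst fun x => -fderiv ℝ g x (cK a x) - 2 * GF.mdot a x * g x := by
    have h1 := tst_fdX hg a
    have h2 : Tst fun x => 2 * GF.mdot a x * g x :=
      tst_smul (contDiff_const.mul (contDiff_mdot a)) hg
    exact ⟨h1.1.neg.sub h2.1, by
      have := h1.2.neg.add h2.2.neg
      refine this.mono fun x hx => ?_
      rw [Function.mem_support] at hx ⊢
      intro h
      apply hx
      simp only [Pi.add_apply, Pi.neg_apply] at h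
      rw [sub_eq_add_neg]
      exact h⟩
  have t2 : ∀ m, Tst fun x : V => x m * g x := fun m => tst_smul (contDiff_apply ℝ ℝ m) hg
  have t3 : Tst fun x => GF.mdot c x * g x := tst_smul (contDiff_mdot c) hg
  unfold lpp ct jm
  rw [e1, hac, mul_one, Finset.smul_sum, Finset.smul_sum, ← Finset.sum_add_distrib,
    ← Finset.sum_sub_distrib]
  refine Finset.sum_congr rfl fun m _ => ?_
  have e2 : (fun x : V => (x m : ℂ) * (g x : ℂ)) = fun x => ((x m * g x : ℝ) : ℂ) := by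
    funext x; push_cast; ring
  have e3 : (fun x : V => (GF.mdot c x : ℂ) * (g x : ℂ)) = fun x => ((GF.mdot c x * g x : ℝ) : ℂ) := by
    funext x; push_cast; ring
  rw [e2, e3]
  have s1 : Tst fun x : V => eta m * c m * (-fderiv ℝ g x (cK a x) - 2 * GF.mdot a x * g x) :=
    tst_smul contDiff_const t1
  have s2 : Tst fun x : V => 2 * (eta m * (x m * g x)) :=
    tst_smul contDiff_const (tst_smul contDiff_const (t2 m))
  have s3 : Tst fun x : V => (-2 * (eta m * a m)) * (GF.mdot c x * g x) :=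
    tst_smul contDiff_const t3
  have s4 : Tst fun x : V => eta m * (x m * g x) := tst_smul contDiff_const (t2 m)
  have s5 : Tst fun x : V => 2 * (eta m * (x m * g x)) + (-2 * (eta m * a m)) *
      (GF.mdot c x * g x) := ⟨s2.1.add s3.1, s2.2.add s3.2⟩
  rw [jr_add (hB m) s1 s5, jr_add (hB m) s2 s3, jr_smul (hB m) _ t1, jr_smul (hB m) _ s4,
    jr_smul (hB m) _ (t2 m), jr_smul (hB m) _ t3]
  push_cast
  module

section

variable {a b : V} (haa : GF.mdot a a = 0) (hbb : GF.mdot b b = 0) (hab : GF.mdot a b = 1)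
include haa hbb hab

lemma tst_gR {ν : V → ℝ} {ψ : ℝ → ℝ} (hν : Tst ν) (hψ : Tst ψ) {R : ℝ} (hR : 1 ≤ R) :
    Tst (gR a b ν ψ R) := by
  have h := tst_smul (f := fun _ => (R ^ 2)⁻¹) contDiff_const (cut_tst haa hbb hab hν hψ hR)
  have e : (gR a b ν ψ R) = fun x => (R ^ 2)⁻¹ * (cut a b ν R x * ψ (GF.mdot a x)) := by
    funext x
    unfold gR
    ring
  rw [e]
  exact h

/-- the first local part -/
lemma lim_lpa (hJ : IsVirial Q T J) (hN : NF J a b) {ν : V → ℝ} {ψ : ℝ → ℝ} (hν : Tst ν)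
    (hν0 : ∀ᶠ x in 𝓝 (0 : V), ν x = 0) (hψ : Tst ψ) (v w : D) :
    Tendsto (fun R => inner ℂ w (lpp J a b (fun x => (gR a b ν ψ R x : ℂ)) v)) atTop (𝓝 0) := by
  have hm : ContDiff ℝ ∞ fun z : V => z - GF.mdot b z • a :=
    contDiff_id.sub ((contDiff_mdot b).smul contDiff_const)
  set ν1 : V → ℝ := fun z => -GF.mdot z z * fderiv ℝ ν z a with hν1
  set ν2 : V → ℝ := fun z => 2 * fderiv ℝ ν z (z - GF.mdot b z • a) with hν2
  have t1 : Tst ν1 := tst_fd hν contDiff_mm contDiff_const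
  have t2 : Tst ν2 := tst_fd hν contDiff_const hm
  have z1 : ∀ᶠ z in 𝓝 (0 : V), ν1 z = 0 := near_fd hν0 _ _
  have z2 : ∀ᶠ z in 𝓝 (0 : V), ν2 z = 0 := near_fd hν0 _ _
  have l0 := lim2 haa hbb hab hN hν hν0 hψ v w
  have l1 := lim1 haa hbb hab hN t1 z1 hψ v w
  have l2 := lim1 haa hbb hab hN t2 z2 (tst_id_mul hψ) v w
  have l3 := lim1 haa hbb hab hN hν hν0 (tst_sq_deriv hψ) v w
  have l4 := (((l0.const_mul (2 : ℂ)).add (l1.const_mul (-1 : ℂ))).add
    (l2.const_mul (-1 : ℂ))).add (l3.const_mul (-1 : ℂ))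
  simp only [mul_zero, add_zero] at l4
  refine l4.congr' ?_
  filter_upwards [eventually_ge_atTop (1 : ℝ)] with R hR
  have hR0 : R ≠ 0 := by positivity
  have g0 := tst_gR haa hbb hab hν hψ hR
  have g1 := tst_gR haa hbb hab t1 hψ hR
  have g2 := tst_gR haa hbb hab t2 (tst_id_mul hψ) hR
  have g3 := tst_gR haa hbb hab hν (tst_sq_deriv hψ) hR
  rw [lpp_real hJ g0 hab]
  have hp : ∀ m : Ix, ContDiff ℝ ∞ fun x : V =>
      eta m * (x m - GF.mdot a x * b m - GF.mdot b x * a m) := fun m =>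
    contDiff_const.mul (((contDiff_apply ℝ ℝ m).sub ((contDiff_mdot a).mul contDiff_const)).sub
      ((contDiff_mdot b).mul contDiff_const))
  have k0 : ∀ m, Tst fun x : V => (eta m * (x m - GF.mdot a x * b m - GF.mdot b x * a m)) *
      gR a b ν ψ R x := fun m => tst_smul (hp m) g0
  have k1 : ∀ m, Tst fun x : V => (eta m * b m) * gR a b ν1 ψ R x := fun m =>
    tst_smul contDiff_const g1
  have k2 : ∀ m, Tst fun x : V => (eta m * b m) * gR a b ν2 (fun u => u * ψ u) R x := fun m =>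
    tst_smul contDiff_const g2
  have k3 : ∀ m, Tst fun x : V => (eta m * b m) * gR a b ν (fun u => 2 * u ^ 2 * deriv ψ u) R x :=
    fun m => tst_smul contDiff_const g3
  have ha2 : ∀ x, GF.mdot a (cK a x) = 2 * GF.mdot a x ^ 2 := by
    intro x
    unfold cK
    simp only [md_sub, md_smul, haa]
    ring
  have e1 : (fun (m : Ix) (x : V) => (eta m * b m) * (-fderiv ℝ (gR a b ν ψ R) x (cK a x) -
        2 * GF.mdot a x * gR a b ν ψ R x) + (2 * (eta m * (x m * gR a b ν ψ R x)) +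
        (-2 * (eta m * a m)) * (GF.mdot b x * gR a b ν ψ R x))) = fun m x =>
      2 * ((eta m * (x m - GF.mdot a x * b m - GF.mdot b x * a m)) * gR a b ν ψ R x) +
      ((-1) * ((eta m * b m) * gR a b ν1 ψ R x) + ((-1) * ((eta m * b m) *
        gR a b ν2 (fun u => u * ψ u) R x) + (-1) * ((eta m * b m) *
          gR a b ν (fun u => 2 * u ^ 2 * deriv ψ u) R x))) := by
    funext m x
    have h3 : fderiv ℝ ν (cv a b R x) (cv a b R (cK a x)) =
        ν1 (cv a b R x) + GF.mdot a x * ν2 (cv a b R x) := by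
      rw [cv_cKa haa hbb hab hR0, map_add, map_smul, map_smul, hν1, hν2]
      simp only [smul_eq_mul]
      ring
    rw [fd_gR hν.1 hψ.1, h3, ha2]
    unfold gR
    rw [cut_cv, cut_cv, cut_cv]
    ring
  rw [e1, jm_four hJ 2 (-1) (-1) (-1) k0 k1 k2 k3]
  simp only [inner_add_right, inner_smul_right]
  push_cast
  ring

/-- the second local part -/
lemma lim_lpb (hJ : IsVirial Q T J) (hN : NF J a b) (hV : VF J a b) {ν : V → ℝ} {ψ : ℝ → ℝ}
    (hν : Tst ν) (hν0 : ∀ᶠ x in 𝓝 (0 : V), ν x = 0) (hψ : Tst ψ) (v w : D) :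
    Tendsto (fun R => inner ℂ w (lpp J b a (fun x => (gR a b ν ψ R x : ℂ)) v)) atTop (𝓝 0) := by
  have hb1 : ContDiff ℝ ∞ fun z : V => 2 * GF.mdot b z := contDiff_const.mul (contDiff_mdot b)
  set ν6 : V → ℝ := fun z => 2 * GF.mdot b z * fderiv ℝ ν z z with hν6
  set ν5 : V → ℝ := fun z => -GF.mdot z z * ν z with hν5
  have t6 : Tst ν6 := tst_fd hν hb1 contDiff_id
  have t5 : Tst ν5 := tst_smul contDiff_mm hν
  have z6 : ∀ᶠ z in 𝓝 (0 : V), ν6 z = 0 := near_fd hν0 _ _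
  have z5 : ∀ᶠ z in 𝓝 (0 : V), ν5 z = 0 := by
    filter_upwards [hν0] with z hz
    rw [hν5]
    simp only [hz, mul_zero]
  have l0 := lim2 haa hbb hab hN hν hν0 hψ v w
  have l1 := hV ν6 ψ v w t6 z6 hψ
  have l2 := hV ν5 (deriv ψ) v w t5 z5 (tst_deriv hψ)
  have l4 := ((l0.const_mul (2 : ℂ)).add (l1.const_mul (-1 : ℂ))).add (l2.const_mul (-1 : ℂ))
  simp only [mul_zero, add_zero] at l4
  refine l4.congr' ?_
  filter_upwards [eventually_ge_atTop (1 : ℝ)] with R hR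
  have hR0 : R ≠ 0 := by positivity
  have g0 := tst_gR haa hbb hab hν hψ hR
  rw [lpp_real hJ g0 (by rw [md_comm]; exact hab)]
  have hp : ∀ m : Ix, ContDiff ℝ ∞ fun x : V =>
      eta m * (x m - GF.mdot a x * b m - GF.mdot b x * a m) := fun m =>
    contDiff_const.mul (((contDiff_apply ℝ ℝ m).sub ((contDiff_mdot a).mul contDiff_const)).sub
      ((contDiff_mdot b).mul contDiff_const))
  have k0 : ∀ m, Tst fun x : V => (eta m * (x m - GF.mdot a x * b m - GF.mdot b x * a m)) *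
      gR a b ν ψ R x := fun m => tst_smul (hp m) g0
  have k1 : ∀ m, Tst fun x : V => (eta m * a m) * (cut a b ν6 R x * ψ (GF.mdot a x)) := fun m =>
    tst_smul contDiff_const (cut_tst haa hbb hab t6 hψ hR)
  have k2 : ∀ m, Tst fun x : V => (eta m * a m) * (cut a b ν5 R x * deriv ψ (GF.mdot a x)) :=
    fun m => tst_smul contDiff_const (cut_tst haa hbb hab t5 (tst_deriv hψ) hR)
  have ha2 : ∀ x, GF.mdot a (cK b x) = -(R ^ 2 * GF.mdot (cv a b R x) (cv a b R x)) := by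
    intro x
    rw [md_cv_cv haa hbb hab hR0]
    unfold cK
    simp only [md_sub, md_smul, hab]
    field_simp
    ring
  have e1 : (fun (m : Ix) (x : V) => (eta m * a m) * (-fderiv ℝ (gR a b ν ψ R) x (cK b x) -
        2 * GF.mdot b x * gR a b ν ψ R x) + (2 * (eta m * (x m * gR a b ν ψ R x)) +
        (-2 * (eta m * b m)) * (GF.mdot a x * gR a b ν ψ R x))) = fun m x =>
      2 * ((eta m * (x m - GF.mdot a x * b m - GF.mdot b x * a m)) * gR a b ν ψ R x) +
      ((-1) * ((eta m * a m) * (cut a b ν6 R x * ψ (GF.mdot a x))) +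
        ((-1) * ((eta m * a m) * (cut a b ν5 R x * deriv ψ (GF.mdot a x))) +
          0 * ((eta m * a m) * (cut a b ν5 R x * deriv ψ (GF.mdot a x))))) := by
    funext m x
    have h3 : fderiv ℝ ν (cv a b R x) (cv a b R (cK b x)) = R ^ 2 * ν6 (cv a b R x) := by
      rw [cv_cKb haa hbb hab hR0, map_smul, hν6]
      simp only [smul_eq_mul]
      ring
    rw [fd_gR hν.1 hψ.1, h3, ha2]
    unfold gR
    rw [cut_cv, cut_cv, cut_cv, hν5]
    field_simp
    ring
  rw [e1, jm_four hJ 2 (-1) (-1) 0 k0 k1 k2 k2]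
  simp only [inner_add_right, inner_smul_right]
  push_cast
  ring

/-! ### The improvement field -/

/-- **(LF)** -/
theorem lf0 (hJ : IsVirial Q T J) (h : ConfGen Q A K) (hN : NF J a b) (hV : VF J a b)
    (ha : IsNull a) (hb : IsNull b) {ν : V → ℝ} {ψ : ℝ → ℝ}
    (hν : Tst ν) (hν0 : ∀ᶠ x in 𝓝 (0 : V), ν x = 0) (hψ : Tst ψ) (v w : D) :
    Tendsto (fun R => inner ℂ w (Lf J K a b (fun x => (gR a b ν ψ R x : ℂ)) v)) atTop (𝓝 0) := by
  have c1 : ∀ v w : D, Tendsto (fun R => inner ℂ w (ct J b (fun x => (gR a b ν ψ R x : ℂ)) v))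
      atTop (𝓝 0) := by
    intro v w
    refine (lim1 haa hbb hab hN hν hν0 hψ v w).congr' ?_
    filter_upwards [eventually_ge_atTop (1 : ℝ)] with R hR
    have g0 := tst_gR haa hbb hab hν hψ hR
    congr 1
    unfold ct jm
    exact Finset.sum_congr rfl fun m _ => by
      rw [jr_smul (Q.bose_fld _ (hJ.bose m)) _ g0]
  have c2 : ∀ v w : D, Tendsto (fun R => inner ℂ w (ct J a (fun x => (gR a b ν ψ R x : ℂ)) v))
      atTop (𝓝 0) := by
    intro v w
    have l1 := hV ν ψ v w hν hν0 hψ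
    have l2 : Tendsto (fun R : ℝ => (((R ^ 2)⁻¹ : ℝ) : ℂ)) atTop (𝓝 0) := by
      have : Tendsto (fun R : ℝ => (R ^ 2)⁻¹) atTop (𝓝 0) :=
        (tendsto_pow_atTop (by norm_num)).inv_tendsto_atTop
      exact (Complex.continuous_ofReal.tendsto' 0 0 (by simp)).comp this
    have l3 := l2.mul l1
    rw [zero_mul] at l3
    refine l3.congr' ?_
    filter_upwards [eventually_ge_atTop (1 : ℝ)] with R hR
    have g0 := cut_tst haa hbb hab hν hψ hR
    rw [← inner_smul_right]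
    congr 1
    unfold ct jm
    rw [Finset.smul_sum]
    refine Finset.sum_congr rfl fun m _ => ?_
    have e : (fun x => (gR a b ν ψ R x : ℂ)) =
        fun x => (((R ^ 2)⁻¹ * (cut a b ν R x * ψ (GF.mdot a x)) : ℝ) : ℂ) := by
      funext x
      unfold gR
      rw [mul_assoc]
    rw [e, jr_smul (Q.bose_fld _ (hJ.bose m)) _ g0, jr_smul (Q.bose_fld _ (hJ.bose m)) _ g0]
    push_cast
    module
  have b1 : ∀ v w : D, Tendsto (fun R => inner ℂ w (bk J K a b (fun x => (gR a b ν ψ R x : ℂ)) v))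
      atTop (𝓝 0) := by
    intro v w
    have l1 := c1 v (K a w)
    have l2 := c1 (K a v) w
    have l3 := lim_lpa haa hbb hab hJ hN hν hν0 hψ v w
    have l4 := (l1.sub l2).add (l3.const_mul Complex.I)
    simp only [mul_zero, add_zero, sub_zero] at l4
    refine l4.congr fun R => ?_
    rw [bk_lpp, inner_add_right, inner_sub_right, inner_smul_right, h.symm a w _ ha]
  have b2 : ∀ v w : D, Tendsto (fun R => inner ℂ w (bk J K b a (fun x => (gR a b ν ψ R x : ℂ)) v))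
      atTop (𝓝 0) := by
    intro v w
    have l1 := c2 v (K b w)
    have l2 := c2 (K b v) w
    have l3 := lim_lpb haa hbb hab hJ hN hV hν hν0 hψ v w
    have l4 := (l1.sub l2).add (l3.const_mul Complex.I)
    simp only [mul_zero, add_zero, sub_zero] at l4
    refine l4.congr fun R => ?_
    rw [bk_lpp, inner_add_right, inner_sub_right, inner_smul_right, h.symm b w _ hb]
  have l := ((b1 v w).add (b2 v w)).const_mul (Complex.I / 24)
  simp only [mul_zero, add_zero] at l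
  refine l.congr fun R => ?_
  unfold Lf
  rw [inner_smul_right, inner_add_right]

end

/-- **(LF)**: the improvement field on cut off null profiles away from the origin -/
theorem lf (hT : Q.IsStress T) (hJ : IsVirial Q T J) (h : ConfGen Q A K) (ho : OnShell Q T J)
    (hn : H846.NoFlux T J) {a b : V} (ha : IsNull a) (hb : IsNull b) (hab : GF.mdot a b = 1)
    {ν : V → ℝ} {ψ : ℝ → ℝ} (hν : Tst ν) (hν0 : ∀ᶠ x in 𝓝 (0 : V), ν x = 0) (hψ : Tst ψ)
    (v w : D) : Tendsto (fun R : ℝ => inner ℂ w (Lf J K a b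
      (fun x => ((R ^ 2)⁻¹ * cut a b ν R x * ψ (GF.mdot a x) : ℝ)) v)) atTop (𝓝 0) := by
  have hN : NF J a b := fun κ ν ψ v w hκ hν hν0 hψ => hn.J a b κ ν ψ v w ha hb hab hκ hν hν0 hψ
  exact lf0 ha.1 hb.1 hab hJ h hN (vf_of hJ ho ha hb hab) ha hb hν hν0 hψ v w

end Vale.Agent.P352.H993

end
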