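import Vale.Agent.P352.H496.Defs

open MeasureTheory Filter Topology
open scoped ComplexConjugate

namespace Vale.Agent.P352.H993

open GF H246 H496
open UniformSpace (Completion)

noncomputable section

variable {D : Type*} [NormedAddCommGroup D] [InnerProductSpace ℂ D]

/-- Transversal locality of the null deformation `G a` of the potential at the origin: the real
part of `⟨l(0), G a T(f) Ω⟩` vanishes for all real `f` with compact support in the set of the
points spacelike to the origin. -/
def TL (Q : Theory D) (T : Ix → Ix → Fld D) (G : V → D → D) (l : Fn → Completion D) (a : V) :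
    Prop :=
  ∀ m n f c, In {y | mdot y y < 0} f → (∀ y, (f y).im = 0) → Val l (G a (T m n f Q.vac)) c →
    c.re = 0

/-- The vacuum expectation value of the double commutator `[[G a, T(f)], tr T(g)]` vanishes for
spacelike separated test functions `f`, `g` with compact support. -/
def Loc2 (Q : Theory D) (T : Ix → Ix → Fld D) (G : V → D → D) (a : V) : Prop :=
  ∀ m n f g, In Set.univ f → In Set.univ g → Sep f g →
    inner ℂ Q.vac (G a (T m n f (tr T g Q.vac)) - T m n f (G a (tr T g Q.vac)) -
      tr T g (G a (T m n f Q.vac) - T m n f (G a Q.vac))) = 0

end

end Vale.Agent.P352.H993
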