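import Vale.Agent.P352.H246.Rc6
import Vale.Agent.P352.H993.TlDefs

set_option linter.all false

noncomputable section

open MeasureTheory SchwartzMap Complex Filter Topology
open scoped SchwartzMap ComplexConjugate ENNReal LineDeriv ContDiff FourierTransform

namespace Vale.Agent.P352.H993

open GF (Ix V Fn Sch ev pd bar sim bas o)
open H246 H496 H246R

/-- the properties of the functionals `M m n f = ⟨l(0), G a T^{mn}(f) Ω⟩` -/
structure Rm (a : V) (θ : ℂ) (M : Ix → Ix → 𝓢(Mink, ℂ) →L[ℂ] ℂ) : Prop where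
  symm : ∀ m n f, M m n f = M n m f
  cons : ∀ n (f : 𝓢(Mink, ℂ)), ∑ m, M m n (∂_{eb m} f : 𝓢(Mink, ℂ)) = 0
  spec : ∀ m n f, (∀ p ∈ fwdCone, mftS f p = 0) → M m n f = 0
  cov : ∀ s (hs : 0 < s) L (hL : GF.IsLor L) r, 0 < r → sim 1 L 0 a = r • a → ∀ m n f,
    M m n f = ∑ k, ∑ j, ((L k m * L j n / (r * s) : ℝ) : ℂ) * M k j (simS s hs hL 0 f)
  tra : ∀ f : 𝓢(Mink, ℂ), PC (mftS f) → ∑ m, (GF.eta m : ℂ) * M m m f =
    θ * (∂_{(WithLp.toLp 2 a : Mink)} f : 𝓢(Mink, ℂ)) 0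

/-- locality of the functionals -/
def RL (M : Ix → Ix → 𝓢(Mink, ℂ) →L[ℂ] ℂ) : Prop :=
  ∀ m n (f : 𝓢(Mink, ℂ)), HasCompactSupport f → (∀ x ∈ tsupport f, mdot x x < 0) →
    M m n f + conj (M m n (conjS f)) = 0

end Vale.Agent.P352.H993
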