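import Vale.Agent.P352.H121.TlS
import Vale.Agent.P352.H148.TlB

set_option linter.all false

noncomputable section

open MeasureTheory SchwartzMap Complex Filter Topology Set
open scoped SchwartzMap ComplexConjugate ENNReal LineDeriv ContDiff FourierTransform

namespace Vale.Agent.P352.H993

open GF (Ix V Fn Sch ev pd bar sim bas o)
open H121 H148

/-! ### The conservation identity -/

lemma isTest_pd' {m : Ix} {f : Fn} (hf : GF.IsTest f) : GF.IsTest (pd m f) := by
  obtain ⟨F, rfl⟩ := exists_fl hf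
  rw [pd_fl]
  exact isTest_fl _

lemma isTest_add' {f g : Fn} (hf : GF.IsTest f) (hg : GF.IsTest g) :
    GF.IsTest fun x => f x + g x := by
  obtain ⟨F, rfl⟩ := hf
  obtain ⟨G, rfl⟩ := hg
  exact ⟨F + G, rfl⟩

lemma isTest_cmul' {f : Fn} (c : ℂ) (hf : GF.IsTest f) : GF.IsTest fun x => c * f x := by
  obtain ⟨F, rfl⟩ := hf
  exact ⟨c • F, rfl⟩

lemma isTest_sub' {f g : Fn} (hf : GF.IsTest f) (hg : GF.IsTest g) :
    GF.IsTest fun x => f x - g x := by
  obtain ⟨F, rfl⟩ := hf
  obtain ⟨G, rfl⟩ := hg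
  exact ⟨F - G, rfl⟩

section

variable {a b : V} {S : Ix → Ix → Fn → ℂ} (hS : SD a S)
include hS

lemma SD.zero' (m n : Ix) : S m n (fun _ => 0) = 0 := by
  have h0 : GF.IsTest (fun _ : V => (0 : ℂ)) := ⟨0, rfl⟩
  have h := hS.lin m n (fun _ => 0) (fun _ => 0) 1 h0 h0
  simp only [mul_zero, add_zero, one_mul] at h
  linear_combination -h

lemma SD.add' (m n : Ix) {f g : Fn} (hf : GF.IsTest f) (hg : GF.IsTest g) :
    S m n (fun x => f x + g x) = S m n f + S m n g := by
  have h := hS.lin m n f g 1 hf hg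
  simpa only [one_mul] using h

lemma SD.cmul' (m n : Ix) {f : Fn} (c : ℂ) (hf : GF.IsTest f) :
    S m n (fun x => c * f x) = c * S m n f := by
  have h0 : GF.IsTest (fun _ : V => (0 : ℂ)) := ⟨0, rfl⟩
  have h := hS.lin m n (fun _ => 0) f c h0 hf
  rw [SD.zero' hS] at h
  simpa only [zero_add] using h

end

/-- antisymmetric part of the derivative of the Killing field -/
def Ea (b : V) (m n : Ix) (x : V) : ℂ :=
  ((2 * (GF.eta m * b m) * (GF.eta n * x n) - 2 * (GF.eta m * x m) * (GF.eta n * b n) : ℝ) : ℂ)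

/-- symmetric part of the derivative of the Killing field -/
def Es (b : V) (m n : Ix) (x : V) : ℂ :=
  (((if n = m then 2 * GF.eta n else 0 : ℝ) : ℂ)) * (GF.mdot b x : ℂ)

lemma mdot_line (a x : V) (m : Ix) (t : ℝ) :
    GF.mdot a (fun k => x k + bas m t k) = GF.mdot a x + GF.eta m * a m * t := by
  unfold GF.mdot
  have : ∀ k, GF.eta k * a k * (x k + bas m t k) =
      GF.eta k * a k * x k + (if k = m then GF.eta m * a m * t else 0) := by
    intro k
    unfold bas
    by_cases h : k = m
    · subst h; simp; ring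
    · simp [h]
  simp only [this, Finset.sum_add_distrib, Finset.sum_ite_eq', Finset.mem_univ, if_true]

lemma sq_line (x : V) (m : Ix) (t : ℝ) :
    GF.mdot (fun k => x k + bas m t k) (fun k => x k + bas m t k) =
      GF.mdot x x + 2 * (GF.eta m * x m) * t + GF.eta m * t ^ 2 := by
  unfold GF.mdot
  have : ∀ k, GF.eta k * (x k + bas m t k) * (x k + bas m t k) =
      GF.eta k * x k * x k +
        (if k = m then 2 * (GF.eta m * x m) * t + GF.eta m * t ^ 2 else 0) := by
    intro k
    unfold bas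
    by_cases h : k = m
    · subst h; simp; ring
    · simp [h]
  simp only [this, Finset.sum_add_distrib, Finset.sum_ite_eq', Finset.mem_univ, if_true]
  ring

lemma hd_Yl (b x : V) (m n : Ix) :
    HasDerivAt (fun t : ℝ => Yl b n (fun k => x k + bas m t k)) (Ea b m n x + Es b m n x) 0 := by
  have e : (fun t : ℝ => Yl b n (fun k => x k + bas m t k)) = fun t : ℝ =>
      ((GF.eta n * (2 * (GF.mdot b x + GF.eta m * b m * t) * (x n + (if n = m then t else 0)) -
        (GF.mdot x x + 2 * (GF.eta m * x m) * t + GF.eta m * t ^ 2) * b n) : ℝ) : ℂ) := by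
    funext t
    unfold Yl H15.cK
    rw [mdot_line, sq_line]
    simp only [Pi.sub_apply, Pi.smul_apply, smul_eq_mul, bas]
  rw [e]
  have h1 : HasDerivAt (fun t : ℝ => 2 * (GF.mdot b x + GF.eta m * b m * t))
      (2 * (GF.eta m * b m)) 0 := by
    have := ((hasDerivAt_id (0 : ℝ)).const_mul (GF.eta m * b m)).const_add (GF.mdot b x)
    simpa using this.const_mul 2
  have h2 : HasDerivAt (fun t : ℝ => x n + (if n = m then t else 0)) (if n = m then 1 else 0) 0 := by
    by_cases h : n = m
    · simp only [h, if_true]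
      simpa using (hasDerivAt_id (0 : ℝ)).const_add (x m)
    · simp only [h, if_false]
      exact hasDerivAt_const _ _
  have h3 : HasDerivAt (fun t : ℝ => GF.mdot x x + 2 * (GF.eta m * x m) * t + GF.eta m * t ^ 2)
      (2 * (GF.eta m * x m)) 0 := by
    have h4 := ((hasDerivAt_id (0 : ℝ)).const_mul (2 * (GF.eta m * x m))).const_add (GF.mdot x x)
    have h5 := ((hasDerivAt_id (0 : ℝ)).pow 2).const_mul (GF.eta m)
    have h6 : HasDerivAt (fun t : ℝ => GF.mdot x x + 2 * (GF.eta m * x m) * t +
        GF.eta m * t ^ 2) _ 0 := h4.add h5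
    refine h6.congr_deriv ?_
    simp
  have h7 := ((h1.mul h2).sub (h3.mul_const (b n))).const_mul (GF.eta n)
  have h8 := h7.ofReal_comp
  have h9 : ((GF.eta n * ((2 * (GF.eta m * b m)) * (x n + (if n = m then (0 : ℝ) else 0)) +
      2 * (GF.mdot b x + GF.eta m * b m * 0) * (if n = m then 1 else 0) -
      2 * (GF.eta m * x m) * b n) : ℝ) : ℂ) = Ea b m n x + Es b m n x := by
    unfold Ea Es
    by_cases h : n = m
    · subst h
      simp only [if_true]
      push_cast
      ring
    · simp only [h, if_false]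
      push_cast
      ring
  rw [← h9]
  exact h8

lemma hd_al (α : 𝓢(ℝ, ℂ)) (a x : V) (m : Ix) :
    HasDerivAt (fun t : ℝ => α (GF.mdot a (fun k => x k + bas m t k)))
      (((GF.eta m * a m : ℝ) : ℂ) * deriv α (GF.mdot a x)) 0 := by
  simp only [mdot_line]
  have h1 : HasDerivAt (fun t : ℝ => GF.mdot a x + GF.eta m * a m * t) (GF.eta m * a m) 0 := by
    simpa using ((hasDerivAt_id (0 : ℝ)).const_mul (GF.eta m * a m)).const_add (GF.mdot a x)
  have h2 : HasDerivAt (α : ℝ → ℂ) (deriv α (GF.mdot a x))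
      (GF.mdot a x + GF.eta m * a m * 0) := by
    rw [mul_zero, add_zero]
    exact (α.differentiableAt).hasDerivAt
  have h3 := h2.scomp (0 : ℝ) h1
  rw [real_smul] at h3
  exact h3

lemma temp_Yl (b : V) (n : Ix) : Function.HasTemperateGrowth (Yl b n) := by
  have h : Function.HasTemperateGrowth fun x : V =>
      GF.eta n * (2 * GF.mdot b x * x n - GF.mdot x x * b n) := by
    have h1 := temp_mdot b
    have h2 := temp_coord n
    have h3 := temp_sq
    have h4 : ∀ r : ℝ, Function.HasTemperateGrowth fun _ : V => r := fun r =>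
      Function.HasTemperateGrowth.const r
    exact (h4 _).mul ((((h4 2).mul h1).mul h2).sub (h3.mul (h4 _)))
  have e : (fun x : V => ((GF.eta n * (2 * GF.mdot b x * x n - GF.mdot x x * b n) : ℝ) : ℂ)) =
      Yl b n := by
    funext x
    simp [Yl, H15.cK]
  rw [← e]
  exact temp_of h

lemma temp_Ea (b : V) (m n : Ix) : Function.HasTemperateGrowth (Ea b m n) := by
  have h : Function.HasTemperateGrowth fun x : V => 2 * (GF.eta m * b m) * (GF.eta n * x n) -
      2 * (GF.eta m * x m) * (GF.eta n * b n) := by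
    have h2 := temp_coord n
    have h3 := temp_coord m
    have h4 : ∀ r : ℝ, Function.HasTemperateGrowth fun _ : V => r := fun r =>
      Function.HasTemperateGrowth.const r
    exact ((h4 _).mul ((h4 _).mul h2)).sub (((h4 2).mul ((h4 _).mul h3)).mul (h4 _))
  exact temp_of h

lemma temp_bx (b : V) : Function.HasTemperateGrowth fun x : V => (GF.mdot b x : ℂ) :=
  temp_of (temp_mdot b)

lemma temp_c (c : ℂ) : Function.HasTemperateGrowth fun _ : V => c :=
  Function.HasTemperateGrowth.const c

section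

variable {a b : V} {c : V → ℂ}

/-- the remainder of the product rule -/
def rem (a b : V) (c : V → ℂ) (α α' β β' : 𝓢(ℝ, ℂ)) (m n : Ix) : Fn := fun x =>
  pd m (pr a b c α β (Yl b n)) x -
    ((pr a b c α' β (fun x => ((GF.eta m * a m : ℝ) : ℂ) * Yl b n x) x +
      pr a b c α β' (fun x => ((GF.eta m * b m : ℝ) : ℂ) * Yl b n x) x) +
      (pr a b c α β (Ea b m n) x + pr a b c α β (Es b m n) x))

/-- near the causal cone the remainder vanishes -/
lemma rem_zero (hc : Cn a b c) {α α' β β' : 𝓢(ℝ, ℂ)} (hα : ∀ u, α' u = deriv α u)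
    (hβ : ∀ u, β' u = deriv β u) (m n : Ix) {x : V} (hx : -(1 / 4) < GF.mdot x x) :
    rem a b c α α' β β' m n x = 0 := by
  have hone : ∀ᶠ t in 𝓝 (0 : ℝ), c (fun k => x k + bas m t k) = 1 := by
    have hcont : Continuous fun t : ℝ => GF.mdot (fun k => x k + bas m t k)
        (fun k => x k + bas m t k) := by
      simp only [sq_line]
      fun_prop
    have h0 : -(1 / 4) < (fun t : ℝ => GF.mdot (fun k => x k + bas m t k)
        (fun k => x k + bas m t k)) 0 := by
      simp only [sq_line]
      simpa using hx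
    filter_upwards [hcont.continuousAt.eventually (lt_mem_nhds h0)] with t ht
    refine hc.one _ ?_
    have := sq_nonneg (GF.mdot a (fun k => x k + bas m t k))
    have := sq_nonneg (GF.mdot b (fun k => x k + bas m t k))
    linarith
  have hcx : c x = 1 := by
    refine hc.one _ ?_
    have := sq_nonneg (GF.mdot a x)
    have := sq_nonneg (GF.mdot b x)
    linarith
  have h1 := hd_al α a x m
  have h2 := hd_al β b x m
  have h3 := hd_Yl b x m n
  have h4 := (h1.mul h2).mul h3
  have h5 : (fun t : ℝ => pr a b c α β (Yl b n) (fun k => x k + bas m t k)) =ᶠ[𝓝 0]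
      fun t : ℝ => α (GF.mdot a (fun k => x k + bas m t k)) *
        β (GF.mdot b (fun k => x k + bas m t k)) * Yl b n (fun k => x k + bas m t k) := by
    filter_upwards [hone] with t ht
    unfold pr
    rw [ht, mul_one]
  have h7 : deriv (fun t : ℝ => α (GF.mdot a (fun k => x k + bas m t k)) *
        β (GF.mdot b (fun k => x k + bas m t k)) * Yl b n (fun k => x k + bas m t k)) 0 = _ :=
    h4.deriv
  have h6 : pd m (pr a b c α β (Yl b n)) x = deriv (fun t : ℝ =>
      α (GF.mdot a (fun k => x k + bas m t k)) * β (GF.mdot b (fun k => x k + bas m t k)) *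
        Yl b n (fun k => x k + bas m t k)) 0 := h5.deriv_eq
  rw [h7] at h6
  have e0 : (fun k => x k + bas m 0 k) = x := by
    funext k
    simp [bas]
  unfold rem
  rw [h6]
  simp only [Pi.mul_apply, e0, pr, hcx, hα, hβ]
  ring

/-- THE CONSERVATION IDENTITY -/
theorem cons_id {S : Ix → Ix → Fn → ℂ} (hS : SD a S) (hc : Cn a b c)
    {α α' β β' : 𝓢(ℝ, ℂ)} (hα : ∀ u, α' u = deriv α u) (hβ : ∀ u, β' u = deriv β u) :
    Ph S a b c a α' β + Ph S a b c b α β' + 2 * Tx S a b c α β = 0 := by
  have tA : ∀ m n, GF.IsTest (pr a b c α' β fun x => ((GF.eta m * a m : ℝ) : ℂ) * Yl b n x) :=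
    fun m n => hc.test _ _ _ ((temp_c _).mul (temp_Yl b n))
  have tB : ∀ m n, GF.IsTest (pr a b c α β' fun x => ((GF.eta m * b m : ℝ) : ℂ) * Yl b n x) :=
    fun m n => hc.test _ _ _ ((temp_c _).mul (temp_Yl b n))
  have tE : ∀ m n, GF.IsTest (pr a b c α β (Ea b m n)) := fun m n => hc.test _ _ _ (temp_Ea b m n)
  have tF : GF.IsTest (pr a b c α β fun x => (GF.mdot b x : ℂ)) := hc.test _ _ _ (temp_bx b)
  have tG : ∀ m n, GF.IsTest (pr a b c α β (Es b m n)) := fun m n =>
    hc.test _ _ _ ((temp_c _).mul (temp_bx b))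
  have t0 : ∀ n, GF.IsTest (pr a b c α β (Yl b n)) := fun n => hc.test _ _ _ (temp_Yl b n)
  have tS : ∀ m n, GF.IsTest fun x =>
      ((pr a b c α' β (fun x => ((GF.eta m * a m : ℝ) : ℂ) * Yl b n x) x +
      pr a b c α β' (fun x => ((GF.eta m * b m : ℝ) : ℂ) * Yl b n x) x) +
      (pr a b c α β (Ea b m n) x + pr a b c α β (Es b m n) x)) := fun m n =>
    isTest_add' (isTest_add' (tA m n) (tB m n)) (isTest_add' (tE m n) (tG m n))
  have tR : ∀ m n, GF.IsTest (rem a b c α α' β β' m n) := fun m n =>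
    isTest_sub' (isTest_pd' (t0 n)) (tS m n)
  have hrem : ∀ m n, S m n (rem a b c α α' β β' m n) = 0 := fun m n =>
    hS.loc m n _ (1 / 4) (by norm_num) (tR m n) fun x hx => by
      by_contra h
      rw [not_le] at h
      exact hx (rem_zero hc hα hβ m n h)
  have hG : ∀ m n, S m n (pr a b c α β (Es b m n)) =
      ((if n = m then 2 * GF.eta n else 0 : ℝ) : ℂ) *
        S m n (pr a b c α β fun x => (GF.mdot b x : ℂ)) := by
    intro m n
    rw [← SD.cmul' hS m n _ tF]
    congr 1
    funext x
    simp only [pr, Es]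
    ring
  have hpd : ∀ m n, S m n (pd m (pr a b c α β (Yl b n))) =
      S m n (pr a b c α' β fun x => ((GF.eta m * a m : ℝ) : ℂ) * Yl b n x) +
      S m n (pr a b c α β' fun x => ((GF.eta m * b m : ℝ) : ℂ) * Yl b n x) +
      (S m n (pr a b c α β (Ea b m n)) + ((if n = m then 2 * GF.eta n else 0 : ℝ) : ℂ) *
        S m n (pr a b c α β fun x => (GF.mdot b x : ℂ))) := by
    intro m n
    have e : pd m (pr a b c α β (Yl b n)) = fun x => rem a b c α α' β β' m n x +
        ((pr a b c α' β (fun x => ((GF.eta m * a m : ℝ) : ℂ) * Yl b n x) x +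
      pr a b c α β' (fun x => ((GF.eta m * b m : ℝ) : ℂ) * Yl b n x) x) +
      (pr a b c α β (Ea b m n) x + pr a b c α β (Es b m n) x)) := by
      funext x
      simp only [rem]
      ring
    rw [e, SD.add' hS m n (tR m n) (tS m n), hrem, zero_add,
      SD.add' hS m n (isTest_add' (tA m n) (tB m n)) (isTest_add' (tE m n) (tG m n)),
      SD.add' hS m n (tA m n) (tB m n), SD.add' hS m n (tE m n) (tG m n), hG]
  have hE : ∑ n, ∑ m, S m n (pr a b c α β (Ea b m n)) = 0 := by
    have h1 : ∀ m n, S m n (pr a b c α β (Ea b m n)) = -S n m (pr a b c α β (Ea b n m)) := by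
      intro m n
      have h2 := SD.cmul' hS n m (-1) (tE n m)
      rw [neg_one_mul] at h2
      rw [← h2, hS.symm m n]
      congr 1
      funext x
      simp only [pr, Ea]
      push_cast
      ring
    have h3 : ∑ n, ∑ m, S m n (pr a b c α β (Ea b m n)) =
        -∑ n, ∑ m, S n m (pr a b c α β (Ea b n m)) := by
      simp only [← Finset.sum_neg_distrib]
      exact Finset.sum_congr rfl fun n _ => Finset.sum_congr rfl fun m _ => h1 m n
    have h4 : ∑ n, ∑ m, S n m (pr a b c α β (Ea b n m)) =
        ∑ n, ∑ m, S m n (pr a b c α β (Ea b m n)) := Finset.sum_comm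
    rw [h4] at h3
    linear_combination h3 / 2
  have hsum : ∑ n, ∑ m, S m n (pd m (pr a b c α β (Yl b n))) = 0 :=
    Finset.sum_eq_zero fun n _ => hS.cons n _ (t0 n)
  simp only [hpd, Finset.sum_add_distrib] at hsum
  rw [hE, zero_add] at hsum
  have hD : ∑ n, ∑ m, ((if n = m then 2 * GF.eta n else 0 : ℝ) : ℂ) *
      S m n (pr a b c α β fun x => (GF.mdot b x : ℂ)) = 2 * Tx S a b c α β := by
    unfold Tx
    rw [Finset.mul_sum]
    refine Finset.sum_congr rfl fun n _ => ?_
    rw [Finset.sum_eq_single n]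
    · rw [if_pos rfl]
      push_cast
      ring
    · intro m _ hm
      rw [if_neg (Ne.symm hm)]
      simp
    · intro h
      exact absurd (Finset.mem_univ n) h
  rw [hD] at hsum
  unfold Ph
  rw [Finset.sum_comm (f := fun m n => S m n (pr a b c α' β fun x =>
      ((GF.eta m * a m : ℝ) : ℂ) * Yl b n x)),
    Finset.sum_comm (f := fun m n => S m n (pr a b c α β' fun x =>
      ((GF.eta m * b m : ℝ) : ℂ) * Yl b n x))]
  exact hsum

end

end Vale.Agent.P352.H993
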