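import Vale.Agent.P352.H993.TrDefs

set_option linter.all false

noncomputable section

open MeasureTheory SchwartzMap Complex Filter Topology
open scoped SchwartzMap ComplexConjugate ENNReal LineDeriv ContDiff FourierTransform

/-!
# P352 (helper993): the special conformal operators in momentum space
-/

namespace Vale.Agent.P352.H993

open GF (Ix V Fn Sch ev pd bar sim bas o)
open H246
open H15

/-! ### Derivatives -/

lemma ld_add (v : Mink) (f g : 𝓢(Mink, ℂ)) :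
    (∂_{v} (f + g) : 𝓢(Mink, ℂ)) = ∂_{v} f + (∂_{v} g : 𝓢(Mink, ℂ)) :=
  LineDeriv.lineDerivOp_add v f g

lemma ld_smul (v : Mink) (c : ℂ) (f : 𝓢(Mink, ℂ)) :
    (∂_{v} (c • f) : 𝓢(Mink, ℂ)) = c • (∂_{v} f : 𝓢(Mink, ℂ)) :=
  LineDeriv.lineDerivOp_smul v c f

lemma ld_sum (v : Mink) (g : Ix → 𝓢(Mink, ℂ)) :
    (∂_{v} (∑ k, g k) : 𝓢(Mink, ℂ)) = ∑ k, (∂_{v} (g k) : 𝓢(Mink, ℂ)) :=
  LineDeriv.lineDerivOp_sum v g Finset.univ

lemma ld_zero (v : Mink) : (∂_{v} (0 : 𝓢(Mink, ℂ)) : 𝓢(Mink, ℂ)) = 0 := by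
  have := ld_smul v 0 0
  rwa [zero_smul, zero_smul] at this

/-- product rule for the coordinates -/
lemma ld_Xm (n m : Ix) (G : 𝓢(Mink, ℂ)) :
    (∂_{eb n} (Xm m G) : 𝓢(Mink, ℂ)) = Xm m (∂_{eb n} G) + ((if n = m then 1 else 0 : ℝ) : ℂ) • G := by
  ext x
  apply lineDeriv_eq_of_hasDerivAt
  have h1 : ∀ t : ℝ, Xm m G (x + t • eb n) =
      ((x m + t * (if n = m then 1 else 0) : ℝ) : ℂ) * G (x + t • eb n) := by
    intro t
    rw [Xm_apply]
    congr 2
    simp only [PiLp.add_apply, PiLp.smul_apply, eb, smul_eq_mul]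
    congr 2
    by_cases h : n = m
    · subst h; simp
    · rw [if_neg h]
      simp [Ne.symm h]
  simp_rw [h1]
  have h2 : HasDerivAt (fun t : ℝ => ((x m + t * (if n = m then 1 else 0) : ℝ) : ℂ))
      (((1 * (if n = m then 1 else 0) : ℝ)) : ℂ) 0 := by
    have : HasDerivAt (fun t : ℝ => x m + t * (if n = m then 1 else 0))
      (1 * (if n = m then 1 else 0)) 0 := ((hasDerivAt_id (0 : ℝ)).mul_const _).const_add (x m)
    exact this.ofReal_comp
  have h3 := h2.mul (hasDerivAt_line G x (eb n))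
  have h4 : (Xm m (∂_{eb n} G) + ((if n = m then 1 else 0 : ℝ) : ℂ) • G : 𝓢(Mink, ℂ)) x =
      (((1 * (if n = m then 1 else 0) : ℝ)) : ℂ) * G (x + (0 : ℝ) • eb n) +
      ((x m + 0 * (if n = m then 1 else 0) : ℝ) : ℂ) * (fderiv ℝ G x (eb n)) := by
    rw [SchwartzMap.add_apply, SchwartzMap.smul_apply, Xm_apply, smul_eq_mul,
      lineDerivOp_apply_eq_fderiv]
    simp only [zero_smul, add_zero, zero_mul, one_mul]
    ring
  rw [h4]
  exact h3

lemma ld_axS (n : Ix) (a : V) (G : 𝓢(Mink, ℂ)) :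
    (∂_{eb n} (axS a G) : 𝓢(Mink, ℂ)) = axS a (∂_{eb n} G) + ((GF.eta n * a n : ℝ) : ℂ) • G := by
  unfold axS
  rw [ld_sum]
  simp only [ld_smul, ld_Xm, smul_add, Finset.sum_add_distrib]
  congr 1
  rw [Finset.sum_eq_single n]
  · simp
  · intro b _ hb
    rw [if_neg (Ne.symm hb)]; simp
  · intro h; exact absurd (Finset.mem_univ _) h

lemma Xm_add (m : Ix) (f g : 𝓢(Mink, ℂ)) : Xm m (f + g) = Xm m f + Xm m g := map_add _ _ _

lemma Xm_smul (m : Ix) (c : ℂ) (f : 𝓢(Mink, ℂ)) : Xm m (c • f) = c • Xm m f := map_smul _ _ _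

lemma ld_xxS (n : Ix) (G : 𝓢(Mink, ℂ)) :
    (∂_{eb n} (xxS G) : 𝓢(Mink, ℂ)) = xxS (∂_{eb n} G) + ((2 * GF.eta n : ℝ) : ℂ) • Xm n G := by
  unfold xxS
  rw [ld_sum]
  simp only [ld_smul, ld_Xm, Xm_add, Xm_smul, smul_add, Finset.sum_add_distrib]
  have h : ∀ (F : Ix → 𝓢(Mink, ℂ)), ∑ k, (GF.eta k : ℂ) • (((if n = k then 1 else 0 : ℝ) : ℂ) • F k) =
      (GF.eta n : ℂ) • F n := by
    intro F
    rw [Finset.sum_eq_single n]
    · simp
    · intro b _ hb
      rw [if_neg (Ne.symm hb)]; simp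
    · intro h; exact absurd (Finset.mem_univ _) h
  rw [h, add_assoc]
  congr 1
  rw [← add_smul]
  push_cast
  rw [two_mul]

lemma dS_add (a : V) (f g : 𝓢(Mink, ℂ)) : dS a (f + g) = dS a f + dS a g := by
  unfold dS
  simp only [ld_add, smul_add, Finset.sum_add_distrib]

lemma dS_smul (a : V) (c : ℂ) (f : 𝓢(Mink, ℂ)) : dS a (c • f) = c • dS a f := by
  unfold dS
  rw [Finset.smul_sum]
  refine Finset.sum_congr rfl fun m _ => ?_
  rw [ld_smul, smul_comm]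

lemma axS_add (a : V) (f g : 𝓢(Mink, ℂ)) : axS a (f + g) = axS a f + axS a g := by
  ext x; simp only [axS_apply, SchwartzMap.add_apply]; ring

lemma axS_smul (a : V) (c : ℂ) (f : 𝓢(Mink, ℂ)) : axS a (c • f) = c • axS a f := by
  ext x; simp only [axS_apply, SchwartzMap.smul_apply, smul_eq_mul]; ring

lemma xxS_add (f g : 𝓢(Mink, ℂ)) : xxS (f + g) = xxS f + xxS g := by
  ext x; simp only [xxS_apply, SchwartzMap.add_apply]; ring

lemma xxS_smul (c : ℂ) (f : 𝓢(Mink, ℂ)) : xxS (c • f) = c • xxS f := by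
  ext x; simp only [xxS_apply, SchwartzMap.smul_apply, smul_eq_mul]; ring

lemma Eu_add (f g : 𝓢(Mink, ℂ)) : Eu (f + g) = Eu f + Eu g := by
  unfold Eu
  simp only [ld_add, Xm_add, Finset.sum_add_distrib]

lemma Eu_smul (c : ℂ) (f : 𝓢(Mink, ℂ)) : Eu (c • f) = c • Eu f := by
  unfold Eu
  rw [Finset.smul_sum]
  refine Finset.sum_congr rfl fun m _ => ?_
  rw [ld_smul, Xm_smul]

lemma boxS_add (f g : 𝓢(Mink, ℂ)) : boxS (f + g) = boxS f + boxS g := by
  have := boxS_add_smul f g 1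
  simpa using this

lemma boxS_smul (c : ℂ) (f : 𝓢(Mink, ℂ)) : boxS (c • f) = c • boxS f := by
  have h := boxS_add_smul 0 f c
  have h0 : boxS (0 : 𝓢(Mink, ℂ)) = 0 := by
    have := boxS_add_smul 0 0 (-1)
    simpa using this
  simpa [h0] using h

/-! ### Commutation relations -/

lemma eta_sq' (m : Ix) : GF.eta m * GF.eta m = 1 := eta_sq m

lemma eta_sqC (m : Ix) : (GF.eta m : ℂ) * (GF.eta m : ℂ) = 1 := by
  rw [← ofReal_mul, eta_sq', ofReal_one]

lemma dS_xxS (a : V) (G : 𝓢(Mink, ℂ)) : dS a (xxS G) = xxS (dS a G) + (2 : ℂ) • axS a G := by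
  ext x
  rw [dS_apply]
  simp only [ld_xxS, SchwartzMap.add_apply, SchwartzMap.smul_apply, xxS_apply, axS_apply, dS_apply,
    Xm_apply, smul_eq_mul, GF.mdot, ofReal_sum, mul_add, Finset.sum_add_distrib, Finset.mul_sum,
    Finset.sum_mul]
  congr 1
  · refine Finset.sum_congr rfl fun m _ => Finset.sum_congr rfl fun n _ => ?_
    ring
  · refine Finset.sum_congr rfl fun m _ => ?_
    push_cast
    ring

lemma dS_axS (a b : V) (G : 𝓢(Mink, ℂ)) :
    dS a (axS b G) = axS b (dS a G) + (GF.mdot a b : ℂ) • G := by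
  ext x
  rw [dS_apply]
  simp only [ld_axS, SchwartzMap.add_apply, SchwartzMap.smul_apply, axS_apply, dS_apply,
    smul_eq_mul, GF.mdot, ofReal_sum, mul_add, Finset.sum_add_distrib, Finset.mul_sum,
    Finset.sum_mul]
  congr 1
  · refine Finset.sum_congr rfl fun m _ => Finset.sum_congr rfl fun n _ => ?_
    ring
  · refine Finset.sum_congr rfl fun m _ => ?_
    push_cast
    ring

lemma boxS_axS (a : V) (G : 𝓢(Mink, ℂ)) :
    boxS (axS a G) = axS a (boxS G) + (2 : ℂ) • dS a G := by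
  ext x
  unfold boxS
  simp only [ld_axS, ld_add, ld_smul]
  simp only [SchwartzMap.sum_apply, SchwartzMap.add_apply, SchwartzMap.smul_apply, axS_apply,
    dS_apply, smul_eq_mul, Finset.mul_sum, ← Finset.sum_add_distrib]
  refine Finset.sum_congr rfl fun m _ => ?_
  have := eta_sqC m
  push_cast
  linear_combination (2 * (a m : ℂ) * (∂_{eb m} G : 𝓢(Mink, ℂ)) x) * this

lemma Eu_axS (a : V) (G : 𝓢(Mink, ℂ)) : Eu (axS a G) = axS a (Eu G) + axS a G := by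
  ext x
  unfold Eu
  simp only [ld_axS]
  simp only [SchwartzMap.sum_apply, SchwartzMap.add_apply, SchwartzMap.smul_apply, axS_apply,
    Xm_apply, smul_eq_mul, mul_add, Finset.sum_add_distrib, Finset.mul_sum]
  congr 1
  · refine Finset.sum_congr rfl fun m _ => ?_
    ring
  · rw [GF.mdot, ofReal_sum, Finset.sum_mul]
    refine Finset.sum_congr rfl fun m _ => ?_
    push_cast
    ring

lemma Eu_xxS (G : 𝓢(Mink, ℂ)) : Eu (xxS G) = xxS (Eu G) + (2 : ℂ) • xxS G := by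
  ext x
  unfold Eu
  simp only [ld_xxS]
  simp only [SchwartzMap.sum_apply, SchwartzMap.add_apply, SchwartzMap.smul_apply, xxS_apply,
    Xm_apply, smul_eq_mul, mul_add, Finset.sum_add_distrib, Finset.mul_sum]
  congr 1
  · refine Finset.sum_congr rfl fun m _ => ?_
    ring
  · rw [GF.mdot, ofReal_sum, Finset.sum_mul, Finset.mul_sum]
    refine Finset.sum_congr rfl fun m _ => ?_
    push_cast
    ring

lemma boxS_xxS (G : 𝓢(Mink, ℂ)) :
    boxS (xxS G) = xxS (boxS G) + (4 : ℂ) • Eu G + (8 : ℂ) • G := by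
  ext x
  unfold boxS Eu
  simp only [ld_xxS, ld_add, ld_smul, ld_Xm]
  simp only [SchwartzMap.sum_apply, SchwartzMap.add_apply, SchwartzMap.smul_apply, xxS_apply,
    Xm_apply, smul_eq_mul, Finset.mul_sum]
  have e : ∀ m : Ix, (GF.eta m : ℂ) * (GF.eta m : ℂ) = 1 := eta_sqC
  have e0 := e 0
  have e1 := e 1
  have e2 := e 2
  have e3 := e 3
  simp only [Fin.sum_univ_four, if_true]
  push_cast
  linear_combination (4 * (x 0 : ℂ) * (∂_{eb 0} G : 𝓢(Mink, ℂ)) x + 2 * G x) * e0 +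
    (4 * (x 1 : ℂ) * (∂_{eb 1} G : 𝓢(Mink, ℂ)) x + 2 * G x) * e1 +
    (4 * (x 2 : ℂ) * (∂_{eb 2} G : 𝓢(Mink, ℂ)) x + 2 * G x) * e2 +
    (4 * (x 3 : ℂ) * (∂_{eb 3} G : 𝓢(Mink, ℂ)) x + 2 * G x) * e3

lemma dS_ld (a : V) (m : Ix) (G : 𝓢(Mink, ℂ)) :
    dS a (∂_{eb m} G : 𝓢(Mink, ℂ)) = (∂_{eb m} (dS a G) : 𝓢(Mink, ℂ)) := by
  unfold dS
  rw [ld_sum]
  refine Finset.sum_congr rfl fun n _ => ?_
  rw [ld_smul, lineDeriv_comm']

lemma dS_Eu (a : V) (G : 𝓢(Mink, ℂ)) : dS a (Eu G) = Eu (dS a G) + dS a G := by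
  ext x
  rw [dS_apply]
  unfold Eu
  simp only [ld_sum, ld_Xm, ← dS_ld]
  simp only [SchwartzMap.sum_apply, SchwartzMap.add_apply, SchwartzMap.smul_apply, dS_apply,
    Xm_apply, smul_eq_mul, Finset.mul_sum, mul_add, Finset.sum_add_distrib]
  congr 1
  · rw [Finset.sum_comm]
    refine Finset.sum_congr rfl fun m _ => Finset.sum_congr rfl fun n _ => ?_
    rw [lineDeriv_comm' n m]
    ring
  · refine Finset.sum_congr rfl fun m _ => ?_
    rw [Finset.sum_eq_single m]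
    · simp
    · intro b _ hb
      rw [if_neg (Ne.symm hb)]; simp
    · intro h; exact absurd (Finset.mem_univ _) h

/-- the special conformal operators in momentum space -/
def Kop (a : V) (c : ℝ) (F : 𝓢(Mink, ℂ)) : 𝓢(Mink, ℂ) :=
  (c : ℂ) • dS a F + (2 : ℂ) • Eu (dS a F) - axS a (boxS F)

lemma Kop_xxS (a : V) (c : ℝ) (G : 𝓢(Mink, ℂ)) :
    Kop a c (xxS G) = xxS (Kop a c G) + ((2 * c - 4 : ℝ) : ℂ) • axS a G +
      (4 : ℂ) • xxS (dS a G) := by
  unfold Kop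
  rw [dS_xxS, Eu_add, Eu_xxS, Eu_smul, Eu_axS, boxS_xxS]
  ext x
  simp only [SchwartzMap.sub_apply, SchwartzMap.add_apply, SchwartzMap.smul_apply, xxS_apply,
    axS_apply, smul_eq_mul]
  push_cast
  ring

/-! ### Fourier transform -/

lemma mftS_ld (m : Ix) (f : 𝓢(Mink, ℂ)) :
    mftS (∂_{eb m} f) = (-(I * GF.eta m)) • Xm m (mftS f) := by
  ext p
  rw [mftS_apply, mft_lineDeriv, SchwartzMap.smul_apply, Xm_apply, mftS_apply, smul_eq_mul]
  have : mdot p (eb m) = GF.eta m * p m := by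
    unfold mdot eb GF.eta
    fin_cases m <;> simp [GF.o]
  rw [this]
  push_cast
  ring

lemma mftS_Xm (m : Ix) (f : 𝓢(Mink, ℂ)) :
    mftS (Xm m f) = (-(I * GF.eta m)) • (∂_{eb m} (mftS f) : 𝓢(Mink, ℂ)) := by
  have h1 : (∂_{eb m} (mftS f) : 𝓢(Mink, ℂ)) =
      SchwartzMap.compCLMOfContinuousLinearEquiv ℂ mftEquiv
        (∂_{mftEquiv (eb m)} (𝓕 f) : 𝓢(Mink, ℂ)) := by
    rw [← lineDerivOp_compCLMOfContinuousLinearEquiv]
    rfl
  have h2 : mftS (Xm m f) = SchwartzMap.compCLMOfContinuousLinearEquiv ℂ mftEquiv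
        (𝓕 (Xm m f)) := rfl
  rw [h1, h2, lineDerivOp_fourier_eq, ← map_smul]
  congr 1
  rw [← FourierTransform.fourier_smul]
  congr 1
  ext x
  have ht : (inner ℝ · (mftEquiv (eb m)) : Mink → ℝ).HasTemperateGrowth :=
    ((innerSL ℝ).flip (mftEquiv (eb m))).hasTemperateGrowth
  rw [SchwartzMap.smul_apply, SchwartzMap.smul_apply, Xm_apply,
    SchwartzMap.smulLeftCLM_apply_apply ht]
  have h3 : inner ℝ x (mftEquiv (eb m)) = -(2 * Real.pi)⁻¹ * (GF.eta m * x m) := by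
    change inner ℝ x ((-(2 * Real.pi)⁻¹) • flipS (eb m)) = _
    rw [inner_smul_right]
    congr 1
    rw [PiLp.inner_apply, Fin.sum_univ_four]
    unfold flipS eb GF.eta
    fin_cases m <;> simp [GF.o]
  rw [h3]
  have hpi : (Real.pi : ℂ) ≠ 0 := by exact_mod_cast Real.pi_ne_zero
  have he := eta_sqC m
  simp only [smul_eq_mul, real_smul]
  push_cast
  field_simp
  linear_combination ((x m : ℂ) * f x * ((GF.eta m : ℂ) * (GF.eta m : ℂ))) * I_sq -
    ((x m : ℂ) * f x) * he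

lemma mftS_sum (g : Ix → 𝓢(Mink, ℂ)) : mftS (∑ k, g k) = ∑ k, mftS (g k) := map_sum _ _ _

lemma mftS_dS (a : V) (f : 𝓢(Mink, ℂ)) : mftS (dS a f) = (-I) • axS a (mftS f) := by
  unfold dS axS
  rw [mftS_sum, Finset.smul_sum]
  refine Finset.sum_congr rfl fun m _ => ?_
  rw [map_smul, mftS_ld, smul_smul, smul_smul]
  congr 1
  push_cast
  ring

lemma mftS_axS (a : V) (f : 𝓢(Mink, ℂ)) : mftS (axS a f) = (-I) • dS a (mftS f) := by
  unfold dS axS
  rw [mftS_sum, Finset.smul_sum]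
  refine Finset.sum_congr rfl fun m _ => ?_
  rw [map_smul, mftS_Xm, smul_smul, smul_smul]
  congr 1
  push_cast
  linear_combination (-(I * (a m : ℂ))) * eta_sqC m

lemma mftS_xxS (f : 𝓢(Mink, ℂ)) : mftS (xxS f) = (-1 : ℂ) • boxS (mftS f) := by
  unfold xxS boxS
  rw [mftS_sum, Finset.smul_sum]
  refine Finset.sum_congr rfl fun m _ => ?_
  rw [map_smul, mftS_Xm, mftS_Xm, ld_smul, smul_smul, smul_smul, smul_smul]
  congr 1
  linear_combination ((GF.eta m : ℂ) * (GF.eta m : ℂ) * (GF.eta m : ℂ)) * I_sq -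
    (GF.eta m : ℂ) * eta_sqC m

lemma mftS_Eu (f : 𝓢(Mink, ℂ)) :
    mftS (Eu f) = (-1 : ℂ) • ((4 : ℂ) • mftS f + Eu (mftS f)) := by
  have h1 : mftS (Eu f) = ∑ k, (-1 : ℂ) • (mftS f + Xm k (∂_{eb k} (mftS f))) := by
    unfold Eu
    rw [mftS_sum]
    refine Finset.sum_congr rfl fun m _ => ?_
    rw [mftS_Xm, mftS_ld, ld_smul, ld_Xm, smul_smul, if_pos rfl, ofReal_one, one_smul, add_comm]
    congr 1
    linear_combination ((GF.eta m : ℂ) * (GF.eta m : ℂ)) * I_sq - eta_sqC m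
  rw [h1, ← Finset.smul_sum, Finset.sum_add_distrib]
  congr 2
  rw [Finset.sum_const, Finset.card_univ, Fintype.card_fin]
  ext x
  simp

lemma mftS_kdS (a : V) (Δ : ℝ) (f : 𝓢(Mink, ℂ)) :
    mftS (kdS a Δ f) = (-I) • Kop a (2 * Δ) (mftS f) := by
  unfold kdS Kop
  rw [map_sub, map_sub, map_smul, map_smul, mftS_xxS, mftS_dS, mftS_axS, mftS_axS, mftS_Eu,
    dS_smul, dS_add, dS_smul, dS_Eu, boxS_smul, boxS_axS]
  ext x
  simp only [SchwartzMap.sub_apply, SchwartzMap.add_apply, SchwartzMap.smul_apply, smul_eq_mul]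
  push_cast
  ring

end Vale.Agent.P352.H993

end
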