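import Vale.Agent.P352.H993.Frame
import Vale.Agent.P352.H746.Glue

set_option linter.all false

noncomputable section

open MeasureTheory SchwartzMap Complex Filter Topology
open scoped SchwartzMap ComplexConjugate ENNReal LineDeriv ContDiff FourierTransform

/-!
# P352 (helper993): the values of `J` and `l` along the translates of `J(g) Ω` are Schwartz
functions if the Fourier transform of `g` is a test function on the open forward cone
-/

namespace Vale.Agent.P352.H993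

open GF (Ix V Fn Sch ev pd bar sim bas o)
open H246
open H496
open H246R
open H755
open H746
open UniformSpace (Completion)

lemma contDiff_chr (a : Mink) : ContDiff ℝ ∞ (chr a) := by
  unfold chr mdot
  have h : ContDiff ℝ ∞ fun p : Mink => p 0 * a 0 - p 1 * a 1 - p 2 * a 2 - p 3 * a 3 :=
    ((((contDiff_coord 0).mul contDiff_const).sub ((contDiff_coord 1).mul contDiff_const)).sub
      ((contDiff_coord 2).mul contDiff_const)).sub ((contDiff_coord 3).mul contDiff_const)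
  exact Complex.contDiff_exp.comp (contDiff_const.mul (ofRealCLM.contDiff.comp h))

/-- functionals with a smooth density, on translates -/
theorem sch_gen {T : 𝓢(Mink, ℂ) →L[ℂ] ℂ} {ρ : Mink → ℂ} (hρ : ContDiffOn ℝ ∞ ρ Pos)
    (h : ∀ G, TF Pos G → T (psi G) = MI (psi fun y => ρ y * G y)) {F : 𝓢(Mink, ℂ)} (hF : PC F) :
    ∃ Φ : 𝓢(Mink, ℂ), ∀ (y : Mink) (F' : 𝓢(Mink, ℂ)), (∀ p, F' p = chr (-y) p * F p) →
      T F' = Φ y := by
  obtain ⟨G, hG, rfl⟩ := hF.exists
  have tK := mulOn isOpen_Pos hG hρ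
  refine ⟨SchwartzMap.compCLMOfContinuousLinearEquiv ℂ (ContinuousLinearEquiv.neg ℝ)
    (mftS (psi fun y => ρ y * G y)), fun y F' hF' => ?_⟩
  have hc : ContDiff ℝ ∞ fun z => chr (-y) (icd z) := (contDiff_chr (-y)).comp contDiff_icd
  have t1 : TF Pos fun z => chr (-y) (icd z) * G z := hG.mul hc
  have e1 : F' = psi (fun z => chr (-y) (icd z) * G z) := by
    ext p
    rw [hF']
    by_cases hp : p ∈ Hs
    · rw [psi_apply_of_mem t1.1 hp, psi_apply_of_mem hG.1 hp, icd_crd hp]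
    · rw [psi_apply_of_notMem t1.1 hp, psi_apply_of_notMem hG.1 hp, mul_zero]
  have t2 := mulOn isOpen_Pos t1 hρ
  rw [e1, h _ t1, MI_apply]
  show _ = mftS (psi fun y => ρ y * G y) (-y)
  rw [mftS_apply]
  unfold mft
  congr 1
  ext p
  by_cases hp : p ∈ Hs
  · rw [psi_apply_of_mem t2.1 hp, psi_apply_of_mem tK.1 hp, icd_crd hp]
    unfold chr
    rw [mdot_comm]
    ring
  · rw [psi_apply_of_notMem t2.1 hp, psi_apply_of_notMem tK.1 hp, mul_zero]

variable {D : Type*} [NormedAddCommGroup D] [InnerProductSpace ℂ D]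
variable {Q : GF.Theory D}
variable {H : D → D} {alg : Set V → Set (D → D)} {S : V → ℝ → D → D}

lemma J_vac {J : Ix → GF.Fld D} (hJ : VFld Q J) {s : ℝ} (hs : 0 < s) {L : Ix → V}
    (hL : GF.IsLor L) (m : Ix) (f : 𝓢(Mink, ℂ)) : J m (fl f) Q.vac =
      ∑ k, ((s * L k m : ℝ) : ℂ) • Q.U s L 0 (J k (fl (simS s hs hL 0 f)) Q.vac) := by
  have h1 := hJ.cov m s hs L hL 0 f Q.vac
  rwa [Q.U_vac s L 0 hs hL] at h1

lemma pt_sum (N : CNet Q H alg S) {φ : Completion D} {B : D → D} (hB : B ∈ alg Set.univ)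
    {ι : Type*} (t : Finset ι) (c : ι → ℂ) (w : ι → D) :
    pt φ B (∑ i ∈ t, c i • w i) = ∑ i ∈ t, c i * pt φ B (w i) := by
  set ℓ : D →ₗ[ℂ] ℂ :=
    { toFun := fun v => pt φ B v
      map_add' := fun v w => pt_add' N hB φ v w
      map_smul' := fun c v => by rw [pt_smul' N hB, RingHom.id_apply, smul_eq_mul] } with hℓ
  have h := map_sum ℓ (fun i => c i • w i) t
  simp only [map_smul, smul_eq_mul] at h
  exact h

/-- translates -/
lemma tr_vac {A : GF.Fld D} (hA : Q.fld A) (g : 𝓢(Mink, ℂ)) (y : Mink) :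
    U1 Q (-y) (A (fl g) Q.vac) = A (fl (tauS (-y) g)) Q.vac := by
  have h1 : U1 Q (-y) (A (fl g) Q.vac) = A (fl (tauS (-y) g)) (U1 Q (-y) Q.vac) := U_fld hA g (-y) Q.vac
  rw [h1, U1_vac]

lemma one_ne {k m : Ix} (h : k ≠ m) : GF.one k m = 0 := by
  simp [GF.one, bas, Ne.symm h]

lemma one_eq (m : Ix) : GF.one m m = 1 := by
  simp [GF.one, bas]

/-- Schwartz property for a scalar value functional of dimension two -/
theorem sch_pt (N : CNet Q H alg S) {φ : Completion D} {B : D → D} (hB : B ∈ alg Set.univ)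
    (hq : ∀ σ L v, 0 < σ → GF.IsLor L → pt φ B (Q.U σ L 0 v) = ((σ ^ 2)⁻¹ : ℝ) * pt φ B v)
    {J : Ix → GF.Fld D} (hJ : VFld Q J) (m : Ix) {g : 𝓢(Mink, ℂ)} (hg : PC (mftS g)) :
    ∃ Φ : 𝓢(Mink, ℂ), ∀ y : Mink, pt φ B (U1 Q (-y) (J m (fl g) Q.vac)) = Φ y := by
  have hfld : ∀ m, Q.fld (J m) := fun m => Q.bose_fld _ (hJ.bose m)
  choose T0 hT0 using fun m => exists_fun N φ (hfld m) hB
  have hcov : ∀ s (hs : 0 < s) L (hL : GF.IsLor L) m F, (T0 m).comp imf F =
      ∑ k, ((L k m * s⁻¹ : ℝ) : ℂ) * (T0 k).comp imf (act s hs hL F) := by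
    intro s hs L hL m F
    simp only [ContinuousLinearMap.comp_apply, hT0, imf_act]
    rw [J_vac hJ hs hL m (imf F)]
    have h1 := pt_sum N (φ := φ) hB Finset.univ (fun k => ((s * L k m : ℝ) : ℂ))
      (fun k => Q.U s L 0 (J k (fl (simS s hs hL 0 (imf F))) Q.vac))
    unfold pt at h1
    rw [h1]
    refine Finset.sum_congr rfl fun k _ => ?_
    have h2 := hq s L (J k (fl (simS s hs hL 0 (imf F))) Q.vac) hs hL
    unfold pt at h2
    rw [h2]
    have hs' : (s : ℂ) ≠ 0 := by exact_mod_cast hs.ne'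
    push_cast
    field_simp
  obtain ⟨ρ, hρ, h⟩ := gen_dens (T := fun m => (T0 m).comp imf) fr1
    (fun L hL i f => by
      have := hcov 1 one_pos L hL i f
      simpa using this) (κ := 1) (fun t i f => by
      rw [hcov (Real.exp (-t)) (Real.exp_pos _) _ isLor_one i f]
      rw [Finset.sum_eq_single i]
      · rw [one_eq, one_mul, ← Real.exp_neg, neg_neg]
        push_cast
        rw [one_mul]
      · intro k _ hk
        rw [one_ne hk]
        simp
      · intro hh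
        exact absurd (Finset.mem_univ i) hh) m
  obtain ⟨Φ, hΦ⟩ := sch_gen hρ h hg
  refine ⟨Φ, fun y => ?_⟩
  rw [← hΦ y (mftS (tauS (-y) g)) (fun p => by rw [mftS_apply, mft_tauS, mftS_apply]),
    ContinuousLinearMap.comp_apply, imf_mftS, hT0, tr_vac (hfld m)]
  rfl

/-- Schwartz property for the components of `J` -/
theorem sch_vj (N : CNet Q H alg S) {T : Ix → Ix → GF.Fld D} {J : Ix → GF.Fld D}
    (hJ : IsVirial Q T J) (k m : Ix) {g : 𝓢(Mink, ℂ)} (hg : PC (mftS g)) :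
    ∃ Φ : 𝓢(Mink, ℂ), ∀ y : Mink, vj Q J k (U1 Q (-y) (J m (fl g) Q.vac)) = Φ y := by
  have hV : VFld Q J := hJ.vfld
  have hfld : ∀ m, Q.fld (J m) := fun m => Q.bose_fld _ (hJ.bose m)
  have hpt : ∀ k, ∃ (φ : Completion D) (B : D → D), B ∈ alg Set.univ ∧
      ∀ v, vj Q J k v = pt φ B v := by
    intro k
    obtain ⟨μ, K, w, n, h⟩ := exists_kc N.toNet hfld (bas k 1)
    exact ⟨_, _, pw1_mem N.toNet n, fun v => vj_eq N.toNet hfld (pw1_mem N.toNet n) h v⟩
  choose φ B hB hv using hpt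
  choose T0 hT0 using fun i : Ix × Ix => exists_fun N (φ i.1) (hfld i.2) (hB i.1)
  have hT1 : ∀ i F, T0 i F = vj Q J i.1 (J i.2 (fl F) Q.vac) := fun i F => by
    rw [hT0, hv]; rfl
  have hcov : ∀ s (hs : 0 < s) L (hL : GF.IsLor L) i F, (T0 i).comp imf F =
      ∑ j : Ix × Ix, ((L j.1 i.1 * L j.2 i.2 * (s ^ 2)⁻¹ : ℝ) : ℂ) *
        (T0 j).comp imf (act s hs hL F) := by
    intro s hs L hL i F
    simp only [ContinuousLinearMap.comp_apply, hT1, imf_act]
    rw [J_vac hV hs hL i.2 (imf F), hv,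
      pt_sum N (φ := φ i.1) (hB i.1) Finset.univ (fun k => ((s * L k i.2 : ℝ) : ℂ))
      (fun k => Q.U s L 0 (J k (fl (simS s hs hL 0 (imf F))) Q.vac)), Fintype.sum_prod_type,
      Finset.sum_comm]
    refine Finset.sum_congr rfl fun m' _ => ?_
    rw [← hv, vj_cov N hJ hs hL, Finset.mul_sum, Finset.mul_sum]
    refine Finset.sum_congr rfl fun k' _ => ?_
    have hs' : (s : ℂ) ≠ 0 := by exact_mod_cast hs.ne'
    push_cast
    field_simp
  obtain ⟨ρ, hρ, h⟩ := gen_dens (T := fun i => (T0 i).comp imf) fr2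
    (fun L hL i f => by
      have := hcov 1 one_pos L hL i f
      simpa using this) (κ := 2) (fun t i f => by
      rw [hcov (Real.exp (-t)) (Real.exp_pos _) _ isLor_one i f]
      rw [Finset.sum_eq_single i]
      · rw [one_eq, one_eq, one_mul, one_mul, ← Real.exp_nat_mul, ← Real.exp_neg]
        push_cast
        congr 2
        ring
      · intro j _ hj
        have : j.1 ≠ i.1 ∨ j.2 ≠ i.2 := by
          by_contra hc
          push Not at hc
          exact hj (Prod.ext hc.1 hc.2)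
        rcases this with h1 | h1
        · rw [one_ne h1]; simp
        · rw [one_ne h1]; simp
      · intro hh
        exact absurd (Finset.mem_univ i) hh) (k, m)
  obtain ⟨Φ, hΦ⟩ := sch_gen hρ h hg
  refine ⟨Φ, fun y => ?_⟩
  rw [← hΦ y (mftS (tauS (-y) g)) (fun p => by rw [mftS_apply, mft_tauS, mftS_apply]),
    ContinuousLinearMap.comp_apply, imf_mftS, hT1, tr_vac (hfld m)]

/-- Schwartz functions on `V` -/
def toV (Φ : 𝓢(Mink, ℂ)) : 𝓢(V, ℂ) :=
  SchwartzMap.compCLMOfContinuousLinearEquiv ℂ (EuclideanSpace.equiv (Fin 4) ℝ).symm Φ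

lemma toV_apply (Φ : 𝓢(Mink, ℂ)) (y : V) : toV Φ y = Φ (WithLp.toLp 2 y) := rfl

/-- values of a point functional of dimension two -/
theorem vl_pt (N : CNet Q H alg S) {T : Ix → Ix → GF.Fld D} (hT : Q.IsStress T)
    {l : Fn → Completion D} (hl : IsPot Q T l) : ∃ (φ : Completion D) (B : D → D),
    B ∈ alg Set.univ ∧ (∀ v, vl l v = pt φ B v) ∧
    ∀ σ L v, 0 < σ → GF.IsLor L → pt φ B (Q.U σ L 0 v) = ((σ ^ 2)⁻¹ : ℝ) * pt φ B v := by
  obtain ⟨μ, Sy, two⟩ := (PField.tr hT).exists_sym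
  obtain ⟨φ, n, hrep⟩ := exists_point Sy (PField.tr hT) two N.toNet
  have hp := isPot_lamF Sy (PField.tr hT) two
  have hll : ∀ f, GF.IsTest f → l f = lamF Sy (PField.tr hT) f := fun f hf => hp.unique hl f hf
  have hv := fun v c => val_iff hT Sy N.toNet hrep hll v c
  refine ⟨φ, pw1 H n, pw1_mem N.toNet n, fun v => ?_, fun σ L v hσ hL =>
    pt_cov hT Sy two N hrep σ L v hσ hL⟩
  have h1 : Val l v (vl l v) := Classical.epsilon_spec ⟨_, (hv v _).2 rfl⟩
  exact (hv _ _).1 h1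

/-- (S): the values of `J` and `l` along the translates of `J(g) Ω` are Schwartz functions -/
theorem hsch (N : CNet Q H alg S) {T : Ix → Ix → GF.Fld D} (hT : Q.IsStress T)
    {J : Ix → GF.Fld D} (hJ : IsVirial Q T J) {l : Fn → Completion D} (hl : IsPot Q T l)
    (m : Ix) (g : 𝓢(Mink, ℂ)) (hg : PC (mftS g)) : ∃ (Am : Ix → 𝓢(V, ℂ)) (Lm : 𝓢(V, ℂ)),
    (∀ k y, vj Q J k (Q.U 1 GF.one (-y) (J m (fl g) Q.vac)) = Am k y) ∧
    ∀ y, vl l (Q.U 1 GF.one (-y) (J m (fl g) Q.vac)) = Lm y := by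
  choose Φ hΦ using fun k => sch_vj N hJ k m hg
  obtain ⟨φ, B, hB, h1, h2⟩ := vl_pt N hT hl
  obtain ⟨Ψ, hΨ⟩ := sch_pt N hB h2 hJ.vfld m hg
  refine ⟨fun k => toV (Φ k), toV Ψ, fun k y => ?_, fun y => ?_⟩
  · rw [toV_apply, ← hΦ k (WithLp.toLp 2 y)]
    rfl
  · rw [toV_apply, ← hΨ (WithLp.toLp 2 y), h1]
    rfl

end Vale.Agent.P352.H993

end
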