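import Vale.Agent.P352.H246.Rc8
import Vale.Agent.P352.H993.TlRm

set_option linter.all false

noncomputable section

open MeasureTheory SchwartzMap Complex Filter Topology
open scoped SchwartzMap ComplexConjugate ENNReal LineDeriv ContDiff FourierTransform

namespace Vale.Agent.P352.H993

open GF (Ix V Fn Sch ev pd bar sim bas o)
open H246 H496 H246R

/-- uniqueness of covariant functionals on the open forward cone -/
theorem uniqueP {T : 𝓢(Mink, ℂ) →L[ℂ] ℂ} (C : Cvr T Pos (-1) (-5)) : ∃ c : ℂ, ∀ G, TF Pos G →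
    T (psi G) = c * ∫ y : Mink, ((Real.exp (3 * y 0) : ℝ) : ℂ) * G y := by
  have hL := H283.exists_const
    (fun G => T (psi fun y => ((Real.exp ((-3) * y 0) : ℝ) : ℂ) * G y)) ?_ ?_ ?_
  · obtain ⟨c, hc⟩ := hL
    refine ⟨c, fun G hG => ?_⟩
    have h1 := hG.mul (contDiff_e 3)
    rw [← hc _ (tf_iff.2 h1)]
    congr 2
    funext y
    have : ((Real.exp ((-3) * y 0) : ℝ) : ℂ) * ((Real.exp (3 * y 0) : ℝ) : ℂ) = 1 := by
      rw [← ofReal_mul, ← Real.exp_add]
      have : (-3) * y 0 + 3 * y 0 = 0 := by ring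
      rw [this, Real.exp_zero, ofReal_one]
    rw [← mul_assoc, this, one_mul]
  · intro G G' h h'
    have t1 := (tf_iff.1 h).mul (contDiff_e (-3))
    have t2 := (tf_iff.1 h').mul (contDiff_e (-3))
    show T (psi _) = T (psi _) + T (psi _)
    rw [← T_add t1 t2]
    congr 2
    funext y
    simp only [Pi.add_apply]
    ring
  · intro c G h
    have t1 := (tf_iff.1 h).mul (contDiff_e (-3))
    show T (psi _) = c * T (psi _)
    rw [← T_smul c t1]
    congr 2
    funext y
    simp only [Pi.smul_apply, smul_eq_mul]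
    ring
  · intro j G h
    have hG := tf_iff.1 h
    have t1 := hG.mul (contDiff_e (-3))
    set K : Mink → ℂ := fun y => ((Real.exp ((-3) * y 0) : ℝ) : ℂ) * G y with hK
    have e : ∀ y, ((Real.exp ((-3) * y 0) : ℝ) : ℂ) * fderiv ℝ G y (EuclideanSpace.single j 1) =
        dd j K y - (if j = 0 then ((-3 : ℝ) : ℂ) else 0) * K y := by
      intro y
      have := dd_e hG.1 (-3) j y
      rw [hK, this]
      unfold dd eb
      ring
    show T (psi fun y => ((Real.exp ((-3) * y 0) : ℝ) : ℂ) *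
      fderiv ℝ G y (EuclideanSpace.single j 1)) = 0
    simp only [e]
    fin_cases j
    · have e2 : (fun y => dd 0 K y - (if (0 : Fin 4) = 0 then ((-3 : ℝ) : ℂ) else 0) * K y) =
          dd 0 K + (3 : ℂ) • K := by
        funext y
        simp only [if_true, Pi.add_apply, Pi.smul_apply, smul_eq_mul]
        push_cast
        ring
      show T (psi (fun y => dd 0 K y - (if (0 : Fin 4) = 0 then ((-3 : ℝ) : ℂ) else 0) * K y)) = 0
      rw [e2, T_add (t1.dd 0) (t1.smul _), T_smul _ t1, C.d0 t1]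
      ring
    · have e2 : (fun y => dd 1 K y - (if (1 : Fin 4) = 0 then ((-3 : ℝ) : ℂ) else 0) * K y) =
          dd 1 K := by
        funext y
        simp
      show T (psi (fun y => dd 1 K y - (if (1 : Fin 4) = 0 then ((-3 : ℝ) : ℂ) else 0) * K y)) = 0
      rw [e2, C.d1 t1]
    · have e2 : (fun y => dd 2 K y - (if (2 : Fin 4) = 0 then ((-3 : ℝ) : ℂ) else 0) * K y) =
          dd 2 K := by
        funext y
        simp
      show T (psi (fun y => dd 2 K y - (if (2 : Fin 4) = 0 then ((-3 : ℝ) : ℂ) else 0) * K y)) = 0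
      rw [e2, C.d2 t1]
    · have e2 : (fun y => dd 3 K y - (if (3 : Fin 4) = 0 then ((-3 : ℝ) : ℂ) else 0) * K y) =
          dd 3 K := by
        funext y
        simp
      show T (psi (fun y => dd 3 K y - (if (3 : Fin 4) = 0 then ((-3 : ℝ) : ℂ) else 0) * K y)) = 0
      rw [e2]
      have t2 : TF Pos (fun y => K y / (y 3 : ℂ)) := tf_iff.1 (H846.tf_div (tf_iff.2 t1))
      have h3 := C.d3 t2
      have e3 : (fun y => (y 3 : ℂ) * dd 3 (fun y => K y / (y 3 : ℂ)) y) =
          dd 3 K + (-1 : ℂ) • (fun y => K y / (y 3 : ℂ)) := by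
        funext y
        have h4 := dd_mul_coord t2.1 3 y
        have e4 : (fun y : Mink => (y 3 : ℂ) * (K y / (y 3 : ℂ))) = K := by
          funext y
          by_cases h0 : (y 3 : ℂ) = 0
          · have : y ∉ tsupport K := by
              intro h5
              have h6 : 0 < y 3 := t1.2 h5
              exact h6.ne' (by exact_mod_cast h0)
            rw [image_eq_zero_of_notMem_tsupport this]
            simp
          · field_simp
        rw [e4] at h4
        simp only [Pi.add_apply, Pi.smul_apply, smul_eq_mul]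
        rw [h4]
        ring
      rw [e3, T_add (t1.dd 3) (t2.smul _), T_smul _ t2] at h3
      linear_combination h3


/-- covariance of the values on a scalar of dimension four -/
structure Scl (T : 𝓢(Mink, ℂ) →L[ℂ] ℂ) : Prop where
  cov : ∀ s (hs : 0 < s) L (hL : GF.IsLor L) r, 0 < r → sim 1 L 0 (nu (-1)) = r • nu (-1) →
    ∀ F, T F = (((r * s)⁻¹ : ℝ) : ℂ) * T (act s hs hL F)

lemma Scl.cvr {T : 𝓢(Mink, ℂ) →L[ℂ] ℂ} (hT : Scl T) : Cvr T Pos (-1) (-5) where
  n1 b G hG := by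
    rw [psi_null hG.1 b (TF_shi adm_Pos hG (Or.inl rfl) b).1]
    have := hT.cov 1 one_pos _ (isLor_null b) 1 one_pos (null_nu b) (psi G)
    rw [this]
    simp
  n2 b G hG := by
    rw [psi_null' hG.1 b (TF_shi adm_Pos hG (Or.inr rfl) b).1]
    have := hT.cov 1 one_pos _ (isLor_null' b) 1 one_pos (null_nu' b) (psi G)
    rw [this]
    simp
  bo t G hG := by
    rw [psi_boost hG.1 t (TF_bst adm_Pos hG t).1]
    have := hT.cov 1 one_pos _ (isLor_boost t) _ (Real.exp_pos (-t)) (boost_nu t) (psi G)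
    rw [this, ← mul_assoc, mul_one, Real.exp_neg, inv_inv, ofReal_exp, ← Complex.exp_add]
    simp
  di t G hG := by
    have h1 := hT.cov (Real.exp (-t)) (Real.exp_pos _) _ isLor_one 1 one_pos sim_one_nu (psi G)
    rw [psi_dil hG.1 t (TF_dlt adm_Pos hG t).1, map_smul, smul_eq_mul, one_mul, Real.exp_neg,
      inv_inv, ofReal_exp, ← mul_assoc, ← Complex.exp_add] at h1
    rw [h1, ← mul_assoc, ← Complex.exp_add]
    have : (-5 : ℂ) * t + (t + 4 * t) = 0 := by ring
    rw [this, Complex.exp_zero, one_mul]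

/-- classification -/
theorem Scl.cls {T : 𝓢(Mink, ℂ) →L[ℂ] ℂ} (hT : Scl T) : ∃ c : ℂ, ∀ F, PC F →
    T F = c * ∫ p, (pm p : ℂ) * F p := by
  obtain ⟨c1, h1⟩ := uniqueP hT.cvr
  obtain ⟨c2, h2⟩ := Cvr_MI.unique
  obtain ⟨F0, hF0, hne, -⟩ := exists_bumpPC
  have hc2 : c2 ≠ 0 := by
    intro h0
    obtain ⟨G, hG, rfl⟩ := hF0.exists
    apply hne
    rw [h2 G hG, h0, zero_mul]
  refine ⟨c1 / c2, fun F hF => ?_⟩
  obtain ⟨G, hG, rfl⟩ := hF.exists
  have h3 := hG.mul (contDiff_e 1)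
  have e : ∀ p, (pm p : ℂ) * psi G p =
      psi (fun y => ((Real.exp (1 * y 0) : ℝ) : ℂ) * G y) p := by
    intro p
    by_cases hp : p ∈ Hs
    · rw [psi_apply_of_mem hG.1 hp, psi_apply_of_mem h3.1 hp]
      have : crd p 0 = Real.log (pm p) := by simp [crd]
      rw [this, one_mul, Real.exp_log hp]
    · rw [psi_apply_of_notMem hG.1 hp, psi_apply_of_notMem h3.1 hp, mul_zero]
  simp only [e]
  rw [h1 G hG, ← MI_apply, h2 _ h3]
  have e2 : ∀ y : Mink, ((Real.exp (2 * y 0) : ℝ) : ℂ) * (((Real.exp (1 * y 0) : ℝ) : ℂ) * G y) =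
      ((Real.exp (3 * y 0) : ℝ) : ℂ) * G y := by
    intro y
    rw [← mul_assoc, ← ofReal_mul, ← Real.exp_add]
    congr 3
    ring
  simp only [e2]
  field_simp

/-- classification in position space -/
theorem Scl.pos {T : 𝓢(Mink, ℂ) →L[ℂ] ℂ} (hT : Scl T) : ∃ c : ℂ, ∀ f : 𝓢(Mink, ℂ),
    PC (mftS f) → T (mftS f) = c * (∂_{(WithLp.toLp 2 (nu (-1)) : Mink)} f : 𝓢(Mink, ℂ)) 0 := by
  obtain ⟨c, hc⟩ := hT.cls
  obtain ⟨c0, h0, h1⟩ := exists_inv
  refine ⟨c * (I * c0), fun f hf => ?_⟩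
  have h2 := h1 (∂_{(WithLp.toLp 2 (nu (-1)) : Mink)} f : 𝓢(Mink, ℂ))
  rw [MI_apply] at h2
  have e : ∀ p, mftS (∂_{(WithLp.toLp 2 (nu (-1)) : Mink)} f : 𝓢(Mink, ℂ)) p =
      (-I) * ((pm p : ℂ) * mftS f p) := by
    intro p
    rw [mftS_apply, mft_lineDeriv, ← mftS_apply]
    have : mdot p (WithLp.toLp 2 (nu (-1))) = pm p := by
      simp [mdot, nu, pm]
    rw [this]
    ring
  simp only [e] at h2
  rw [integral_const_mul] at h2
  rw [hc _ hf]
  have h3 : ∫ p, (pm p : ℂ) * mftS f p =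
      I * (c0 * (∂_{(WithLp.toLp 2 (nu (-1)) : Mink)} f : 𝓢(Mink, ℂ)) 0) := by
    rw [← h2, ← mul_assoc]
    have : I * -I = 1 := by rw [mul_neg, I_mul_I, neg_neg]
    rw [this, one_mul]
  rw [h3]
  ring

end Vale.Agent.P352.H993
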