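import Vale.Agent.P352.H746.One
import Vale.Agent.P352.H993.TlSc

set_option linter.all false

noncomputable section

open MeasureTheory SchwartzMap Complex Filter Topology
open scoped SchwartzMap ComplexConjugate ENNReal LineDeriv ContDiff FourierTransform

namespace Vale.Agent.P352.H993

open GF (Ix V Fn Sch ev pd bar sim bas o)
open H246 H496 H246R H746
open UniformSpace (Completion)

variable {D : Type*} [NormedAddCommGroup D] [InnerProductSpace ℂ D]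
variable {Q : GF.Theory D}
variable {H : D → D} {alg : Set V → Set (D → D)} {S : V → ℝ → D → D} {G : V → D → D}
variable {T : Ix → Ix → GF.Fld D}

/-- the values on the trace -/
lemma tr_cov (hT : Q.IsStress T) (N : CNet Q H alg S) (Gg : Gnr Q alg S G)
    {φ : Completion D} {B : D → D} (hB : B ∈ alg Set.univ)
    (hq : ∀ σ L v, 0 < σ → GF.IsLor L → pt φ B (Q.U σ L 0 v) = ((σ ^ 2)⁻¹ : ℝ) * pt φ B v)
    {s r : ℝ} (hs : 0 < s) (hr : 0 < r) {L : Ix → V} (hL : GF.IsLor L) {a b : V}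
    (ha : IsNull a) (hb : IsNull b) (hab : sim 1 L 0 a = r • b) (f : 𝓢(Mink, ℂ)) :
    pt φ B (G b (GF.tr T (fl f) Q.vac)) = (((r * s)⁻¹ : ℝ) : ℂ) *
      pt φ B (G a (GF.tr T (fl (simS s hs hL 0 f)) Q.vac)) := by
  have h := (PField.tr hT).cov s hs L hL 0 f Q.vac
  rw [Q.U_vac s L 0 hs hL] at h
  rw [h]
  have e : ((s ^ ((4 : ℝ) - 4) : ℝ) : ℂ) = 1 := by
    rw [sub_self, Real.rpow_zero, ofReal_one]
  rw [e, one_smul, ze_U N Gg.der hB hq hs hr hL ha hb hab]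

/-- the number that describes the response of the trace -/
theorem exists_theta (hT : Q.IsStress T) (N : CNet Q H alg S) (Gg : Gnr Q alg S G)
    {φ : Completion D} {B : D → D} (hB : B ∈ alg Set.univ)
    (hq : ∀ σ L v, 0 < σ → GF.IsLor L → pt φ B (Q.U σ L 0 v) = ((σ ^ 2)⁻¹ : ℝ) * pt φ B v) :
    ∃ θ : ℂ, ∀ a, IsNull a → ∀ f : 𝓢(Mink, ℂ), PC (mftS f) →
      pt φ B (G a (GF.tr T (fl f) Q.vac)) =
        θ * (∂_{(WithLp.toLp 2 a : Mink)} f : 𝓢(Mink, ℂ)) 0 := by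
  have ha0 : IsNull (nu (-1)) := isNull_nu (Or.inr rfl)
  have hX : (fun v => B (G (nu (-1)) v)) ∈ alg Set.univ := N.mul _ _ hB _ (Gg.mem _ ha0)
  choose M0 hM0 using fun m => exists_fun N φ (Q.bose_fld _ (hT.bose m m)) hX
  set M : 𝓢(Mink, ℂ) →L[ℂ] ℂ := (∑ m, (GF.eta m : ℂ) • M0 m).comp imf with hM
  have hval : ∀ f : 𝓢(Mink, ℂ), M (mftS f) = pt φ B (G (nu (-1)) (GF.tr T (fl f) Q.vac)) := by
    intro f
    rw [hM, ContinuousLinearMap.comp_apply, imf_mftS]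
    unfold GF.tr
    rw [pt_G_sum N Gg.mem hB ha0]
    simp only [ContinuousLinearMap.sum_apply, ContinuousLinearMap.smul_apply, smul_eq_mul, hM0]
    rfl
  have hS : Scl M := by
    refine ⟨fun s hs L hL r hr hab F => ?_⟩
    have h1 := tr_cov hT N Gg hB hq hs hr hL ha0 ha0 hab (imf F)
    rw [← hval, ← hval, mftS_imf] at h1
    exact h1
  obtain ⟨c, hc⟩ := hS.pos
  refine ⟨c, fun a ha f hf => ?_⟩
  obtain ⟨θ, ψ, hrot⟩ := exists_rot ha
  have hL := isLor_Rt θ ψ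
  have ha1 : 0 < a 0 := ha.2
  have hr : 0 < (a 0)⁻¹ := inv_pos.2 ha1
  rw [tr_cov hT N Gg hB hq one_pos hr hL ha0 ha hrot f, ← hval, hc _ (PC_sim hf hL (Vp_Rt θ ψ))]
  have e : (∂_{(WithLp.toLp 2 (nu (-1)) : Mink)} (simS 1 one_pos hL 0 f) : 𝓢(Mink, ℂ)) 0 =
      (((a 0)⁻¹ : ℝ) : ℂ) * (∂_{(WithLp.toLp 2 a : Mink)} f : 𝓢(Mink, ℂ)) 0 := by
    set w : Mink := WithLp.toLp 2 (nu (-1)) with hw
    set v : Mink := WithLp.toLp 2 a with hv
    have h1 : HasDerivAt (fun t : ℝ => f (0 + t • v)) ((∂_{v} f : 𝓢(Mink, ℂ)) 0) 0 :=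
      (f.differentiableAt.hasFDerivAt (x := (0 : Mink))).hasLineDerivAt v
    have h2 : HasDerivAt (fun t : ℝ => simS 1 one_pos hL 0 f (0 + t • w))
        ((∂_{w} (simS 1 one_pos hL 0 f) : 𝓢(Mink, ℂ)) 0) 0 :=
      ((simS 1 one_pos hL 0 f).differentiableAt.hasFDerivAt (x := (0 : Mink))).hasLineDerivAt w
    have h3 : (fun t : ℝ => simS 1 one_pos hL 0 f (0 + t • w)) =
        fun t : ℝ => f (0 + ((a 0)⁻¹ * t) • v) := by
      funext t
      rw [simS_apply]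
      congr 1
      have e1 : (0 + t • w : Mink).ofLp = t • nu (-1) := by
        rw [zero_add]
        rfl
      have e2 : sim 1 (Rt θ ψ) 0 (t • nu (-1)) = t • sim 1 (Rt θ ψ) 0 (nu (-1)) := by
        funext n
        simp only [sim, Pi.smul_apply, smul_eq_mul, Pi.zero_apply, zero_add, one_mul,
          Finset.mul_sum]
        exact Finset.sum_congr rfl fun m _ => by ring
      rw [e1, e2, hrot, zero_add, hv]
      ext n
      simp only [PiLp.smul_apply, Pi.smul_apply, smul_eq_mul]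
      ring
    have h4 : HasDerivAt (fun t : ℝ => (a 0)⁻¹ * t) (a 0)⁻¹ 0 := by
      simpa using (hasDerivAt_id (0 : ℝ)).const_mul (a 0)⁻¹
    have h5 : HasDerivAt (fun t : ℝ => f (0 + ((a 0)⁻¹ * t) • v))
        ((a 0)⁻¹ • (∂_{v} f : 𝓢(Mink, ℂ)) 0) 0 := by
      have h1' : HasDerivAt (fun t : ℝ => f (0 + t • v)) ((∂_{v} f : 𝓢(Mink, ℂ)) 0)
          ((a 0)⁻¹ * 0) := by rw [mul_zero]; exact h1
      exact h1'.scomp (0 : ℝ) h4
    rw [h3] at h2
    rw [h2.unique h5, real_smul]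
  rw [e, mul_one, inv_inv]
  have : (a 0 : ℂ) ≠ 0 := by exact_mod_cast ha1.ne'
  push_cast
  field_simp

/-- THE INPUTS: the values `⟨l(0), G a T^{mn}(f) Ω⟩` -/
theorem exists_Rm (hT : Q.IsStress T) (N : CNet Q H alg S) (Gg : Gnr Q alg S G)
    {φ : Completion D} {B : D → D} (hB : B ∈ alg Set.univ)
    (hq : ∀ σ L v, 0 < σ → GF.IsLor L → pt φ B (Q.U σ L 0 v) = ((σ ^ 2)⁻¹ : ℝ) * pt φ B v) :
    ∃ θ : ℂ, ∀ a, IsNull a → ∃ M : Ix → Ix → 𝓢(Mink, ℂ) →L[ℂ] ℂ, Rm a θ M ∧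
      ∀ m n f, M m n f = pt φ B (G a (T m n (fl f) Q.vac)) := by
  obtain ⟨θ, hθ⟩ := exists_theta hT N Gg hB hq
  refine ⟨θ, fun a ha => ?_⟩
  have hX : (fun v => B (G a v)) ∈ alg Set.univ := N.mul _ _ hB _ (Gg.mem _ ha)
  choose M hM using fun m n => exists_fun N φ (Q.bose_fld _ (hT.bose m n)) hX
  have hval : ∀ m n f, M m n f = pt φ B (G a (T m n (fl f) Q.vac)) := hM
  refine ⟨M, ⟨?_, ?_, ?_, ?_, ?_⟩, hval⟩
  · intro m n f
    rw [hval, hval, hT.symm m n _ _ (isTest_fl f)]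
  · intro n f
    have h1 := hT.conserved n (fl f) Q.vac (isTest_fl f)
    simp only [pd_fl] at h1
    have h2 := pt_G_sum N Gg.mem hB (φ := φ) ha (Finset.univ : Finset Ix) (fun _ => (1 : ℂ))
      (fun m => T m n (fl (∂_{eb m} f : 𝓢(Mink, ℂ))) Q.vac)
    simp only [one_smul, one_mul] at h2
    simp only [hval]
    rw [← h2, h1]
    have h3 : G a 0 = 0 := by
      have := G_smul N Gg.mem ha 0 (0 : D)
      simpa using this
    have h4 := pt_smul' N hB φ 0 (0 : D)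
    rw [zero_smul, zero_mul] at h4
    rw [h3, h4]
  · intro m n f hf
    rw [hval, vac_zero (Q.bose_fld _ (hT.bose m n)) fun p hp => by
      rw [← mftS_apply]
      exact hf p hp]
    have h3 : G a 0 = 0 := by
      have := G_smul N Gg.mem ha 0 (0 : D)
      simpa using this
    have h4 := pt_smul' N hB φ 0 (0 : D)
    rw [zero_smul, zero_mul] at h4
    rw [h3, h4]
  · intro s hs L hL r hr hab m n f
    have h1 := hT.cov m n s L 0 (fl f) Q.vac hs hL (isTest_fl f)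
    rw [Q.U_vac s L 0 hs hL] at h1
    simp only [fl_sim s hs hL] at h1
    rw [hval, h1]
    have e0 : ∀ k, ∑ l, (L k m * L l n : ℂ) • Q.U s L 0 (T k l (fl (simS s hs hL 0 f)) Q.vac) =
        (1 : ℂ) • ∑ l, (L k m * L l n : ℂ) • Q.U s L 0 (T k l (fl (simS s hs hL 0 f)) Q.vac) :=
      fun k => (one_smul _ _).symm
    rw [Finset.sum_congr rfl fun k _ => e0 k, pt_G_sum N Gg.mem hB ha]
    refine Finset.sum_congr rfl fun k _ => ?_
    rw [one_mul, pt_G_sum N Gg.mem hB ha]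
    refine Finset.sum_congr rfl fun l _ => ?_
    rw [ze_U N Gg.der hB hq hs hr hL ha ha hab, hval]
    push_cast
    ring
  · intro f hf
    rw [← hθ a ha f hf]
    unfold GF.tr
    rw [pt_G_sum N Gg.mem hB ha]
    simp only [hval]

end Vale.Agent.P352.H993
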