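import Vale.Agent.P352.H746.V2
import Vale.Agent.P352.H993.TlIn

set_option linter.all false

noncomputable section

open MeasureTheory SchwartzMap Complex Filter Topology
open scoped SchwartzMap ComplexConjugate ENNReal LineDeriv ContDiff FourierTransform

namespace Vale.Agent.P352.H993

open GF (Ix V Fn Sch ev pd bar sim bas o)
open H246 H496 H246R H746
open UniformSpace (Completion)

variable {D : Type*} [NormedAddCommGroup D] [InnerProductSpace ℂ D]
variable {Q : GF.Theory D}
variable {H : D → D} {alg : Set V → Set (D → D)} {S : V → ℝ → D → D} {G : V → D → D}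
variable {T : Ix → Ix → GF.Fld D} {l : Fn → Completion D}

/-- the locality hypothesis for complex test functions -/
lemma rl_of_tl {a : V} {M : Ix → Ix → 𝓢(Mink, ℂ) →L[ℂ] ℂ}
    (hM : ∀ m n f, Val l (G a (T m n (fl f) Q.vac)) (M m n f)) (h : TL Q T G l a) : RL M := by
  intro m n f hf hs
  set f1 : 𝓢(Mink, ℂ) := (1 / 2 : ℂ) • (f + conjS f) with hf1
  set f2 : 𝓢(Mink, ℂ) := (-(I / 2)) • (f - conjS f) with hf2
  have hin : ∀ g : 𝓢(Mink, ℂ), Function.support g ⊆ Function.support f →
      In {y | GF.mdot y y < 0} (fl g) := by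
    intro g hg
    rw [In_fl]
    have h1 : tsupport g ⊆ tsupport f := closure_mono hg
    refine ⟨HasCompactSupport.of_support_subset_isCompact hf (hg.trans subset_closure), ?_⟩
    intro x hx
    have h2 := hs x (h1 hx)
    show GF.mdot x.ofLp x.ofLp < 0
    rw [gf_mdot]
    exact h2
  have h1 := h m n (fl f1) _ (hin f1 (fun x hx h0 => hx (by
    simp [hf1, h0]))) (fun y => by
      simp [hf1, fl_apply]) (hM m n f1)
  have h2 := h m n (fl f2) _ (hin f2 (fun x hx h0 => hx (by
    simp [hf2, h0]))) (fun y => by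
      simp [hf2, fl_apply]) (hM m n f2)
  have e1 : f = f1 + I • f2 := by
    ext x
    simp only [hf1, hf2, SchwartzMap.add_apply, SchwartzMap.smul_apply, SchwartzMap.sub_apply,
      smul_eq_mul]
    linear_combination ((1 / 2 : ℂ)) * (f x - conjS f x) * I_mul_I
  have e2 : conjS f = f1 - I • f2 := by
    ext x
    simp only [hf1, hf2, SchwartzMap.add_apply, SchwartzMap.smul_apply, SchwartzMap.sub_apply,
      smul_eq_mul]
    linear_combination (-(1 / 2 : ℂ)) * (f x - conjS f x) * I_mul_I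
  clear_value f1 f2
  have e3 : M m n f = M m n f1 + I * M m n f2 := by
    conv_lhs => rw [e1]
    rw [map_add, map_smul, smul_eq_mul]
  have e4 : M m n (conjS f) = M m n f1 - I * M m n f2 := by
    rw [e2, map_sub, map_smul, smul_eq_mul]
  rw [e3, e4]
  apply Complex.ext
  · simp [h1, h2]
  · simp [h1, h2]

/-- THE CRITERION: transversal locality -/
theorem tl_iff_of (core : ∀ (a : V) (θ : ℂ) (M : Ix → Ix → 𝓢(Mink, ℂ) →L[ℂ] ℂ), IsNull a →
    Rm a θ M → RL M → θ = 0) (hT : Q.IsStress T) (N : CNet Q H alg S) (Gg : Gnr Q alg S G)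
    (hl : IsPot Q T l) : (∃ a, IsNull a ∧ TL Q T G l a) ↔ Inv S l := by
  obtain ⟨φ, n, hv, hvl, hq⟩ := exists_vl hT N hl
  have hB := pw1_mem N.toNet n
  have ha0 : IsNull (nu (-1)) := isNull_nu (Or.inr rfl)
  constructor
  · rintro ⟨a, ha, h⟩
    obtain ⟨θ, hθ⟩ := exists_Rm hT N Gg hB hq
    obtain ⟨M, hM, hval⟩ := hθ a ha
    have h0 : θ = 0 := core a θ M ha hM (rl_of_tl (fun m n f => (hv _ _).2 (hval m n f)) h)
    obtain ⟨M', hM', hval'⟩ := hθ _ ha0
    refine inv_of_kappaPC hT N Gg hl fun f hf => ?_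
    have h1 := hM'.tra f hf
    rw [h0, zero_mul] at h1
    rw [hvl]
    unfold GF.tr
    rw [pt_G_sum N Gg.mem hB ha0, ← h1]
    simp only [hval']
  · intro h
    refine ⟨nu (-1), ha0, fun m n f c _ _ hc => ?_⟩
    rw [inv_G hT N Gg hl h ha0 _ _ hc, zero_re]

end Vale.Agent.P352.H993
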