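import Vale.Agent.P352.H246.Part
import Vale.Agent.P352.H993.TlEnd

set_option linter.all false

noncomputable section

open MeasureTheory SchwartzMap Complex Filter Topology
open scoped SchwartzMap ComplexConjugate ENNReal LineDeriv ContDiff FourierTransform

namespace Vale.Agent.P352.H993

open GF (Ix V Fn Sch ev pd bar sim bas o)
open H246 H496 H246R H746
open UniformSpace (Completion)

variable {D : Type*} [NormedAddCommGroup D] [InnerProductSpace ℂ D]
variable {Q : GF.Theory D}
variable {H : D → D} {alg : Set V → Set (D → D)} {S : V → ℝ → D → D} {G : V → D → D}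
variable {T : Ix → Ix → GF.Fld D} {l : Fn → Completion D}

/-- the wedge relation for vectors -/
theorem wedge_vec {A : GF.Fld D} {μ : Measure Mink} (Sy : SymMeasure μ 4) (hA : PField Q T A 4)
    (two : Two Q A μ) {L : Ix → V} (hL : GF.IsLor L) (a : V) {x' x : D}
    (h : ∀ g, IsTest (MW (Wed L a 1)) g →
      inner ℂ x' (A (fl g) Q.vac) = inner ℂ (A (fl (conjS g)) Q.vac) x) {f : 𝓢(Mink, ℂ)}
    (hf : IsTest (MW (Wed L a 1)) f) :
    inner ℂ (x' : Completion D) (lamV Sy hA f) =
      inner ℂ (lamV Sy hA (conjS f)) (x : Completion D) := by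
  set Jd := ContinuousLinearMap.adjoint (J Sy hA) with hJd
  set X := Jd (x' : Completion D) with hx
  set Y := Jd (x : Completion D) with hy
  have ex : ∀ φ, inner ℂ (x' : Completion D) (J Sy hA φ) =
      inner ℂ X φ := fun φ => (ContinuousLinearMap.adjoint_inner_left _ _ _).symm
  have ey : ∀ φ, inner ℂ (J Sy hA φ) (x : Completion D) =
      inner ℂ φ Y := fun φ => (ContinuousLinearMap.adjoint_inner_right _ _ _).symm
  have hxm : MemLp (fun p => conj (X p)) 2 μ := (Lp.memLp X).star
  have e1 : ∀ f, inner ℂ X (toL Sy.good.temp f) = ∫ p, mft f p * conj (X p) ∂μ := by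
    intro f
    rw [L2.inner_def]
    apply integral_congr_ae
    filter_upwards [coeFn_toL Sy.good.temp f] with p hp
    rw [hp]
    simp
  have e2 : ∀ f, inner ℂ X (toI Sy f) = ∫ p, mft f p * ((H246.im p : ℂ) * conj (X p)) ∂μ := by
    intro f
    rw [L2.inner_def]
    apply integral_congr_ae
    filter_upwards [coeFn_toI Sy f] with p hp
    rw [hp]
    simp only [RCLike.inner_apply]
    ring
  have key := wed_im Sy hL a hxm (Lp.memLp Y) (fun g hg => by
    rw [← e1, ← inner_toL Sy.good.temp, ← ex, ← ey, J_toL Sy hA two, J_toL Sy hA two,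
      hA.kap_apply, hA.kap_apply, Completion.inner_coe, Completion.inner_coe, h g hg]) f hf
  rw [← e2, ← inner_toI Sy] at key
  rw [lamV_apply, lamV_apply, inner_smul_right, inner_smul_left, ex, ey, key]
  simp only [map_neg, map_div₀, map_one, map_ofNat]

/-- the generator annihilates the vacuum -/
lemma G_vac (N : CNet Q H alg S) (Gg : Gnr Q alg S G) {a : V} (ha : IsNull a) :
    G a Q.vac = 0 := by
  have h1 := Gg.der a Q.vac ha
  have e : (fun s : ℝ => S a s Q.vac) = fun _ => Q.vac := by
    funext s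
    exact N.S_vac a s ha
  rw [e] at h1
  have h2 := h1.unique (hasDerivAt_const (0 : ℝ) Q.vac)
  have h3 := congrArg (fun w => (-I) • w) h2
  simp only [smul_smul, smul_zero] at h3
  have h7 : -I * I = 1 := by rw [neg_mul, I_mul_I, neg_neg]
  rwa [h7, one_smul] at h3

/-- the vacuum expectation value of the double commutator -/
lemma loc2_vec (hT : Q.IsStress T) (N : CNet Q H alg S) (Gg : Gnr Q alg S G) {a : V}
    (ha : IsNull a) (h : Loc2 Q T G a) (m n : Ix) {f g : 𝓢(Mink, ℂ)} (hf : HasCompactSupport f)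
    (hg : HasCompactSupport g) (hs : SpSep f g) :
    inner ℂ (-(G a (T m n (fl (conjS f)) Q.vac))) (GF.tr T (fl g) Q.vac) =
      inner ℂ (GF.tr T (fl (conjS g)) Q.vac) (G a (T m n (fl f) Q.vac)) := by
  have h1 := h m n (fl f) (fl g) (In_fl.2 ⟨hf, fun _ _ => trivial⟩)
    (In_fl.2 ⟨hg, fun _ _ => trivial⟩) (sep_fl hs)
  have hG0 := G_vac N Gg ha
  have hGa := G_adj N Gg ha
  have hTh : ∀ v w, inner ℂ (T m n (fl (conjS f)) v) w = inner ℂ v (T m n (fl f) w) := by
    intro v w
    have := hT.herm m n (fl (conjS f)) v w (isTest_fl _)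
    rw [bar_fl, conjS_conjS] at this
    exact this
  have hAh : ∀ v w, inner ℂ (GF.tr T (fl (conjS g)) v) w = inner ℂ v (GF.tr T (fl g) w) := by
    intro v w
    have := (PField.tr hT).herm (conjS g) v w
    rw [conjS_conjS] at this
    exact this
  have hT0 : T m n (fl f) 0 = 0 := by
    have h2 : ∀ v, inner ℂ v (T m n (fl f) 0) = 0 := by
      intro v
      rw [← hTh, inner_zero_right]
    exact inner_self_eq_zero.1 (h2 _)
  have k1 : inner ℂ Q.vac (T m n (fl f) (G a (GF.tr T (fl g) Q.vac))) =
      inner ℂ (G a (T m n (fl (conjS f)) Q.vac)) (GF.tr T (fl g) Q.vac) :=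
    (hTh _ _).symm.trans (hGa _ _).symm
  have k2 : inner ℂ Q.vac (GF.tr T (fl g) (G a (T m n (fl f) Q.vac))) =
      inner ℂ (GF.tr T (fl (conjS g)) Q.vac) (G a (T m n (fl f) Q.vac)) := (hAh _ _).symm
  have k3 : inner ℂ Q.vac (G a (T m n (fl f) (GF.tr T (fl g) Q.vac))) = 0 := by
    rw [← hGa, hG0, inner_zero_left]
  rw [hG0, hT0, sub_zero, inner_sub_right, inner_sub_right, k1, k2, k3] at h1
  rw [inner_neg_left]
  linear_combination h1

/-- THE DOUBLE COMMUTATOR CRITERION: transversal locality -/
theorem tl_of_loc2 (hT : Q.IsStress T) (N : CNet Q H alg S) (Gg : Gnr Q alg S G)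
    (hl : IsPot Q T l) {a : V} (ha : IsNull a) (h : Loc2 Q T G a) : TL Q T G l a := by
  obtain ⟨μ, Sy, two⟩ := (PField.tr hT).exists_sym
  obtain ⟨φ, n0, hrep, hval⟩ := exists_point_val hT Sy two N.toNet
  have hp := isPot_lamF Sy (PField.tr hT) two
  have hll : ∀ f, GF.IsTest f → l f = lamF Sy (PField.tr hT) f := fun f hf => hp.unique hl f hf
  have hv := fun v c => val_iff hT Sy N.toNet hrep hll v c
  have hB := pw1_mem N.toNet n0
  have hcont : ∀ v : D, Continuous fun x : Mink =>
      inner ℂ φ ((pw1 H n0 (U1 Q (-x) v) : D) : Completion D) := fun v =>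
    (cont_op N.toNet φ hB v).comp (by fun_prop : Continuous fun x : Mink => (-x).ofLp)
  have hX : (fun v => pw1 H n0 (G a v)) ∈ alg Set.univ := N.mul _ _ hB _ (Gg.mem _ ha)
  intro m n F c hF hre hc
  choose M hM using fun m n => exists_fun N φ (Q.bose_fld _ (hT.bose m n)) hX
  have hval' : ∀ f, M m n f = pt φ (pw1 H n0) (G a (T m n (fl f) Q.vac)) := fun f => hM m n f
  obtain ⟨f, rfl⟩ := exists_fl hF.1
  have hft := In_fl.1 hF
  have main : ∃ U, IsOpen U ∧ tsupport f ⊆ U ∧ ∀ g, IsTest U g →
      M m n g + conj (M m n (conjS g)) = 0 := by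
    refine part_induct (P := fun g => M m n g + conj (M m n (conjS g)) = 0) ?_ ?_ hft.1 ?_
    · rw [conjS_zero, map_zero, map_zero, add_zero]
    · intro g g' _ _ h1 h2
      rw [conjS_add, map_add, map_add, map_add]
      linear_combination h1 + h2
    · intro y hy
      have hy' : mdot ((0 : Mink) - y) (0 - y) < 0 := by
        have h2 : GF.mdot y.ofLp y.ofLp < 0 := hft.2 hy
        rw [gf_mdot] at h2
        have e : mdot ((0 : Mink) - y) (0 - y) = mdot y y := by
          unfold mdot
          simp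
        rw [e]
        exact h2
      obtain ⟨θ, ψ, b, h0, h1⟩ := exists_sep hy'
      refine ⟨MW (Wed (Rt θ ψ) b (-1)), isOpen_Wed_Rt θ ψ b (-1), h1, fun g hg => ?_⟩
      have hL := isLor_Rt θ ψ
      set x : D := G a (T m n (fl g) Q.vac) with hx
      set x' : D := -(G a (T m n (fl (conjS g)) Q.vac)) with hx'
      have hw := fun (k : 𝓢(Mink, ℂ)) (hk : IsTest (MW (Wed (Rt θ ψ) b 1)) k) =>
        wedge_vec Sy (PField.tr hT) two hL b (x' := x') (x := x) (fun k hk =>
          loc2_vec hT N Gg ha h m n hg.1 hk.1 (spSep_symm (wed_sep hL b hk hg))) hk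
      set Gx : Mink → ℂ := fun z => inner ℂ φ ((pw1 H n0 (U1 Q (-z) x) : D) : Completion D)
        with hGx
      set Gx' : Mink → ℂ := fun z => inner ℂ φ ((pw1 H n0 (U1 Q (-z) x') : D) : Completion D)
        with hGx'
      have hz := fund (isOpen_Wed_Rt θ ψ b 1)
        ((hcont x).sub (Complex.continuous_conj.comp (hcont x'))) (fun k hk => by
          have h3 := hw k hk
          rw [← inner_conj_symm, hrep, hrep, ← integral_conj] at h3
          have i1 : Integrable fun z => k z * Gx z :=
            Continuous.integrable_of_hasCompactSupport (k.continuous.mul (hcont _))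
              hk.1.mul_right
          have i2 : Integrable fun z => k z * conj (Gx' z) :=
            Continuous.integrable_of_hasCompactSupport
              (k.continuous.mul (Complex.continuous_conj.comp (hcont _))) hk.1.mul_right
          have h4 : ∫ z, k z * (Gx z - conj (Gx' z)) =
              (∫ z, k z * Gx z) - ∫ z, k z * conj (Gx' z) := by
            rw [← integral_sub i1 i2]
            congr 1
            ext z
            ring
          show ∫ z, k z * (Gx z - conj (Gx' z)) = 0
          rw [h4, sub_eq_zero]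
          have h5 : ∫ z, k z * Gx z = ∫ z, conj (conjS k z) * Gx z := by
            congr 1
            ext z
            simp
          have h6 : ∫ z, k z * conj (Gx' z) = ∫ z, conj (conj (k z) * Gx' z) := by
            congr 1
            ext z
            simp
          rw [h5, h6]
          exact h3.symm) (0 : Mink) h0
      have h7 : Gx 0 - conj (Gx' 0) = 0 := hz
      simp only [hGx, hGx', neg_zero, U1_zero_all] at h7
      rw [hval', hval']
      have h8 : pt φ (pw1 H n0) x' = -pt φ (pw1 H n0) (G a (T m n (fl (conjS g)) Q.vac)) := by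
        rw [hx']
        have := pt_smul' N hB φ (-1) (G a (T m n (fl (conjS g)) Q.vac))
        rw [neg_one_smul, neg_one_mul] at this
        exact this
      have h9 : pt φ (pw1 H n0) x - conj (pt φ (pw1 H n0) x') = 0 := h7
      rw [h8, map_neg] at h9
      rw [hx] at h9
      linear_combination h9
  obtain ⟨U, -, hU, hP⟩ := main
  have h1 := hP f ⟨hft.1, hU⟩
  have h2 : conjS f = f := by
    ext x
    rw [conjS_apply]
    have h3 : (f x).im = 0 := hre x.ofLp
    exact Complex.conj_eq_iff_im.2 h3
  rw [h2, hval', ← (hv _ _).1 hc] at h1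
  have h3 := congrArg Complex.re h1
  simp only [add_re, conj_re, zero_re] at h3
  linarith

/-- ONE DOUBLE COMMUTATOR IMPLIES INVARIANCE -/
theorem inv_of_loc2_of (core : ∀ (a : V) (θ : ℂ) (M : Ix → Ix → 𝓢(Mink, ℂ) →L[ℂ] ℂ), IsNull a →
    Rm a θ M → RL M → θ = 0) (hT : Q.IsStress T) (N : CNet Q H alg S) (Gg : Gnr Q alg S G)
    (hl : IsPot Q T l) (h : ∃ a, IsNull a ∧ Loc2 Q T G a) : Inv S l := by
  obtain ⟨a, ha, h⟩ := h
  exact (tl_iff_of core hT N Gg hl).1 ⟨a, ha, tl_of_loc2 hT N Gg hl ha h⟩

end Vale.Agent.P352.H993
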