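import Vale.Agent.P352.H121.TlH
import Vale.Agent.P352.H755.R7b
import Vale.Agent.P352.H246.TlHom
import Vale.Agent.P352.H148.TlC
import Vale.Agent.P352.H993.TlCons
import Vale.Agent.P352.H993.TlLoc

set_option linter.all false

noncomputable section

open MeasureTheory SchwartzMap Complex Filter Topology
open scoped SchwartzMap ComplexConjugate ENNReal LineDeriv ContDiff FourierTransform

namespace Vale.Agent.P352.H993

open GF (Ix V Fn Sch ev pd bar sim bas o)
open H246 H496 H246R H746 H148
open UniformSpace (Completion)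

variable {a : V} {θ : ℂ} {M : Ix → Ix → 𝓢(Mink, ℂ) →L[ℂ] ℂ}

lemma mft_conjS' (f : 𝓢(Mink, ℂ)) (p : Mink) : mft (conjS f) p = conj (mft f (-p)) := by
  unfold mft
  rw [← integral_conj]
  congr 1
  ext x
  rw [map_mul, ← Complex.exp_conj, map_mul, conj_I, conj_ofReal, conjS_apply]
  congr 2
  have : mdot (-p) x = -mdot p x := by
    unfold mdot
    simp
    ring
  rw [this]
  push_cast
  ring

theorem se_of (h : Rm a θ M) (hl : RL M) : H121.SE a θ (SM M) where
  toSD := sd_of h hl
  lim m n f κ hf hκ h1 := SM_lim m n hf hκ h1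
  spec m n F hF := by
    have h1 : M m n F = 0 := h.spec m n F fun p hp => by
      rw [mftS_apply]
      by_contra h0
      have h2 := hF p h0
      have h3 : 0 ≤ mdot p p := hp.2
      linarith
    have h2 : M m n (conjS F) = 0 := h.spec m n _ fun p hp => by
      rw [mftS_apply, mft_conjS']
      by_contra h0
      have h2 := hF (-p) (fun h3 => h0 (by rw [h3, map_zero]))
      have h3 : 0 ≤ mdot p p := hp.2
      have h4 : mdot (-p) (-p) = mdot p p := by
        unfold mdot
        simp
      linarith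
    rw [SM_fl, h1, h2, map_zero, add_zero]
  tra F hF := by
    have h1 : ∀ m, M m m (conjS F) = 0 := fun m => h.spec m m _ fun p hp => by
      rw [mftS_apply, mft_conjS', ← mftS_apply]
      by_contra h0
      have h2 : mftS F (-p) ≠ 0 := fun h3 => h0 (by rw [h3, map_zero])
      have h3 : -p ∈ Vp := hF.2 (subset_tsupport _ h2)
      have h4 := (Vp_iff _).1 h3
      have h5 : 0 ≤ p 0 := hp.1
      have h6 : 0 < (-p : Mink) 0 := h4.1
      simp at h6
      linarith
    rw [← h.tra F hF]
    refine Finset.sum_congr rfl fun m _ => ?_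
    rw [SM_fl, h1, map_zero, add_zero]

/-- THE CORE -/
theorem Rm_zero (ha : IsNull a) (h : Rm a θ M) (hl : RL M) : θ = 0 := by
  obtain ⟨b, hb, hab⟩ := H755.exists_dual ha
  have hS := se_of h hl
  have hc := cn_cone ha hb hab
  exact H121.core_of hS hc ha hb hab
    (fun α β α' β' h1 h2 => cons_id hS.toSD hc h1 h2)
    (fun f g β h1 => H246.TL.hom_a ha hb hab hS.toSD hc h1)
    (fun f g α h1 => H246.TL.hom_b ha hb hab hS.toSD hc h1)

variable {D : Type*} [NormedAddCommGroup D] [InnerProductSpace ℂ D]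
variable {Q : GF.Theory D}
variable {H : D → D} {alg : Set V → Set (D → D)} {S : V → ℝ → D → D} {G : V → D → D}
variable {T : Ix → Ix → GF.Fld D} {l : Fn → Completion D}

/-- TRANSVERSAL LOCALITY OF ONE NULL DEFORMATION IS EQUIVALENT TO INVARIANCE -/
theorem tl_iff (hT : Q.IsStress T) (N : CNet Q H alg S) (Gg : Gnr Q alg S G)
    (hl : IsPot Q T l) : (∃ a, IsNull a ∧ TL Q T G l a) ↔ Inv S l :=
  tl_iff_of (fun _ _ _ ha h hl => Rm_zero ha h hl) hT N Gg hl

/-- ONE DOUBLE COMMUTATOR IMPLIES INVARIANCE -/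
theorem inv_of_loc2 (hT : Q.IsStress T) (N : CNet Q H alg S) (Gg : Gnr Q alg S G)
    (hl : IsPot Q T l) (h : ∃ a, IsNull a ∧ Loc2 Q T G a) : Inv S l :=
  inv_of_loc2_of (fun _ _ _ ha h hl => Rm_zero ha h hl) hT N Gg hl h

end Vale.Agent.P352.H993
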