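import Vale.Agent.P352.H993.LfN
import Vale.Agent.P352.H993.Lin
import Vale.Agent.P352.H846.AddK
import Vale.Agent.P352.H746.NoGen
import Vale.Agent.P352.H731.Key

/-!
# The on-shell dilaton constraint implies that the second moments are additive
-/

set_option linter.all false

noncomputable section

open MeasureTheory Filter Topology Set
open scoped ContDiff ComplexConjugate

namespace Vale.Agent.P352.H846

open GF (Ix V Fn Fld Theory bas eta o improve bar tr)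
open H755 H496 H15 H246
open H746 (Lf)
open H121 (TrNull Cop)
open GMain (JLim)
open G (NGen)

variable {D : Type*} [NormedAddCommGroup D] [InnerProductSpace ℂ D]
variable {Q Q' : GF.Theory D} {T : Ix → Ix → GF.Fld D} {J : Ix → GF.Fld D}
  {A : (V → V) → D → D} {K : V → D → D} {L B : GF.Fld D}

/-- plane limit for the similitudes -/
theorem pl_simN (hT : Q.IsStress T) (hJ : IsVirial Q T J) (h : NullCharges Q T J A K)
    (htr : TrNull T) {a b : V} {κ : V → ℝ}
    {ψ : ℝ → ℝ} (had : Adm a b κ ψ) {r : ℝ} {X : V → V} (hX : IsSim r X) (v w : D) :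
    Tendsto (fun R => inner ℂ w (sm T (fun m n x => eta m * a m * (eta n * X x n) *
      ctf a b κ 0 ψ R x) v)) atTop (𝓝 ((∫ u, (ψ u : ℂ)) * (inner ℂ w (A X v) +
        (r : ℂ) * inner ℂ w (Cop Q A K a b v)))) := by
  have t1 := h.gen a b κ 0 ψ r X v w had hX
  have t2 := (H121.lim0 hT hJ h htr had v w).const_mul (r : ℂ)
  have t3 := t1.add t2
  have e0 : (∫ u, (ψ u : ℂ)) * inner ℂ w (A X v) + (r : ℂ) * ((∫ u, (ψ u : ℂ)) *
      inner ℂ w (Cop Q A K a b v)) = (∫ u, (ψ u : ℂ)) * (inner ℂ w (A X v) +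
        (r : ℂ) * inner ℂ w (Cop Q A K a b v)) := by ring
  rw [e0] at t3
  refine t3.congr fun R => ?_
  rw [inner_sub_right]
  unfold H121.Ja
  have e : inner ℂ w (∑ m, (r : ℂ) • J m (fun x => ((eta m * a m * ctf a b κ 0 ψ R x : ℝ) : ℂ)) v) =
      (r : ℂ) * inner ℂ w (∑ m, J m (fun x => ((eta m * a m * ctf a b κ 0 ψ R x : ℝ) : ℂ)) v) := by
    rw [← Finset.smul_sum, inner_smul_right]
  rw [e]
  ring

/-- plane limit for the conformal current -/
theorem pl_cKN (hT : Q.IsStress T) (hJ : IsVirial Q T J) (h : NullCharges Q T J A K)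
    (htr : TrNull T) {a b : V}
    {κ : V → ℝ} {ψ : ℝ → ℝ} (had : Adm a b κ ψ) (v w : D) :
    Tendsto (fun R => inner ℂ w (sm T (fun m n x => eta m * a m * (eta n * cK a x n) *
      ctf a b κ 0 ψ R x) v)) atTop (𝓝 ((∫ u, (ψ u : ℂ)) * inner ℂ w (K a v))) := by
  obtain ⟨ha, hb, hab, hκ, hκ1, hψ⟩ := had
  have hp1 : ContDiff ℝ ∞ fun u : ℝ => 2 * u := by fun_prop
  have hp2 : ContDiff ℝ ∞ fun u : ℝ => 2 * u ^ 2 := by fun_prop
  have t2 := pl_simN hT hJ h htr (ψ := fun u => 2 * u * ψ u)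
    ⟨ha, hb, hab, hκ, hκ1, tst_pol hψ hp1⟩ (isSim_Xw a b) v w
  have t3 := pl_simN hT hJ h htr (ψ := fun u => 2 * u ^ 2 * ψ u)
    ⟨ha, hb, hab, hκ, hκ1, tst_pol hψ hp2⟩ (isSim_const b) v w
  have t4 := h.mom a b κ 0 ψ v w ⟨ha, hb, hab, hκ, hκ1, hψ⟩
  have t5 := (t2.sub t3).add t4
  set α : ℂ := inner ℂ w (A (Xw a b) v) with hα
  set β : ℂ := inner ℂ w (A (fun _ => b) v) with hβ
  set γ : ℂ := inner ℂ w (K a v) with hγ
  set δ : ℂ := inner ℂ w (Cop Q A K a b v) with hδ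
  have hci : ∀ {g : ℝ → ℝ}, Tst g → ∀ z : ℂ, Integrable fun u : ℝ => (g u : ℂ) * z := by
    intro g hg z
    have h2 : HasCompactSupport fun u : ℝ => ((g u : ℝ) : ℂ) :=
      hg.2.comp_left (g := fun r : ℝ => (r : ℂ)) (by simp)
    exact ((Complex.continuous_ofReal.comp hg.1.continuous).mul
      continuous_const).integrable_of_hasCompactSupport h2.mul_right
  have i1 := hci hψ γ
  have i2 := hci (tst_pol hψ hp1) (α + δ)
  have i3 := hci (tst_pol hψ hp2) β
  have e0 : ∀ u : ℝ, (ψ u : ℂ) * inner ℂ w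
      (Q.U 1 GF.one (u • b) (K a (Q.U 1 GF.one (-(u • b)) v))) =
      (ψ u : ℂ) * γ - ((2 * u * ψ u : ℝ) : ℂ) * (α + δ) + ((2 * u ^ 2 * ψ u : ℝ) : ℂ) * β := by
    intro u
    rw [H121.K_shift hT hJ h htr ha hb hab, A_XXb h.toRep hb hab u v, md_smul, hab, mul_one,
      inner_sub_right, inner_add_right, inner_add_right, inner_smul_right, inner_smul_right,
      inner_smul_right]
    have hXw : H755.Xw a b = Xw a b := rfl
    rw [hXw, ← hα, ← hβ, ← hγ, ← hδ]
    push_cast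
    ring
  have e1 : ∫ u : ℝ, (ψ u : ℂ) * inner ℂ w
      (Q.U 1 GF.one (u • b) (K a (Q.U 1 GF.one (-(u • b)) v))) =
      (∫ u : ℝ, (ψ u : ℂ)) * γ - (∫ u : ℝ, ((2 * u * ψ u : ℝ) : ℂ)) * (α + δ) +
        (∫ u : ℝ, ((2 * u ^ 2 * ψ u : ℝ) : ℂ)) * β := by
    simp only [e0]
    have k1 := integral_add (i1.sub i2) i3
    have k2 := integral_sub i1 i2
    simp only [Pi.sub_apply] at k1
    rw [k1, k2, integral_mul_const, integral_mul_const, integral_mul_const]
  rw [e1] at t5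
  have e2 : (∫ u : ℝ, ((2 * u * ψ u : ℝ) : ℂ)) * (α + ((1 : ℝ) : ℂ) * δ) -
      (∫ u : ℝ, ((2 * u ^ 2 * ψ u : ℝ) : ℂ)) * (β + ((0 : ℝ) : ℂ) * δ) +
      ((∫ u : ℝ, (ψ u : ℂ)) * γ - (∫ u : ℝ, ((2 * u * ψ u : ℝ) : ℂ)) * (α + δ) +
        (∫ u : ℝ, ((2 * u ^ 2 * ψ u : ℝ) : ℂ)) * β) = (∫ u : ℝ, (ψ u : ℂ)) * γ := by
    push_cast
    ring
  rw [e2] at t5
  refine t5.congr' ?_
  filter_upwards [eventually_ge_atTop (1:ℝ)] with R hR
  rw [H246D.sm_cK hT ha.1 hb.1 hab hκ hψ hR v, inner_add_right, inner_sub_right]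

/-- **The conformal charges** -/
theorem chg_cKN (hT : Q.IsStress T) (hJ : IsVirial Q T J) (h : NullCharges Q T J A K)
    (htr : TrNull T) (hn : NoFlux T J) (hL : Q'.bose L)
    (hLf : ∀ a b f v, NPr a b → GF.IsTest f → L f v = Lf J K a b f v)
    (ht : IsT Q' (improve T L)) :
      ∀ a, IsNull a → Chg Q' (improve T L) (cK a) (K a) := by
  intro a ha
  obtain ⟨b, hb, hab⟩ := exists_dual ha
  refine chg_ofN hT hJ h htr hn hL hLf ht ha hb hab (X := cK a) (c0 := 0) (k := a) (r := 0)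
    (s := 1) (r' := 0) (w0 := 0) ?_ ?_ ?_ (Or.inr rfl) ?_
  · intro m n
    simp
  · intro x n
    unfold cK
    simp only [Pi.sub_apply, Pi.smul_apply, smul_eq_mul, Pi.zero_apply]
    simp
  · simp
  · intro κ ψ hadm v w
    exact pl_cKN hT hJ h htr hadm v w

/-- **The on-shell dilaton constraint implies that the second moments are additive.** -/
theorem addK_of_tr (hT : Q.IsStress T) (hJ : IsVirial Q T J) (h : NullCharges Q T J A K)
    (htr : TrNull T) (hF : NoFlux T J) : H993.AddK K := by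
  obtain ⟨C, h1, h2, -⟩ := H121.charge hT hJ h htr
  have hN : NGen Q J A K C := by
    refine GMain.ngen hT hJ h h1 h2 (fun a m n f v ha hf => ?_) (fun a m f v ha hf => ?_)
    · obtain ⟨b, hb, hab⟩ := H755.exists_dual ha
      rw [H746.C_eq hT hJ h htr h1 ha hb hab, H746.C_eq hT hJ h htr h1 ha hb hab]
      exact cop_ten hT hJ h htr ha hb hab (H731.key hT hJ h htr ha hb hab) (H746.isTen_T hT)
        ![m, n] hf v
    · obtain ⟨b, hb, hab⟩ := H755.exists_dual ha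
      rw [H746.C_eq hT hJ h htr h1 ha hb hab, H746.C_eq hT hJ h htr h1 ha hb hab]
      exact cop_ten hT hJ h htr ha hb hab (H731.key hT hJ h htr ha hb hab) (H746.isTen_J hJ)
        ![m] hf v
  have hm : Mom Q T K ∨ Act Q J K := Or.inl h.mom
  obtain ⟨Q₁, k1, k2, k3⟩ := G.H731.main_L hT hJ hN hm
  obtain ⟨Q₂, g1, g2, g3, g4, g5, g6⟩ := exists_stress hT k1 k2 k3
    fun Q'' hQ => H746.isStress_enl hQ hT
  have hC := chg_cKN hT hJ h htr hF g3.1
    (fun a b f v hp hf => G.H731.lf_agree hT hJ hN hm H15.npr0 hp hf v) g6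
  exact addK_of_nc hT h g1.fld (fun m n => Q₂.bose_fld _ (g4.bose m n)) hC

end Vale.Agent.P352.H846

end
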