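import Vale.Agent.P352.H246.Rc7

set_option linter.all false

noncomputable section

open MeasureTheory SchwartzMap Complex Filter Topology
open scoped SchwartzMap ComplexConjugate ENNReal LineDeriv ContDiff FourierTransform

/-!
# P352 (helper993): covariant functionals on the open forward cone have smooth densities
-/

namespace Vale.Agent.P352.H993

open GF (Ix V Fn Sch ev pd bar sim bas o)
open H246
open H496
open H246R

lemma isOpen_Pos : IsOpen Pos := isOpen_lt continuous_const (contDiff_coord 3).continuous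

lemma eventually_zero {G : Mink → ℂ} {y : Mink} (h : y ∉ tsupport G) : G =ᶠ[𝓝 y] fun _ => 0 := by
  filter_upwards [(isClosed_tsupport G).isOpen_compl.mem_nhds h] with z hz
  exact image_eq_zero_of_notMem_tsupport hz

/-- multiplication by functions that are smooth on the region -/
lemma mulOn {O : Set Mink} (hO : IsOpen O) {G : Mink → ℂ} (h : TF O G) {f : Mink → ℂ}
    (hf : ContDiffOn ℝ ∞ f O) : TF O (fun y => f y * G y) := by
  refine ⟨⟨contDiff_iff_contDiffAt.2 fun y => ?_, h.1.2.mul_left⟩,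
    (tsupport_mul_subset_right (f := f) (g := G)).trans h.2⟩
  by_cases hy : y ∈ tsupport G
  · exact (hf.contDiffAt (hO.mem_nhds (h.2 hy))).mul h.1.1.contDiffAt
  · have : (fun y => f y * G y) =ᶠ[𝓝 y] fun _ => 0 := by
      filter_upwards [eventually_zero hy] with z hz
      rw [hz, mul_zero]
    exact contDiffAt_const.congr_of_eventuallyEq this

lemma dd_zero {G : Mink → ℂ} {y : Mink} (h : y ∉ tsupport G) (i : Fin 4) : dd i G y = 0 := by
  unfold dd
  rw [(eventually_zero h).fderiv_eq, fderiv_fun_const]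
  rfl

lemma dd_mulOn {O : Set Mink} (hO : IsOpen O) {G : Mink → ℂ} (h : TF O G) {f : Mink → ℂ}
    (hf : ContDiffOn ℝ ∞ f O) (i : Fin 4) (y : Mink) :
    dd i (fun y => f y * G y) y = f y * dd i G y + dd i f y * G y := by
  by_cases hy : y ∈ tsupport G
  · have h1 : HasFDerivAt f (fderiv ℝ f y) y :=
      ((hf.contDiffAt (hO.mem_nhds (h.2 hy))).differentiableAt (by simp)).hasFDerivAt
    have h2 : HasFDerivAt G (fderiv ℝ G y) y := (h.1.1.differentiable (by simp) y).hasFDerivAt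
    have h3 : HasFDerivAt (fun y : Mink => f y * G y) _ y := h1.mul h2
    unfold dd
    rw [h3.fderiv]
    simp
    ring
  · have h1 : y ∉ tsupport (fun y => f y * G y) := fun h2 => hy (tsupport_mul_subset_right h2)
    rw [dd_zero h1, dd_zero hy, image_eq_zero_of_notMem_tsupport hy]
    ring

/-- weights -/
def wt (μ ν : ℝ) (y : Mink) : ℂ := ((Real.exp (μ * y 0 + ν * Real.log (y 3)) : ℝ) : ℂ)

lemma contDiffOn_wt (μ ν : ℝ) : ContDiffOn ℝ ∞ (wt μ ν) Pos := by
  intro y hy
  have h3 : y 3 ≠ 0 := (show 0 < y 3 from hy).ne'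
  have h1 : ContDiffAt ℝ ∞ (fun y : Mink => μ * y 0 + ν * Real.log (y 3)) y :=
    (contDiffAt_const.mul (contDiff_coord 0).contDiffAt).add
      (contDiffAt_const.mul ((contDiff_coord 3).contDiffAt.log h3))
  exact (ofRealCLM.contDiff.contDiffAt.comp y (Real.contDiff_exp.contDiffAt.comp y h1)).contDiffWithinAt

lemma wt_mul (μ ν μ' ν' : ℝ) (y : Mink) : wt μ ν y * wt μ' ν' y = wt (μ + μ') (ν + ν') y := by
  unfold wt
  rw [← ofReal_mul, ← Real.exp_add]
  congr 2
  ring

lemma wt_zero (y : Mink) : wt 0 0 y = 1 := by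
  unfold wt
  simp

lemma wt_one {y : Mink} (hy : y ∈ Pos) (μ ν : ℝ) : wt μ (ν + 1) y = (y 3 : ℂ) * wt μ ν y := by
  unfold wt
  have h : μ * y 0 + (ν + 1) * Real.log (y 3) = Real.log (y 3) + (μ * y 0 + ν * Real.log (y 3)) := by
    ring
  rw [h, Real.exp_add, Real.exp_log (show 0 < y 3 from hy), ofReal_mul]

lemma dd_wt {y : Mink} (hy : y ∈ Pos) (μ ν : ℝ) (i : Fin 4) :
    dd i (wt μ ν) y = ((if i = 0 then (μ : ℂ) else 0) + if i = 3 then (ν / y 3 : ℂ) else 0) *
      wt μ ν y := by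
  have h3 : y 3 ≠ 0 := (show 0 < y 3 from hy).ne'
  have h0 : HasFDerivAt (fun y : Mink => y 0) (EuclideanSpace.proj 0 : Mink →L[ℝ] ℝ) y :=
    (EuclideanSpace.proj 0 : Mink →L[ℝ] ℝ).hasFDerivAt
  have h03 : HasFDerivAt (fun y : Mink => y 3) (EuclideanSpace.proj 3 : Mink →L[ℝ] ℝ) y :=
    (EuclideanSpace.proj 3 : Mink →L[ℝ] ℝ).hasFDerivAt
  have h1 : HasFDerivAt (fun y : Mink => Real.exp (μ * y 0 + ν * Real.log (y 3)))
      (Real.exp (μ * y 0 + ν * Real.log (y 3)) • ((μ • (EuclideanSpace.proj 0 : Mink →L[ℝ] ℝ)) +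
        ν • ((y 3)⁻¹ • (EuclideanSpace.proj 3 : Mink →L[ℝ] ℝ)))) y :=
    ((h0.const_mul μ).add ((h03.log h3).const_mul ν)).exp
  have h2 : HasFDerivAt (wt μ ν) (ofRealCLM.comp (Real.exp (μ * y 0 + ν * Real.log (y 3)) •
      ((μ • (EuclideanSpace.proj 0 : Mink →L[ℝ] ℝ)) +
        ν • ((y 3)⁻¹ • (EuclideanSpace.proj 3 : Mink →L[ℝ] ℝ))))) y :=
    ofRealCLM.hasFDerivAt.comp y h1
  unfold dd
  rw [h2.fderiv]
  unfold wt
  fin_cases i <;> simp [eb] <;> ring

variable {T : 𝓢(Mink, ℂ) →L[ℂ] ℂ}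

/-- covariant functionals are constant multiples of explicit ones -/
theorem cvr_const {β δ : ℝ} (C : Cvr T Pos β δ) : ∃ c : ℂ, ∀ G, TF Pos G →
    T (psi fun y => wt (β - 2) ((δ - β + 2) / 2 + 1) y * G y) = c * ∫ y, G y := by
  set μ : ℝ := β - 2 with hμ
  set ν : ℝ := (δ - β + 2) / 2 with hν
  have hm : ∀ (a b : ℝ) {G : Mink → ℂ}, TF Pos G → TF Pos fun y => wt a b y * G y :=
    fun a b G hG => mulOn isOpen_Pos hG (contDiffOn_wt a b)
  have hd : ∀ (a b : ℝ) {G : Mink → ℂ}, TF Pos G → ∀ i y, dd i (fun y => wt a b y * G y) y =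
      wt a b y * dd i G y + ((if i = 0 then (a : ℂ) else 0) + if i = 3 then (b / y 3 : ℂ) else 0) *
        (wt a b y * G y) := by
    intro a b G hG i y
    rw [dd_mulOn isOpen_Pos hG (contDiffOn_wt a b)]
    by_cases hy : y ∈ tsupport G
    · rw [dd_wt (hG.2 hy)]
      ring
    · rw [image_eq_zero_of_notMem_tsupport hy]
      ring
  have hL := H283.exists_const (fun G => T (psi fun y => wt μ (ν + 1) y * G y)) ?_ ?_ ?_
  · obtain ⟨c, hc⟩ := hL
    exact ⟨c, fun G hG => hc G (tf_iff.2 hG)⟩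
  · intro G G' h h'
    show T (psi _) = T (psi _) + T (psi _)
    rw [← T_add (hm _ _ (tf_iff.1 h)) (hm _ _ (tf_iff.1 h'))]
    congr 2
    funext y
    simp only [Pi.add_apply]
    ring
  · intro c G h
    show T (psi _) = c * T (psi _)
    rw [← T_smul c (hm _ _ (tf_iff.1 h))]
    congr 2
    funext y
    simp only [Pi.smul_apply, smul_eq_mul]
    ring
  · intro j G h
    have hG := tf_iff.1 h
    have t1 := hm μ (ν + 1) hG
    have t2 := hm μ ν hG
    show T (psi fun y => wt μ (ν + 1) y * fderiv ℝ G y (EuclideanSpace.single j 1)) = 0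
    have e : (fun y => wt μ (ν + 1) y * fderiv ℝ G y (EuclideanSpace.single j 1)) =
        fun y => wt μ (ν + 1) y * dd j G y := rfl
    rw [e]
    fin_cases j
    · have e2 : (fun y => wt μ (ν + 1) y * dd 0 G y) = dd 0 (fun y => wt μ (ν + 1) y * G y) +
          (-(μ : ℂ)) • (fun y => wt μ (ν + 1) y * G y) := by
        funext y
        simp only [Pi.add_apply, Pi.smul_apply, smul_eq_mul]
        rw [hd μ (ν + 1) hG]
        simp
      show T (psi (fun y => wt μ (ν + 1) y * dd 0 G y)) = 0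
      rw [e2, T_add (t1.dd 0) (t1.smul _), T_smul _ t1, C.d0 t1, hμ]
      push_cast
      ring
    · have e2 : (fun y => wt μ (ν + 1) y * dd 1 G y) = dd 1 (fun y => wt μ (ν + 1) y * G y) := by
        funext y
        rw [hd μ (ν + 1) hG]
        simp
      show T (psi (fun y => wt μ (ν + 1) y * dd 1 G y)) = 0
      rw [e2, C.d1 t1]
    · have e2 : (fun y => wt μ (ν + 1) y * dd 2 G y) = dd 2 (fun y => wt μ (ν + 1) y * G y) := by
        funext y
        rw [hd μ (ν + 1) hG]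
        simp
      show T (psi (fun y => wt μ (ν + 1) y * dd 2 G y)) = 0
      rw [e2, C.d2 t1]
    · show T (psi (fun y => wt μ (ν + 1) y * dd 3 G y)) = 0
      have e3 : (fun y => wt μ (ν + 1) y * dd 3 G y) =
          (fun y => (y 3 : ℂ) * dd 3 (fun y => wt μ ν y * G y) y) +
            (-(ν : ℂ)) • (fun y => wt μ ν y * G y) := by
        funext y
        simp only [Pi.add_apply, Pi.smul_apply, smul_eq_mul]
        rw [hd μ ν hG]
        by_cases hy : y ∈ tsupport G
        · have hy' := hG.2 hy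
          have h3 : (y 3 : ℂ) ≠ 0 := by exact_mod_cast (show 0 < y 3 from hy').ne'
          rw [wt_one hy']
          simp
          field_simp
          ring
        · rw [image_eq_zero_of_notMem_tsupport hy, dd_zero hy]
          ring
      rw [e3, T_add ((t2.dd 3).mul (contDiff_cc 3)) (t2.smul _), T_smul _ t2, C.d3 t2, hν]
      push_cast
      ring

/-- covariant functionals have smooth densities -/
theorem cvr_dens {β δ : ℝ} (C : Cvr T Pos β δ) : ∃ R : Mink → ℂ, ContDiffOn ℝ ∞ R Pos ∧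
    ∀ G, TF Pos G → T (psi G) = MI (psi fun y => R y * G y) := by
  obtain ⟨c1, h1⟩ := cvr_const C
  have C0 : Cvr MI Pos ((0 : ℝ) : ℂ) ((-4 : ℝ) : ℂ) := by
    have := Cvr_MI
    push_cast
    exact this
  obtain ⟨c2, h2⟩ := cvr_const C0
  have hm : ∀ (a b : ℝ) {G : Mink → ℂ}, TF Pos G → TF Pos fun y => wt a b y * G y :=
    fun a b G hG => mulOn isOpen_Pos hG (contDiffOn_wt a b)
  have hw : ∀ (a b : ℝ) (G : Mink → ℂ), (fun y => wt a b y * (wt (-a) (-b) y * G y)) = G := by
    intro a b G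
    funext y
    rw [← mul_assoc, wt_mul, add_neg_cancel, add_neg_cancel, wt_zero, one_mul]
  have hc2 : c2 ≠ 0 := by
    intro h0
    obtain ⟨F0, hF0, hne, -⟩ := exists_bumpPC
    apply hne
    obtain ⟨G, hG, rfl⟩ := hF0.exists
    have h3 := h2 _ (hm (-((0 : ℝ) - 2)) (-(((-4 : ℝ) - 0 + 2) / 2 + 1)) hG)
    rw [hw, h0, zero_mul] at h3
    exact h3
  set a1 : ℝ := β - 2
  set b1 : ℝ := (δ - β + 2) / 2 + 1
  set a0 : ℝ := (0 : ℝ) - 2
  set b0 : ℝ := ((-4 : ℝ) - 0 + 2) / 2 + 1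
  refine ⟨fun y => c1 / c2 * (wt a0 b0 y * wt (-a1) (-b1) y),
    contDiffOn_const.mul ((contDiffOn_wt _ _).mul (contDiffOn_wt _ _)), fun G hG => ?_⟩
  have t1 := hm (-a1) (-b1) hG
  have h3 := h1 _ t1
  rw [hw] at h3
  have h4 := h2 _ t1
  have t2 := hm a0 b0 t1
  have e : (fun y => c1 / c2 * (wt a0 b0 y * wt (-a1) (-b1) y) * G y) =
      (c1 / c2) • fun y => wt a0 b0 y * (wt (-a1) (-b1) y * G y) := by
    funext y
    simp only [Pi.smul_apply, smul_eq_mul]
    ring
  rw [h3, e, T_smul _ t2, h4]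
  field_simp

end Vale.Agent.P352.H993

end
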