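import Vale.Agent.P352.H993.Dens

set_option linter.all false

noncomputable section

open MeasureTheory SchwartzMap Complex Filter Topology
open scoped SchwartzMap ComplexConjugate ENNReal LineDeriv ContDiff FourierTransform

/-!
# P352 (helper993): covariant families of functionals, equivariant frames
-/

namespace Vale.Agent.P352.H993

open GF (Ix V Fn Sch ev pd bar sim bas o)
open H246
open H496
open H246R

/-- an equivariant frame for the representation `R` on `ι` indices -/
structure Fr {ι : Type} [Fintype ι] [DecidableEq ι] (R : (Ix → V) → ι → ι → ℝ)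
    (Θ W : ι → ι → Mink → ℝ) (n d : ι → ℝ) : Prop where
  growth : ∀ A i, (fun p => (Θ A i p : ℂ)).HasTemperateGrowth
  nul : ∀ b A j p, ∑ i, R (mNull b) j i * Θ A i (lam (mNull b) p) = Θ A j p
  nul' : ∀ b A j p, ∑ i, R (mNull' b) j i * Θ A i (lam (mNull' b) p) = Θ A j p
  bst : ∀ t A j p, ∑ i, R (mBoost t) j i * Θ A i (lam (mBoost t) p) =
    Real.exp (n A * t) * Θ A j p
  dil : ∀ t A i p, Θ A i (Real.exp t • p) = Real.exp (d A * t) * Θ A i p
  smooth : ∀ i A, ContDiff ℝ ∞ (W i A)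
  inv : ∀ i j, ∀ p ∈ Hs, ∑ A, Θ A j p * W i A (crd p) = if j = i then 1 else 0

section gen

variable {ι : Type} [Fintype ι] [DecidableEq ι] {R : (Ix → V) → ι → ι → ℝ}
variable {Θ W : ι → ι → Mink → ℝ} {n d : ι → ℝ}

/-- multiplication by the components of the frame -/
def mth (Θ : ι → ι → Mink → ℝ) (A i : ι) : 𝓢(Mink, ℂ) →L[ℂ] 𝓢(Mink, ℂ) :=
  SchwartzMap.smulLeftCLM ℂ (fun p => (Θ A i p : ℂ))

lemma mth_apply (F : Fr R Θ W n d) (A i : ι) (f : 𝓢(Mink, ℂ)) (p : Mink) :
    mth Θ A i f p = Θ A i p * f p := by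
  unfold mth
  rw [SchwartzMap.smulLeftCLM_apply_apply (F.growth A i), smul_eq_mul]

/-- components of a family with respect to the frame -/
def cmp (T : ι → 𝓢(Mink, ℂ) →L[ℂ] ℂ) (Θ : ι → ι → Mink → ℝ) (A : ι) : 𝓢(Mink, ℂ) →L[ℂ] ℂ :=
  ∑ i, (T i).comp (mth Θ A i)

lemma cmp_apply (T : ι → 𝓢(Mink, ℂ) →L[ℂ] ℂ) (A : ι) (f : 𝓢(Mink, ℂ)) :
    cmp T Θ A f = ∑ i, T i (mth Θ A i f) := by
  unfold cmp
  rw [ContinuousLinearMap.sum_apply]
  rfl

variable {T : ι → 𝓢(Mink, ℂ) →L[ℂ] ℂ}

lemma sum_T (c : ι → ℂ) (f : ι → 𝓢(Mink, ℂ)) (S : 𝓢(Mink, ℂ) →L[ℂ] ℂ) :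
    ∑ i, c i * S (f i) = S (∑ i, c i • f i) := by
  rw [map_sum]
  simp only [map_smul, smul_eq_mul]

/-- the components are scalars -/
lemma cmp_one (F : Fr R Θ W n d)
    (hT : ∀ L (hL : GF.IsLor L) i f, T i f = ∑ j, (R L j i : ℂ) * T j (act 1 one_pos hL f))
    {L : Ix → V} (hL : GF.IsLor L) {w : ℝ} {A : ι}
    (hw : ∀ j p, ∑ i, R L j i * Θ A i (lam L p) = w * Θ A j p) (f : 𝓢(Mink, ℂ)) :
    cmp T Θ A f = w * cmp T Θ A (act 1 one_pos hL f) := by
  rw [cmp_apply, cmp_apply]
  simp only [hT L hL _ (mth Θ A _ f)]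
  rw [Finset.sum_comm, Finset.mul_sum]
  refine Finset.sum_congr rfl fun j _ => ?_
  rw [sum_T (fun i => (R L j i : ℂ)) (fun i => act 1 one_pos hL (mth Θ A i f)) (T j)]
  rw [← smul_eq_mul, ← map_smul]
  congr 1
  ext p
  rw [SchwartzMap.sum_apply, SchwartzMap.smul_apply, mth_apply F, act_one]
  simp only [SchwartzMap.smul_apply, act_one, mth_apply F, smul_eq_mul]
  have h := hw j p
  have h' : (∑ i, (R L j i : ℂ) * (Θ A i (lam L p) : ℂ)) = (w : ℂ) * Θ A j p := by
    exact_mod_cast h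
  rw [← mul_assoc, ← h', Finset.sum_mul]
  exact Finset.sum_congr rfl fun i _ => by ring

lemma cmp_cvr (F : Fr R Θ W n d)
    (hT : ∀ L (hL : GF.IsLor L) i f, T i f = ∑ j, (R L j i : ℂ) * T j (act 1 one_pos hL f))
    {κ : ℝ} (hD : ∀ t : ℝ, ∀ i f, T i f =
      exp (κ * t) * T i (act (Real.exp (-t)) (Real.exp_pos _) isLor_one f)) (A : ι) :
    Cvr (cmp T Θ A) Pos ((-n A : ℝ) : ℂ) ((-4 - κ - d A : ℝ) : ℂ) where
  n1 b G hG := by
    rw [psi_null hG.1 b (TF_shi adm_Pos hG (Or.inl rfl) b).1,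
      cmp_one F hT (isLor_null b) (w := 1) (A := A) (fun j p => by rw [F.nul, one_mul]) (psi G)]
    simp
  n2 b G hG := by
    rw [psi_null' hG.1 b (TF_shi adm_Pos hG (Or.inr rfl) b).1,
      cmp_one F hT (isLor_null' b) (w := 1) (A := A) (fun j p => by rw [F.nul', one_mul]) (psi G)]
    simp
  bo t G hG := by
    rw [psi_boost hG.1 t (TF_bst adm_Pos hG t).1,
      cmp_one F hT (isLor_boost t) (w := Real.exp (n A * t)) (A := A)
        (fun j p => by rw [F.bst]) (psi G), ← mul_assoc, ofReal_exp, ← Complex.exp_add]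
    have : ((-n A : ℝ) : ℂ) * t + ((n A * t : ℝ) : ℂ) = 0 := by push_cast; ring
    rw [this, Complex.exp_zero, one_mul]
  di t G hG := by
    have h1 : cmp T Θ A (psi G) = exp ((κ + d A : ℝ) * t) *
        cmp T Θ A (act (Real.exp (-t)) (Real.exp_pos _) isLor_one (psi G)) := by
      rw [cmp_apply, cmp_apply, Finset.mul_sum]
      refine Finset.sum_congr rfl fun i _ => ?_
      rw [hD t i (mth Θ A i (psi G))]
      have e : act (Real.exp (-t)) (Real.exp_pos _) isLor_one (mth Θ A i (psi G)) =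
          exp (d A * t) • mth Θ A i (act (Real.exp (-t)) (Real.exp_pos _) isLor_one (psi G)) := by
        ext p
        rw [act_apply, mth_apply F, SchwartzMap.smul_apply, mth_apply F, act_apply, lam_one,
          ← Real.exp_neg, neg_neg, F.dil]
        simp only [smul_eq_mul]
        push_cast
        ring
      rw [e, map_smul, smul_eq_mul, ← mul_assoc, ← Complex.exp_add]
      congr 2
      push_cast
      ring
    rw [psi_dil hG.1 t (TF_dlt adm_Pos hG t).1, map_smul, smul_eq_mul, ← mul_assoc,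
      ← Complex.exp_add] at h1
    rw [h1, ← mul_assoc, ← Complex.exp_add]
    have : ((-4 - κ - d A : ℝ) : ℂ) * t + (((κ + d A : ℝ) : ℂ) * t + 4 * t) = 0 := by
      push_cast; ring
    rw [this, Complex.exp_zero, one_mul]

/-- a covariant family of functionals has smooth densities on the open forward cone -/
theorem gen_dens (F : Fr R Θ W n d)
    (hT : ∀ L (hL : GF.IsLor L) i f, T i f = ∑ j, (R L j i : ℂ) * T j (act 1 one_pos hL f))
    {κ : ℝ} (hD : ∀ t : ℝ, ∀ i f, T i f =
      exp (κ * t) * T i (act (Real.exp (-t)) (Real.exp_pos _) isLor_one f)) (i : ι) :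
    ∃ ρ : Mink → ℂ, ContDiffOn ℝ ∞ ρ Pos ∧ ∀ G, TF Pos G → T i (psi G) =
      MI (psi fun y => ρ y * G y) := by
  choose r hr1 hr2 using fun A => cvr_dens (cmp_cvr F hT hD A)
  have hWc : ∀ A, ContDiff ℝ ∞ fun y => ((W i A y : ℝ) : ℂ) := fun A =>
    ofRealCLM.contDiff.comp (F.smooth i A)
  refine ⟨fun y => ∑ A, r A y * (W i A y : ℂ), ?_, fun G hG => ?_⟩
  · exact ContDiffOn.sum fun A _ => (hr1 A).mul (hWc A).contDiffOn
  · have tW : ∀ A, TF Pos fun y => ((W i A y : ℝ) : ℂ) * G y := fun A => hG.mul (hWc A)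
    have e1 : ∀ j, (if j = i then (1 : ℂ) else 0) • psi G =
        ∑ A, mth Θ A j (psi fun y => ((W i A y : ℝ) : ℂ) * G y) := by
      intro j
      ext p
      rw [SchwartzMap.sum_apply, SchwartzMap.smul_apply]
      simp only [mth_apply F]
      by_cases hp : p ∈ Hs
      · simp only [psi_apply_of_mem (tW _).1 hp]
        rw [psi_apply_of_mem hG.1 hp]
        have h := F.inv i j p hp
        have h' : (∑ A, (Θ A j p : ℂ) * (W i A (crd p) : ℂ)) = if j = i then (1 : ℂ) else 0 := by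
          rw [← ofReal_one, ← ofReal_zero, ← apply_ite ofReal, ← h]
          push_cast
          rfl
        rw [smul_eq_mul, ← h', Finset.sum_mul]
        exact Finset.sum_congr rfl fun A _ => by ring
      · simp only [psi_apply_of_notMem (tW _).1 hp]
        rw [psi_apply_of_notMem hG.1 hp]
        simp
    have e2 : T i (psi G) = ∑ A, cmp T Θ A (psi fun y => ((W i A y : ℝ) : ℂ) * G y) := by
      simp only [cmp_apply]
      rw [Finset.sum_comm]
      have e3 : ∀ j, ∑ A, T j (mth Θ A j (psi fun y => ((W i A y : ℝ) : ℂ) * G y)) =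
          (if j = i then (1 : ℂ) else 0) * T j (psi G) := by
        intro j
        rw [← map_sum, ← e1 j, map_smul, smul_eq_mul]
      simp only [e3]
      rw [Finset.sum_eq_single i]
      · simp
      · intro j _ hj
        simp [hj]
      · intro h
        exact absurd (Finset.mem_univ i) h
    have t3 : ∀ A, TF Pos fun y => r A y * (((W i A y : ℝ) : ℂ) * G y) := fun A =>
      mulOn isOpen_Pos (tW A) (hr1 A)
    rw [e2]
    simp only [hr2 _ _ (tW _)]
    rw [← map_sum]
    congr 1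
    ext p
    rw [SchwartzMap.sum_apply]
    have t4 : TF Pos fun y => (∑ A, r A y * (W i A y : ℂ)) * G y :=
      mulOn isOpen_Pos hG (ContDiffOn.sum fun A _ => (hr1 A).mul (hWc A).contDiffOn)
    by_cases hp : p ∈ Hs
    · simp only [psi_apply_of_mem (t3 _).1 hp]
      rw [psi_apply_of_mem t4.1 hp, Finset.sum_mul]
      exact Finset.sum_congr rfl fun A _ => by ring
    · simp only [psi_apply_of_notMem (t3 _).1 hp]
      rw [psi_apply_of_notMem t4.1 hp]
      simp

end gen

/-! ### The frame for vectors -/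

/-- frame of covectors -/
def th (α m : Fin 4) (p : Mink) : ℝ :=
  (![![p 0, -p 1, -p 2, -p 3], ![p 2, p 2, -pm p, 0], ![p 3, p 3, 0, -pm p], ![1, 1, 0, 0]] :
    Fin 4 → Fin 4 → ℝ) α m

/-- Kronecker symbol -/
def kr (i k : Fin 4) : ℝ := if i = k then 1 else 0

/-- auxiliary -/
def x0 (k : Fin 4) (p : Mink) : ℝ := (kr 0 k - kr 1 k) / pm p

/-- auxiliary -/
def x1 (k : Fin 4) (p : Mink) : ℝ := -(kr 2 k + p 2 * x0 k p) / pm p

/-- auxiliary -/
def x2 (k : Fin 4) (p : Mink) : ℝ := -(kr 3 k + p 3 * x0 k p) / pm p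

/-- auxiliary -/
def x3 (k : Fin 4) (p : Mink) : ℝ := kr 0 k - p 0 * x0 k p - p 2 * x1 k p - p 3 * x2 k p

/-- dual frame -/
def vt (k α : Fin 4) (y : Mink) : ℝ :=
  (![x0 k (icd y), x1 k (icd y), x2 k (icd y), x3 k (icd y)] : Fin 4 → ℝ) α

lemma contDiff_icd_coord (i : Fin 4) : ContDiff ℝ ∞ fun y => icd y i :=
  (contDiff_coord i).comp contDiff_icd

lemma contDiff_x0 (k : Fin 4) : ContDiff ℝ ∞ fun y => x0 k (icd y) := by
  unfold x0
  exact contDiff_const.div (contDiff_pm.comp contDiff_icd) fun y => (mem_Hs_icd y).ne'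

lemma contDiff_x1 (k : Fin 4) : ContDiff ℝ ∞ fun y => x1 k (icd y) := by
  unfold x1
  exact (contDiff_const.add ((contDiff_icd_coord 2).mul (contDiff_x0 k))).neg.div
    (contDiff_pm.comp contDiff_icd) fun y => (mem_Hs_icd y).ne'

lemma contDiff_x2 (k : Fin 4) : ContDiff ℝ ∞ fun y => x2 k (icd y) := by
  unfold x2
  exact (contDiff_const.add ((contDiff_icd_coord 3).mul (contDiff_x0 k))).neg.div
    (contDiff_pm.comp contDiff_icd) fun y => (mem_Hs_icd y).ne'

lemma contDiff_x3 (k : Fin 4) : ContDiff ℝ ∞ fun y => x3 k (icd y) := by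
  unfold x3
  exact (((contDiff_const.sub ((contDiff_icd_coord 0).mul (contDiff_x0 k))).sub
    ((contDiff_icd_coord 2).mul (contDiff_x1 k))).sub
    ((contDiff_icd_coord 3).mul (contDiff_x2 k)))

lemma growth_coord (i : Fin 4) : (fun p : Mink => ((p i : ℝ) : ℂ)).HasTemperateGrowth :=
  (ofRealCLM.comp (EuclideanSpace.proj i : Mink →L[ℝ] ℝ)).hasTemperateGrowth

lemma growth_th (α m : Fin 4) : (fun p => (th α m p : ℂ)).HasTemperateGrowth := by
  have h := growth_coord
  have hn : ∀ i : Fin 4, (fun p : Mink => ((-(p i) : ℝ) : ℂ)).HasTemperateGrowth := fun i => by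
    have e : (fun p : Mink => ((-(p i) : ℝ) : ℂ)) = -(fun p : Mink => ((p i : ℝ) : ℂ)) := by
      funext p
      simp
    rw [e]
    exact (h i).neg
  have hpm : (fun p : Mink => ((-(pm p) : ℝ) : ℂ)).HasTemperateGrowth := by
    have e : (fun p : Mink => ((-(pm p) : ℝ) : ℂ)) =
        -((fun p : Mink => ((p 0 : ℝ) : ℂ)) + (fun p : Mink => ((p 1 : ℝ) : ℂ))) := by
      funext p
      simp [pm]
    rw [e]
    exact ((h 0).add (h 1)).neg
  have hc : ∀ c : ℝ, (fun p : Mink => ((c : ℝ) : ℂ)).HasTemperateGrowth := fun c =>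
    Function.HasTemperateGrowth.const _
  fin_cases α <;> fin_cases m
  · exact h 0
  · exact hn 1
  · exact hn 2
  · exact hn 3
  · exact h 2
  · exact h 2
  · exact hpm
  · exact hc 0
  · exact h 3
  · exact h 3
  · exact hc 0
  · exact hpm
  · exact hc 1
  · exact hc 1
  · exact hc 0
  · exact hc 0

/-- weights under the boosts -/
def nw (α : Fin 4) : ℝ := if α = 0 then 0 else 1

/-- weights under the dilations -/
def dw (α : Fin 4) : ℝ := if α = 3 then 0 else 1

lemma fr1 : Fr (fun L k m => L k m) th vt nw dw where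
  growth := growth_th
  nul b A j p := by
    fin_cases A <;> fin_cases j <;>
      simp [th, Fin.sum_univ_four, mNull, pm, lam_apply] <;> ring
  nul' b A j p := by
    fin_cases A <;> fin_cases j <;>
      simp [th, Fin.sum_univ_four, mNull', pm, lam_apply] <;> ring
  bst t A j p := by
    have h1 := Real.cosh_sq t
    have h2 := Real.cosh_add_sinh t
    have h3 : Real.cosh t ^ 2 = Real.sinh t ^ 2 + 1 := h1
    fin_cases A <;> fin_cases j
    · simp [th, nw, Fin.sum_univ_four, mBoost, pm, lam_apply]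
      linear_combination p 0 * h3
    · simp [th, nw, Fin.sum_univ_four, mBoost, pm, lam_apply]
      linear_combination (-p 1) * h3
    · simp [th, nw, Fin.sum_univ_four, mBoost, pm, lam_apply]
    · simp [th, nw, Fin.sum_univ_four, mBoost, pm, lam_apply]
    · simp [th, nw, Fin.sum_univ_four, mBoost, pm, lam_apply]
      linear_combination p 2 * h2
    · simp [th, nw, Fin.sum_univ_four, mBoost, pm, lam_apply]
      linear_combination p 2 * h2
    · simp [th, nw, Fin.sum_univ_four, mBoost, pm, lam_apply]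
      linear_combination (-(p 0) - p 1) * h2
    · simp [th, nw, Fin.sum_univ_four, mBoost, pm, lam_apply]
    · simp [th, nw, Fin.sum_univ_four, mBoost, pm, lam_apply]
      linear_combination p 3 * h2
    · simp [th, nw, Fin.sum_univ_four, mBoost, pm, lam_apply]
      linear_combination p 3 * h2
    · simp [th, nw, Fin.sum_univ_four, mBoost, pm, lam_apply]
    · simp [th, nw, Fin.sum_univ_four, mBoost, pm, lam_apply]
      linear_combination (-(p 0) - p 1) * h2
    · simp [th, nw, Fin.sum_univ_four, mBoost, pm, lam_apply]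
    · simp [th, nw, Fin.sum_univ_four, mBoost, pm, lam_apply]
    · simp [th, nw, Fin.sum_univ_four, mBoost, pm, lam_apply]
    · simp [th, nw, Fin.sum_univ_four, mBoost, pm, lam_apply]
  dil t A i p := by
    fin_cases A <;> fin_cases i <;> simp [th, dw, pm] <;> ring
  smooth k α := by
    fin_cases α
    · exact contDiff_x0 k
    · exact contDiff_x1 k
    · exact contDiff_x2 k
    · exact contDiff_x3 k
  inv k j p hp := by
    have h : pm p ≠ 0 := (show 0 < pm p from hp).ne'
    rw [Fin.sum_univ_four]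
    have e : ∀ α, vt k α (crd p) = (![x0 k p, x1 k p, x2 k p, x3 k p] : Fin 4 → ℝ) α := by
      intro α
      unfold vt
      rw [icd_crd hp]
    simp only [e]
    have hk : (if j = k then (1 : ℝ) else 0) = kr j k := rfl
    rw [hk]
    have hx0 : x0 k p * pm p = kr 0 k - kr 1 k := by unfold x0; field_simp
    have hx1 : x1 k p * pm p = -(kr 2 k + p 2 * x0 k p) := by unfold x1; field_simp
    have hx2 : x2 k p * pm p = -(kr 3 k + p 3 * x0 k p) := by unfold x2; field_simp
    fin_cases j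
    · show p 0 * x0 k p + p 2 * x1 k p + p 3 * x2 k p + 1 * x3 k p = kr 0 k
      unfold x3
      ring
    · show -p 1 * x0 k p + p 2 * x1 k p + p 3 * x2 k p + 1 * x3 k p = kr 1 k
      unfold x3
      unfold pm at hx0
      linear_combination (-1 : ℝ) * hx0
    · show -p 2 * x0 k p + -pm p * x1 k p + 0 * x2 k p + 0 * x3 k p = kr 2 k
      linear_combination (-1 : ℝ) * hx1
    · show -p 3 * x0 k p + 0 * x1 k p + -pm p * x2 k p + 0 * x3 k p = kr 3 k
      linear_combination (-1 : ℝ) * hx2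

/-! ### The frame for tensors -/

lemma fr2 : Fr (ι := Fin 4 × Fin 4) (fun L k m => L k.1 m.1 * L k.2 m.2)
    (fun A i p => th A.1 i.1 p * th A.2 i.2 p) (fun i A y => vt i.1 A.1 y * vt i.2 A.2 y)
    (fun A => nw A.1 + nw A.2) (fun A => dw A.1 + dw A.2) where
  growth A i := by
    have e : (fun p => ((th A.1 i.1 p * th A.2 i.2 p : ℝ) : ℂ)) =
        (fun p => (th A.1 i.1 p : ℂ)) * (fun p => (th A.2 i.2 p : ℂ)) := by
      funext p
      simp
    rw [e]
    exact (growth_th _ _).mul (growth_th _ _)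
  nul b A j p := by
    rw [Fintype.sum_prod_type, ← fr1.nul b A.1 j.1 p, ← fr1.nul b A.2 j.2 p, Finset.sum_mul_sum]
    exact Finset.sum_congr rfl fun k _ => Finset.sum_congr rfl fun m _ => by ring
  nul' b A j p := by
    rw [Fintype.sum_prod_type, ← fr1.nul' b A.1 j.1 p, ← fr1.nul' b A.2 j.2 p, Finset.sum_mul_sum]
    exact Finset.sum_congr rfl fun k _ => Finset.sum_congr rfl fun m _ => by ring
  bst t A j p := by
    rw [Fintype.sum_prod_type, add_mul, Real.exp_add]
    have e : Real.exp (nw A.1 * t) * Real.exp (nw A.2 * t) * (th A.1 j.1 p * th A.2 j.2 p) =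
        (Real.exp (nw A.1 * t) * th A.1 j.1 p) * (Real.exp (nw A.2 * t) * th A.2 j.2 p) := by ring
    rw [e, ← fr1.bst t A.1 j.1 p, ← fr1.bst t A.2 j.2 p, Finset.sum_mul_sum]
    exact Finset.sum_congr rfl fun k _ => Finset.sum_congr rfl fun m _ => by ring
  dil t A i p := by
    rw [add_mul, Real.exp_add, fr1.dil, fr1.dil]
    ring
  smooth i A := (fr1.smooth _ _).mul (fr1.smooth _ _)
  inv i j p hp := by
    rw [Fintype.sum_prod_type]
    have h1 := fr1.inv i.1 j.1 p hp
    have h2 := fr1.inv i.2 j.2 p hp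
    have e : ∑ x, ∑ y, th x j.1 p * th y j.2 p * (vt i.1 x (crd p) * vt i.2 y (crd p)) =
        (∑ x, th x j.1 p * vt i.1 x (crd p)) * ∑ y, th y j.2 p * vt i.2 y (crd p) := by
      rw [Finset.sum_mul_sum]
      exact Finset.sum_congr rfl fun k _ => Finset.sum_congr rfl fun m _ => by ring
    show ∑ x, ∑ y, th x j.1 p * th y j.2 p * (vt i.1 x (crd p) * vt i.2 y (crd p)) = _
    rw [e, h1, h2]
    by_cases hj1 : j.1 = i.1 <;> by_cases hj2 : j.2 = i.2 <;> simp [Prod.ext_iff, hj1, hj2]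

end Vale.Agent.P352.H993

end
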