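import Vale.Agent.P352.H755.R7f
import Vale.Agent.P352.H746.Bk
import Vale.Agent.P352.H846.Lfw
import Mathlib.Geometry.Manifold.PartitionOfUnity

set_option linter.all false

noncomputable section

open MeasureTheory Filter Topology Set
open scoped ContDiff ComplexConjugate

/-!
# P352 (helper993): the improvement field on cut off null profiles (row C2 of R9')
-/

namespace Vale.Agent.P352.H993

open GF (Ix V Fn Fld bas eta pd)
open H755 H496 H15 H246
open H846 (cut_tst cut_cv contDiff_cv contDiff_mdot mdot_cv cv)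
open H746 (Lf)

/-! ### Algebra of the argument of the cutoffs -/

section

variable {a b : V} (haa : GF.mdot a a = 0) (hbb : GF.mdot b b = 0) (hab : GF.mdot a b = 1)

include haa hbb hab

lemma mba : GF.mdot b a = 1 := by rw [md_comm]; exact hab

omit haa hbb hab in
lemma cv_smul_add (R : ℝ) (c : ℝ) (x y : V) : cv a b R (x + c • y) = cv a b R x + c • cv a b R y := by
  unfold cv
  simp only [md_add, md_smul]
  funext n
  simp only [Pi.add_apply, Pi.sub_apply, Pi.smul_apply, smul_eq_mul]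
  ring

lemma md_cv_a (R : ℝ) (x : V) : GF.mdot a (cv a b R x) = 0 := by
  unfold cv
  simp only [md_add, md_sub, md_smul, haa, hab]
  ring

lemma md_cv_b (R : ℝ) (x : V) : GF.mdot b (cv a b R x) = GF.mdot b x / R ^ 2 :=
  mdot_cv hbb hab R x

lemma md_cv_cv {R : ℝ} (hR : R ≠ 0) (x : V) : GF.mdot (cv a b R x) (cv a b R x) =
    (R ^ 2)⁻¹ * (GF.mdot x x - 2 * GF.mdot a x * GF.mdot b x) := by
  unfold cv
  simp only [md_add, md_sub, md_smul, md_add_l, md_sub_l, md_smul_l, haa, hab, hbb,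
    mba haa hbb hab, md_comm x a, md_comm x b]
  field_simp
  ring

/-- the image of the conformal Killing field `cK a` -/
lemma cv_cKa {R : ℝ} (hR : R ≠ 0) (x : V) : cv a b R (cK a x) =
    (-GF.mdot (cv a b R x) (cv a b R x)) • a +
      (2 * GF.mdot a x) • (cv a b R x - GF.mdot b (cv a b R x) • a) := by
  rw [md_cv_cv haa hbb hab hR, md_cv_b haa hbb hab]
  unfold cv cK
  simp only [md_add, md_sub, md_smul, haa, hab, hbb, mba haa hbb hab]
  funext n
  simp only [Pi.add_apply, Pi.sub_apply, Pi.smul_apply, smul_eq_mul]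
  field_simp
  ring

/-- the image of the conformal Killing field `cK b` -/
lemma cv_cKb {R : ℝ} (hR : R ≠ 0) (x : V) : cv a b R (cK b x) =
    (R ^ 2 * (2 * GF.mdot b (cv a b R x))) • cv a b R x := by
  rw [md_cv_b haa hbb hab]
  unfold cv cK
  simp only [md_add, md_sub, md_smul, haa, hab, hbb, mba haa hbb hab]
  funext n
  simp only [Pi.add_apply, Pi.sub_apply, Pi.smul_apply, smul_eq_mul]
  field_simp
  ring

end

/-! ### Derivatives -/

lemma dr_poly {f : V → ℝ} {m : Ix} {x : V} {a0 a1 a2 : ℝ}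
    (h : ∀ t, f (x + bas m t) = a0 + t * a1 + t ^ 2 * a2) : dr m f x = a1 := by
  unfold dr
  have : (fun t => f (x + bas m t)) = fun t => a0 + t * a1 + t ^ 2 * a2 := funext h
  rw [this]
  exact (hasDeriv_poly a0 a1 a2).deriv

lemma line_deriv {f : V → ℝ} (hf : ContDiff ℝ ∞ f) (x y : V) :
    HasDerivAt (fun t : ℝ => f (x + t • y)) (fderiv ℝ f x y) 0 := by
  have h5 : HasFDerivAt f (fderiv ℝ f x) (x + (0:ℝ) • y) := by
    simpa using ((hf.differentiable (by simp)) x).hasFDerivAt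
  have h3 : HasDerivAt (fun t : ℝ => x + t • y) y 0 := by
    simpa using ((hasDerivAt_id (0:ℝ)).smul_const y).const_add x
  exact h5.comp_hasDerivAt (0:ℝ) h3

/-- derivative of a cutoff along a line -/
lemma cut_line {a b : V} {ν : V → ℝ} (hν : ContDiff ℝ ∞ ν) (R : ℝ) (x y : V) :
    HasDerivAt (fun t : ℝ => cut a b ν R (x + t • y))
      (fderiv ℝ ν (cv a b R x) (cv a b R y)) 0 := by
  have e : (fun t : ℝ => cut a b ν R (x + t • y)) =
      fun t : ℝ => ν (cv a b R x + t • cv a b R y) := by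
    funext t
    rw [cut_cv, cv_smul_add]
  rw [e]
  exact line_deriv hν _ _

lemma sum_dr {f : V → ℝ} (hf : ContDiff ℝ ∞ f) (x y : V) :
    ∑ n, y n * dr n f x = fderiv ℝ f x y := by
  have h1 : y = ∑ n, y n • (bas n 1 : V) := by
    funext k
    simp [bas, Finset.sum_apply]
  conv_rhs => rw [h1]
  rw [map_sum]
  refine Finset.sum_congr rfl fun n _ => ?_
  rw [map_smul, dr_fd hf, smul_eq_mul]

/-- the profile -/
def gR (a b : V) (ν : V → ℝ) (ψ : ℝ → ℝ) (R : ℝ) (x : V) : ℝ :=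
  (R ^ 2)⁻¹ * cut a b ν R x * ψ (GF.mdot a x)

lemma gR_smooth {a b : V} {ν : V → ℝ} {ψ : ℝ → ℝ} (hν : ContDiff ℝ ∞ ν) (hψ : ContDiff ℝ ∞ ψ)
    (R : ℝ) : ContDiff ℝ ∞ (gR a b ν ψ R) :=
  (contDiff_const.mul (hν.comp (contDiff_cv a b R))).mul (hψ.comp (contDiff_mdot a))

lemma fd_gR {a b : V} {ν : V → ℝ} {ψ : ℝ → ℝ} (hν : ContDiff ℝ ∞ ν) (hψ : ContDiff ℝ ∞ ψ)
    (R : ℝ) (x y : V) : fderiv ℝ (gR a b ν ψ R) x y =
      (R ^ 2)⁻¹ * (fderiv ℝ ν (cv a b R x) (cv a b R y) * ψ (GF.mdot a x) +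
        cut a b ν R x * (deriv ψ (GF.mdot a x) * GF.mdot a y)) := by
  have h1 : HasDerivAt (fun t : ℝ => gR a b ν ψ R (x + t • y)) (fderiv ℝ (gR a b ν ψ R) x y) 0 :=
    line_deriv (gR_smooth hν hψ R) x y
  have h2 : HasDerivAt (fun t : ℝ => cut a b ν R (x + t • y))
      (fderiv ℝ ν (cv a b R x) (cv a b R y)) 0 := cut_line hν R x y
  have h3 : HasDerivAt (fun t : ℝ => ψ (GF.mdot a (x + t • y)))
      (deriv ψ (GF.mdot a x) * GF.mdot a y) 0 := by
    have e : (fun t : ℝ => ψ (GF.mdot a (x + t • y))) =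
        fun t : ℝ => ψ (GF.mdot a x + t * GF.mdot a y + t ^ 2 * 0) := by
      funext t
      rw [md_add, md_smul, mul_zero, add_zero]
    rw [e]
    have h4 : HasDerivAt ψ (deriv ψ (GF.mdot a x))
        (GF.mdot a x + 0 * GF.mdot a y + 0 ^ 2 * 0) := by
      have := ((hψ.differentiable (by simp)) (GF.mdot a x)).hasDerivAt
      simpa using this
    exact h4.comp (0:ℝ) (hasDeriv_poly (GF.mdot a x) (GF.mdot a y) 0)
  have h4 := (h2.mul h3).const_mul ((R ^ 2)⁻¹)
  have h5 : (fun t : ℝ => gR a b ν ψ R (x + t • y)) = fun t : ℝ => (R ^ 2)⁻¹ *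
      ((fun t : ℝ => cut a b ν R (x + t • y)) * fun t : ℝ => ψ (GF.mdot a (x + t • y))) t := by
    funext t
    show (R ^ 2)⁻¹ * cut a b ν R (x + t • y) * ψ (GF.mdot a (x + t • y)) = (R ^ 2)⁻¹ *
      (cut a b ν R (x + t • y) * ψ (GF.mdot a (x + t • y)))
    ring
  rw [h5] at h1
  have h6 := h1.unique h4
  rw [h6]
  simp only [zero_smul, add_zero]

/-! ### The current smeared with a covector field -/

variable {D : Type*} [NormedAddCommGroup D] [InnerProductSpace ℂ D]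
variable {Q : GF.Theory D} {T : Ix → Ix → GF.Fld D} {J : Ix → GF.Fld D}
  {A : (V → V) → D → D} {K : V → D → D}

/-- `J` smeared with a covector field -/
def jm (J : Ix → GF.Fld D) (F : Ix → V → ℝ) (v : D) : D := ∑ m, J m (fun x => (F m x : ℂ)) v

lemma jm_lin (hJ : IsVirial Q T J) {F G : Ix → V → ℝ} (c : ℝ) (hF : ∀ m, Tst (F m))
    (hG : ∀ m, Tst (G m)) (v : D) :
    jm J (fun m x => F m x + c * G m x) v = jm J F v + (c : ℂ) • jm J G v := by
  unfold jm
  rw [Finset.smul_sum, ← Finset.sum_add_distrib]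
  refine Finset.sum_congr rfl fun m _ => ?_
  rw [← Q.lin (J m) _ _ (c : ℂ) v (Q.bose_fld _ (hJ.bose m)) (tstIs (hF m)) (tstIs (hG m))]
  congr 1
  funext x
  push_cast
  ring

/-! ### The basic limits -/

/-- a cutoff near the support -/
lemma exists_near {ν : V → ℝ} (hν : Tst ν) :
    ∃ κ : V → ℝ, Tst κ ∧ ∀ z ∈ tsupport ν, ∀ᶠ y in 𝓝 z, κ y = 1 := by
  obtain ⟨L, hL, hKL, -⟩ := exists_compact_between hν.2.isCompact isOpen_univ (Set.subset_univ _)
  obtain ⟨ρ, hρ1, hρ0, _⟩ := exists_contMDiffMap_one_nhds_of_subset_interior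
    (n := (⊤ : ℕ∞)) (modelWithCornersSelf ℝ V) hν.2.isCompact.isClosed hKL
  have hρs : ContDiff ℝ ((⊤ : ℕ∞) : WithTop ℕ∞) (ρ : V → ℝ) := ρ.contMDiff.contDiff
  have hGt : tsupport (ρ : V → ℝ) ⊆ L := by
    apply closure_minimal _ hL.isClosed
    intro x hx
    by_contra hxL
    exact hx (hρ0 x hxL)
  refine ⟨ρ, ⟨hρs, IsCompact.of_isClosed_subset hL (isClosed_tsupport _) hGt⟩, fun p hp => ?_⟩
  exact (Filter.eventually_iff.1 hρ1 |> mem_nhdsSet_iff_forall.1) p hp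

/-- no flux of the current through a part of the boundary -/
def NF (J : Ix → GF.Fld D) (a b : V) : Prop := ∀ (κ ν : V → ℝ) (ψ : ℝ → ℝ) (v w : D), Tst κ →
  Tst ν → (∀ᶠ x in 𝓝 (0 : V), ν x = 0) → Tst ψ → Tendsto (fun R => inner ℂ w (jm J
    (fun m x => dr m (cut a b κ R) x * cut a b ν R x * ψ (GF.mdot a x)) v)) atTop (𝓝 0)

/-- localization of a boundary potential -/
lemma dr_loc {a b : V} {P κ ν : V → ℝ} (hκ : ∀ z ∈ tsupport ν, ∀ᶠ y in 𝓝 z, κ y = 1) (R : ℝ)
    (m : Ix) (x : V) : dr m (cut a b (fun z => P z * κ z) R) x * cut a b ν R x =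
      dr m (fun y => P (cv a b R y)) x * cut a b ν R x := by
  by_cases hx : cv a b R x ∈ tsupport ν
  · congr 1
    apply H846.dr_congr
    have h1 : ∀ᶠ y in 𝓝 x, κ (cv a b R y) = 1 :=
      (contDiff_cv a b R).continuous.continuousAt.eventually (hκ _ hx)
    filter_upwards [h1] with y hy
    rw [cut_cv, hy, mul_one]
  · rw [cut_cv a b ν, image_eq_zero_of_notMem_tsupport hx, mul_zero, mul_zero]

section

variable {a b : V} (haa : GF.mdot a a = 0) (hbb : GF.mdot b b = 0) (hab : GF.mdot a b = 1)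
  (hN : NF J a b)
include haa hbb hab hN

lemma lim1 {ν : V → ℝ} {ψ : ℝ → ℝ} (hν : Tst ν) (hν0 : ∀ᶠ x in 𝓝 (0 : V), ν x = 0) (hψ : Tst ψ)
    (v w : D) : Tendsto (fun R => inner ℂ w (jm J (fun m x => (eta m * b m) *
      gR a b ν ψ R x) v)) atTop (𝓝 0) := by
  obtain ⟨κ, hκ, hκ1⟩ := exists_near hν
  have h1 := hN (fun z => GF.mdot b z * κ z) ν ψ v w
    ⟨(contDiff_mdot b).mul hκ.1, hκ.2.mul_left⟩ hν hν0 hψ
  refine h1.congr' ?_
  filter_upwards [eventually_ge_atTop (1 : ℝ)] with R hR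
  congr 2
  funext m x
  rw [dr_loc hκ1]
  have h2 : dr m (fun y => GF.mdot b (cv a b R y)) x = (R ^ 2)⁻¹ * (eta m * b m) := by
    refine dr_poly (a0 := GF.mdot b x / R ^ 2) (a2 := 0) fun t => ?_
    rw [md_cv_b haa hbb hab, bas_t, md_add, md_smul, md_bas]
    ring
  rw [h2]
  unfold gR
  ring

/-- the component orthogonal to the null vectors -/
lemma lim2 {ν : V → ℝ} {ψ : ℝ → ℝ} (hν : Tst ν) (hν0 : ∀ᶠ x in 𝓝 (0 : V), ν x = 0) (hψ : Tst ψ)
    (v w : D) : Tendsto (fun R => inner ℂ w (jm J (fun m x =>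
      (eta m * (x m - GF.mdot a x * b m - GF.mdot b x * a m)) * gR a b ν ψ R x) v))
        atTop (𝓝 0) := by
  obtain ⟨κ, hκ, hκ1⟩ := exists_near hν
  have hP : ContDiff ℝ ∞ fun z : V => (1 / 2 : ℝ) * GF.mdot z z := by
    unfold GF.mdot
    fun_prop
  have h1 := hN (fun z => (1 / 2 * GF.mdot z z) * κ z) ν ψ v w
    ⟨hP.mul hκ.1, hκ.2.mul_left⟩ hν hν0 hψ
  refine h1.congr' ?_
  filter_upwards [eventually_ge_atTop (1 : ℝ)] with R hR
  congr 2
  funext m x
  rw [dr_loc hκ1]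
  have hR0 : R ≠ 0 := by positivity
  have h2 : dr m (fun y => 1 / 2 * GF.mdot (cv a b R y) (cv a b R y)) x =
      (R ^ 2)⁻¹ * (eta m * (x m - GF.mdot a x * b m - GF.mdot b x * a m)) := by
    refine dr_poly (a0 := 1 / 2 * ((R ^ 2)⁻¹ * (GF.mdot x x - 2 * GF.mdot a x * GF.mdot b x)))
      (a2 := 1 / 2 * ((R ^ 2)⁻¹ * (eta m - 2 * (eta m * a m) * (eta m * b m)))) fun t => ?_
    have e : GF.mdot (bas m 1) (bas m 1) = eta m := by
      rw [md_bas]
      simp [bas]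
    have e3 : (bas m 1 : V) m = 1 := by simp [bas]
    rw [md_cv_cv haa hbb hab hR0, bas_t]
    simp only [md_add, md_smul, md_add_l, md_smul_l, md_bas, e, md_comm (bas m 1) x,
      Pi.add_apply, Pi.smul_apply, smul_eq_mul, e3]
    ring
  rw [h2]
  unfold gR
  ring

end

/-- the component along `a` -/
def VF (J : Ix → GF.Fld D) (a b : V) : Prop := ∀ (ν : V → ℝ) (ψ : ℝ → ℝ) (v w : D),
  Tst ν → (∀ᶠ x in 𝓝 (0 : V), ν x = 0) → Tst ψ → Tendsto (fun R => inner ℂ w (jm J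
    (fun m x => (eta m * a m) * (cut a b ν R x * ψ (GF.mdot a x))) v)) atTop (𝓝 0)

lemma vf_of (hJ : IsVirial Q T J) (ho : OnShell Q T J) {a b : V} (ha : IsNull a) (hb : IsNull b)
    (hab : GF.mdot a b = 1) : VF J a b := by
  intro ν ψ v w hν hν0 hψ
  obtain ⟨κ, hκ, hκ1⟩ := exists_kp
  have hκ' : Tst fun z => κ z + ν z := ⟨hκ.1.add hν.1, hκ.2.add hν.2⟩
  have hκ1' : ∀ᶠ x in 𝓝 (0 : V), κ x + ν x = 1 := by
    filter_upwards [hκ1, hν0] with x h1 h2
    rw [h1, h2, add_zero]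
  have h1 := ho.vir a b κ 0 ψ v w ⟨ha, hb, hab, hκ, hκ1, hψ⟩
  have h2 := ho.vir a b (fun z => κ z + ν z) 0 ψ v w ⟨ha, hb, hab, hκ', hκ1', hψ⟩
  have h3 := h2.sub h1
  rw [sub_zero] at h3
  refine h3.congr' ?_
  filter_upwards [eventually_ge_atTop (1 : ℝ)] with R hR
  have t1 : ∀ m, Tst fun x => eta m * a m * (cut a b κ R x * ψ (GF.mdot a x)) := fun m =>
    tst_smul contDiff_const (cut_tst ha.1 hb.1 hab hκ hψ hR)
  have t2 : ∀ m, Tst fun x => eta m * a m * (cut a b ν R x * ψ (GF.mdot a x)) := fun m =>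
    tst_smul contDiff_const (cut_tst ha.1 hb.1 hab hν hψ hR)
  have h4 := jm_lin hJ (F := fun m x => eta m * a m * (cut a b κ R x * ψ (GF.mdot a x)))
    (G := fun m x => eta m * a m * (cut a b ν R x * ψ (GF.mdot a x))) 1 t1 t2 v
  rw [← inner_sub_right]
  congr 1
  have e1 : (∑ m, J m (fun x => ((eta m * a m * ctf a b (fun z => κ z + ν z) 0 ψ R x : ℝ) : ℂ)) v) =
      jm J (fun m x => eta m * a m * (cut a b κ R x * ψ (GF.mdot a x)) +
        1 * (eta m * a m * (cut a b ν R x * ψ (GF.mdot a x)))) v := by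
    unfold jm
    refine Finset.sum_congr rfl fun m _ => ?_
    congr 1
    funext x
    congr 1
    unfold ctf
    rw [sub_zero]
    simp only [cut_cv]
    ring
  have e2 : (∑ m, J m (fun x => ((eta m * a m * ctf a b κ 0 ψ R x : ℝ) : ℂ)) v) =
      jm J (fun m x => eta m * a m * (cut a b κ R x * ψ (GF.mdot a x))) v := by
    unfold jm
    refine Finset.sum_congr rfl fun m _ => ?_
    congr 1
    funext x
    congr 1
    unfold ctf
    rw [sub_zero]
  rw [e1, e2, h4, Complex.ofReal_one, one_smul, add_sub_cancel_left]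

end Vale.Agent.P352.H993

end
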