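import Vale.Agent.P352.H993.Lf
import Vale.Agent.P352.H846.Chg1
import Vale.Agent.P352.G.Main

/-!
# The conformal charges of the improved tensor, if only the trace is on shell
-/

set_option linter.all false

noncomputable section

open MeasureTheory Filter Topology Set
open scoped ContDiff ComplexConjugate

namespace Vale.Agent.P352.H993

open GF (Ix V Fn Fld bas eta pd o improve bar)
open H755 H496 H15 H246
open H846 (cut_tst cut_cv contDiff_cv contDiff_mdot mdot_cv cv NoFlux)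
open H746 (Lf)
open H121 (TrNull Cop)
open SubConf (IsKil IsAdj)

variable {D : Type*} [NormedAddCommGroup D] [InnerProductSpace ℂ D]
variable {Q Q' : GF.Theory D} {T : Ix → Ix → GF.Fld D} {J : Ix → GF.Fld D}
  {A : (V → V) → D → D} {K : V → D → D} {L B : GF.Fld D}

/-- the null average of the virial current does not depend on the cutoff function -/
lemma vf_tr (hT : Q.IsStress T) (hJ : IsVirial Q T J) (h : NullCharges Q T J A K)
    (ht : TrNull T) {a b : V} (ha : IsNull a) (hb : IsNull b)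
    (hab : GF.mdot a b = 1) : VF J a b := by
  intro ν ψ v w hν hν0 hψ
  obtain ⟨κ, hκ, hκ1⟩ := exists_kp
  have hκ' : Tst fun z => κ z + ν z := ⟨hκ.1.add hν.1, hκ.2.add hν.2⟩
  have hκ1' : ∀ᶠ x in 𝓝 (0 : V), κ x + ν x = 1 := by
    filter_upwards [hκ1, hν0] with x h1 h2
    rw [h1, h2, add_zero]
  have h1 := H121.lim0 hT hJ h ht (κ := κ) (G := ψ) ⟨ha, hb, hab, hκ, hκ1, hψ⟩ v w
  have h2 := H121.lim0 hT hJ h ht (κ := fun z => κ z + ν z) (G := ψ)
    ⟨ha, hb, hab, hκ', hκ1', hψ⟩ v w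
  have h3 := h2.sub h1
  rw [sub_self] at h3
  refine h3.congr' ?_
  filter_upwards [eventually_ge_atTop (1 : ℝ)] with R hR
  have t1 : ∀ m, Tst fun x => eta m * a m * (cut a b κ R x * ψ (GF.mdot a x)) := fun m =>
    tst_smul contDiff_const (cut_tst ha.1 hb.1 hab hκ hψ hR)
  have t2 : ∀ m, Tst fun x => eta m * a m * (cut a b ν R x * ψ (GF.mdot a x)) := fun m =>
    tst_smul contDiff_const (cut_tst ha.1 hb.1 hab hν hψ hR)
  have h4 := jm_lin hJ (F := fun m x => eta m * a m * (cut a b κ R x * ψ (GF.mdot a x)))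
    (G := fun m x => eta m * a m * (cut a b ν R x * ψ (GF.mdot a x))) 1 t1 t2 v
  unfold H121.Ja
  rw [← inner_sub_right]
  congr 1
  have e1 : (∑ m, J m (fun x => ((eta m * a m * ctf a b (fun z => κ z + ν z) 0 ψ R x : ℝ) : ℂ)) v) =
      jm J (fun m x => eta m * a m * (cut a b κ R x * ψ (GF.mdot a x)) +
        1 * (eta m * a m * (cut a b ν R x * ψ (GF.mdot a x)))) v := by
    unfold jm
    refine Finset.sum_congr rfl fun m _ => ?_
    congr 1
    funext x
    congr 1
    unfold ctf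
    rw [sub_zero]
    simp only [cut_cv]
    ring
  have e2 : (∑ m, J m (fun x => ((eta m * a m * ctf a b κ 0 ψ R x : ℝ) : ℂ)) v) =
      jm J (fun m x => eta m * a m * (cut a b κ R x * ψ (GF.mdot a x))) v := by
    unfold jm
    refine Finset.sum_congr rfl fun m _ => ?_
    congr 1
    funext x
    congr 1
    unfold ctf
    rw [sub_zero]
  rw [e1, e2, h4, Complex.ofReal_one, one_smul, add_sub_cancel_left]

section

variable {a b : V} (haa : GF.mdot a a = 0) (hbb : GF.mdot b b = 0) (hab : GF.mdot a b = 1)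
include haa hbb hab

/-- **(LF)** -/
theorem lf0N (hJ : IsVirial Q T J)
    (hsy : ∀ a v w, IsNull a → inner ℂ (K a v) w = inner ℂ v (K a w)) (hN : NF J a b) (hV : VF J a b)
    (ha : IsNull a) (hb : IsNull b) {ν : V → ℝ} {ψ : ℝ → ℝ}
    (hν : Tst ν) (hν0 : ∀ᶠ x in 𝓝 (0 : V), ν x = 0) (hψ : Tst ψ) (v w : D) :
    Tendsto (fun R => inner ℂ w (Lf J K a b (fun x => (gR a b ν ψ R x : ℂ)) v)) atTop (𝓝 0) := by
  have c1 : ∀ v w : D, Tendsto (fun R => inner ℂ w (ct J b (fun x => (gR a b ν ψ R x : ℂ)) v))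
      atTop (𝓝 0) := by
    intro v w
    refine (lim1 haa hbb hab hN hν hν0 hψ v w).congr' ?_
    filter_upwards [eventually_ge_atTop (1 : ℝ)] with R hR
    have g0 := tst_gR haa hbb hab hν hψ hR
    congr 1
    unfold ct jm
    exact Finset.sum_congr rfl fun m _ => by
      rw [jr_smul (Q.bose_fld _ (hJ.bose m)) _ g0]
  have c2 : ∀ v w : D, Tendsto (fun R => inner ℂ w (ct J a (fun x => (gR a b ν ψ R x : ℂ)) v))
      atTop (𝓝 0) := by
    intro v w
    have l1 := hV ν ψ v w hν hν0 hψ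
    have l2 : Tendsto (fun R : ℝ => (((R ^ 2)⁻¹ : ℝ) : ℂ)) atTop (𝓝 0) := by
      have : Tendsto (fun R : ℝ => (R ^ 2)⁻¹) atTop (𝓝 0) :=
        (tendsto_pow_atTop (by norm_num)).inv_tendsto_atTop
      exact (Complex.continuous_ofReal.tendsto' 0 0 (by simp)).comp this
    have l3 := l2.mul l1
    rw [zero_mul] at l3
    refine l3.congr' ?_
    filter_upwards [eventually_ge_atTop (1 : ℝ)] with R hR
    have g0 := cut_tst haa hbb hab hν hψ hR
    rw [← inner_smul_right]
    congr 1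
    unfold ct jm
    rw [Finset.smul_sum]
    refine Finset.sum_congr rfl fun m _ => ?_
    have e : (fun x => (gR a b ν ψ R x : ℂ)) =
        fun x => (((R ^ 2)⁻¹ * (cut a b ν R x * ψ (GF.mdot a x)) : ℝ) : ℂ) := by
      funext x
      unfold gR
      rw [mul_assoc]
    rw [e, jr_smul (Q.bose_fld _ (hJ.bose m)) _ g0, jr_smul (Q.bose_fld _ (hJ.bose m)) _ g0]
    push_cast
    module
  have b1 : ∀ v w : D, Tendsto (fun R => inner ℂ w (bk J K a b (fun x => (gR a b ν ψ R x : ℂ)) v))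
      atTop (𝓝 0) := by
    intro v w
    have l1 := c1 v (K a w)
    have l2 := c1 (K a v) w
    have l3 := lim_lpa haa hbb hab hJ hN hν hν0 hψ v w
    have l4 := (l1.sub l2).add (l3.const_mul Complex.I)
    simp only [mul_zero, add_zero, sub_zero] at l4
    refine l4.congr fun R => ?_
    rw [bk_lpp, inner_add_right, inner_sub_right, inner_smul_right, hsy a w _ ha]
  have b2 : ∀ v w : D, Tendsto (fun R => inner ℂ w (bk J K b a (fun x => (gR a b ν ψ R x : ℂ)) v))
      atTop (𝓝 0) := by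
    intro v w
    have l1 := c2 v (K b w)
    have l2 := c2 (K b v) w
    have l3 := lim_lpb haa hbb hab hJ hN hV hν hν0 hψ v w
    have l4 := (l1.sub l2).add (l3.const_mul Complex.I)
    simp only [mul_zero, add_zero, sub_zero] at l4
    refine l4.congr fun R => ?_
    rw [bk_lpp, inner_add_right, inner_sub_right, inner_smul_right, hsy b w _ hb]
  have l := ((b1 v w).add (b2 v w)).const_mul (Complex.I / 24)
  simp only [mul_zero, add_zero] at l
  refine l.congr fun R => ?_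
  unfold Lf
  rw [inner_smul_right, inner_add_right]


end

/-- **(LF)**: the improvement field on cut off null profiles away from the origin -/
theorem lfN (hT : Q.IsStress T) (hJ : IsVirial Q T J) (h : NullCharges Q T J A K)
    (ht : TrNull T) (hn : H846.NoFlux T J) {a b : V} (ha : IsNull a) (hb : IsNull b)
    (hab : GF.mdot a b = 1)
    {ν : V → ℝ} {ψ : ℝ → ℝ} (hν : Tst ν) (hν0 : ∀ᶠ x in 𝓝 (0 : V), ν x = 0) (hψ : Tst ψ)
    (v w : D) : Tendsto (fun R : ℝ => inner ℂ w (Lf J K a b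
      (fun x => ((R ^ 2)⁻¹ * cut a b ν R x * ψ (GF.mdot a x) : ℝ)) v)) atTop (𝓝 0) := by
  have hN : NF J a b := fun κ ν ψ v w hκ hν hν0 hψ => hn.J a b κ ν ψ v w ha hb hab hκ hν hν0 hψ
  exact lf0N ha.1 hb.1 hab hJ (fun a v w ha => nc_symm hT h ha v w) hN
    (vf_tr hT hJ h ht ha hb hab) ha hb hν hν0 hψ v w

end Vale.Agent.P352.H993

namespace Vale.Agent.P352.H846

open GF (Ix V Fn Fld bas eta o improve bar)
open H755 H496 H15 H246 H846
open H746 (Lf)
open H121 (TrNull Cop)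
open SubConf (IsKil IsAdj)

variable {D : Type*} [NormedAddCommGroup D] [InnerProductSpace ℂ D]
variable {Q Q' : GF.Theory D} {T : Ix → Ix → GF.Fld D} {J : Ix → GF.Fld D}
  {A : (V → V) → D → D} {K : V → D → D} {L B : GF.Fld D}

/-- **The commutator with the charge.** -/
theorem com_limN (hT : Q.IsStress T) (hJ : IsVirial Q T J) (h : NullCharges Q T J A K)
    (htr : TrNull T) (hn : NoFlux T J) (hL : Q'.bose L)
    (hLf : ∀ a b f v, NPr a b → GF.IsTest f → L f v = Lf J K a b f v)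
    (ht : IsT Q' (improve T L)) (hB : Q'.fld B) {a b : V} (ha : IsNull a) (hb : IsNull b)
    (hab : GF.mdot a b = 1) {X : V → V} {c0 k : V} {r s r' : ℝ} {w0 : Ix → V}
    (hw : ∀ m n, eta n * w0 m n = -(eta m * w0 n m))
    (hX : ∀ x n, X x n = c0 n + r * x n + ∑ m, x m * w0 m n + 2 * GF.mdot k x * x n -
      GF.mdot x x * k n) (hk : k = s • a) (hX' : IsSim r' X ∨ X = cK a) {G : D → D}
    (hG : ∀ κ ψ, Adm a b κ ψ → ∀ v w, Tendsto (fun R => inner ℂ w (sm T (fun m n x =>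
      eta m * a m * (eta n * X x n) * ctf a b κ 0 ψ R x) v)) atTop
      (𝓝 ((∫ u, (ψ u : ℂ)) * inner ℂ w (G v)))) {f : Fn} (hf : H755.CS f) {g : V → ℝ}
    (hg : Ok (tsupport f) g) (v : D) :
    com (improve T L) (fun n x => X x n) g B f v = G (B f v) - B f (G v) := by
  have hfld : Q'.fld L := Q'.bose_fld _ hL
  -- the cutoff function
  obtain ⟨κ, hκ, hκ1⟩ : ∃ κ : V → ℝ, Tst κ ∧ ∀ᶠ x in 𝓝 (0 : V), κ x = 1 := by
    let f : ContDiffBump (0 : V) := ⟨1, 2, one_pos, one_lt_two⟩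
    exact ⟨f, ⟨f.contDiff, f.hasCompactSupport⟩, f.eventuallyEq_one⟩
  obtain ⟨α, hα, hα1⟩ := exists_prof
  obtain ⟨M1, hM1, hM1'⟩ := supp_bd hα
  obtain ⟨M4, hM4⟩ := hf.2.isCompact.isBounded.subset_closedBall (0 : V)
  obtain ⟨M, hMd⟩ : ∃ M, M = M1 + |M4| := ⟨_, rfl⟩
  have hM40 := abs_nonneg M4
  have hM : 0 ≤ M := by rw [hMd]; positivity
  have hαM : ∀ u, α u ≠ 0 → |u| ≤ M := fun u hu => (hM1' u hu).trans (by linarith)
  have hfM : ∀ y ∈ tsupport f, ∀ i, |y i| ≤ M := by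
    intro y hy i
    have h3 := hM4 hy
    rw [mem_closedBall_zero_iff] at h3
    have h4 := norm_le_pi_norm y i
    have h5 := le_abs_self M4
    rw [Real.norm_eq_abs] at h4
    linarith
  obtain ⟨u0, l, ν, hν, hν0, -, -, hev⟩ := exists_swi ha hb hab hκ hκ1
    (c := 3 * M + 1 + 1) (by linarith)
  obtain ⟨B', hB', hBB⟩ := Q'.adj B hB
  have hadj : ∀ u w : D, inner ℂ w (B f u) = inner ℂ (B' (bar f) w) u := by
    intro u w
    rw [← inner_conj_symm, hBB f u w hf.1, inner_conj_symm]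
  refine ext_inner_left ℂ fun w => ?_
  -- the limits
  have hadm : Adm a b κ (deriv (Ps u0)) := ⟨ha, hb, hab, hκ, hκ1, dPs_tst u0⟩
  have hint : (∫ u, ((deriv (Ps u0) u : ℝ) : ℂ)) = -1 := by
    rw [integral_complex_ofReal, dPs_int]
    simp
  have l1 : ∀ v w : D, Tendsto (fun R => inner ℂ w (sm T (F1 a b κ X (deriv (Ps u0)) R) v)) atTop
      (𝓝 (-inner ℂ w (G v))) := by
    intro v w
    have := hG κ _ hadm v w
    rw [hint, neg_one_mul] at this
    exact this
  have l2 : ∀ v w : D, Tendsto (fun R => inner ℂ w (sm T (F2 a b κ ν X (pl u0 l) R) v)) atTop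
      (𝓝 0) := fun v w => hn.T a b κ ν (pl u0 l) r' X v w ha hb hab hκ hν hν0 (pl_tst u0 l) hX'
  have l3 : ∀ v w : D, Tendsto (fun R => inner ℂ w
      (L (fun x => (Nr a b κ ν r s u0 l R x : ℂ)) v)) atTop (𝓝 0) := by
    intro v w
    have tA := pmul_tst hν (H148.tst_Da hκ a)
    have tB := pmul_tst hν (H148.tst_Lap hκ a b)
    have m1 := H993.lfN hT hJ h htr hn ha hb hab tA (pmul_near (H148.Da a κ) hν0)
      (psA_tst r s u0 l) v w
    have m2 := H993.lfN hT hJ h htr hn ha hb hab tB (pmul_near (H148.Lap a b κ) hν0)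
      (psB_tst r s u0 l) v w
    have m3 := m1.add m2
    rw [add_zero] at m3
    refine m3.congr' ?_
    filter_upwards [eventually_ge_atTop (1 : ℝ)] with R hR
    have p1 := prof_tst ha.1 hb.1 hab tA (psA_tst r s u0 l) hR
    have p2 := prof_tst ha.1 hb.1 hab tB (psB_tst r s u0 l) hR
    rw [← hLf a b _ v ⟨ha, hb, hab⟩ (tstIs p1), ← hLf a b _ v ⟨ha, hb, hab⟩ (tstIs p2),
      ← inner_add_right, ← fld_add hfld p1 p2]
    rfl
  have lim : Tendsto (fun R => -((inner ℂ w (sm T (F1 a b κ X (deriv (Ps u0)) R) (B f v)) -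
      inner ℂ (B' (bar f) w) (sm T (F1 a b κ X (deriv (Ps u0)) R) v)) +
      (inner ℂ w (sm T (F2 a b κ ν X (pl u0 l) R) (B f v)) -
        inner ℂ (B' (bar f) w) (sm T (F2 a b κ ν X (pl u0 l) R) v)) +
      (3 : ℂ) * (inner ℂ w (L (fun x => (Nr a b κ ν r s u0 l R x : ℂ)) (B f v)) -
        inner ℂ (B' (bar f) w) (L (fun x => (Nr a b κ ν r s u0 l R x : ℂ)) v)))) atTop
      (𝓝 (-((-inner ℂ w (G (B f v)) - -inner ℂ (B' (bar f) w) (G v)) + (0 - 0) +
        3 * (0 - 0)))) :=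
    (((l1 _ _).sub (l1 _ _)).add ((l2 _ _).sub (l2 _ _)) |>.add
      (((l3 _ _).sub (l3 _ _)).const_mul 3)).neg
  have hconst : Tendsto (fun _ : ℝ => inner ℂ w (com (improve T L) (fun n x => X x n) g B f v)) atTop
      (𝓝 (-((-inner ℂ w (G (B f v)) - -inner ℂ (B' (bar f) w) (G v)) + (0 - 0) +
        3 * (0 - 0)))) := by
    refine lim.congr' ?_
    filter_upwards [hev, eventually_ge_atTop (1 : ℝ)] with R hR hR1
    rw [com_R hT hL ht hB ha hb hab hκ hν hw hX hk hf hM le_rfl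
      (by linarith : 3 * M + 1 < 3 * M + 1 + 1) hfM hα hα1 hαM hR1 hR hg v]
    rw [inner_neg_right, inner_add_right, inner_add_right, inner_smul_right, inner_sub_right,
      inner_sub_right, inner_sub_right, hadj, hadj, hadj]
  have := tendsto_nhds_unique tendsto_const_nhds hconst
  rw [this, inner_sub_right, hadj]
  ring

lemma chg_ofN (hT : Q.IsStress T) (hJ : IsVirial Q T J) (h : NullCharges Q T J A K)
    (htr : TrNull T) (hn : NoFlux T J) (hL : Q'.bose L)
    (hLf : ∀ a b f v, NPr a b → GF.IsTest f → L f v = Lf J K a b f v)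
    (ht : IsT Q' (improve T L)) {a b : V} (ha : IsNull a) (hb : IsNull b)
    (hab : GF.mdot a b = 1) {X : V → V} {c0 k : V} {r s r' : ℝ} {w0 : Ix → V}
    (hw : ∀ m n, eta n * w0 m n = -(eta m * w0 n m))
    (hX : ∀ x n, X x n = c0 n + r * x n + ∑ m, x m * w0 m n + 2 * GF.mdot k x * x n -
      GF.mdot x x * k n) (hk : k = s • a) (hX' : IsSim r' X ∨ X = cK a) {G : D → D}
    (hG : ∀ κ ψ, Adm a b κ ψ → ∀ v w, Tendsto (fun R => inner ℂ w (sm T (fun m n x =>
      eta m * a m * (eta n * X x n) * ctf a b κ 0 ψ R x) v)) atTop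
      (𝓝 ((∫ u, (ψ u : ℂ)) * inner ℂ w (G v)))) : Chg Q' (improve T L) X G := by
  intro F B f hF hB hf hfc
  filter_upwards [ok_cutoff hF (S := tsupport f) hfc.isCompact] with R hR v
  obtain ⟨g, hg, hFg⟩ := hR
  have key := com_limN hT hJ h htr hn hL hLf ht hB ha hb hab hw hX hk hX' hG ⟨hf, hfc⟩ hg v
  rw [← key]
  have e : ∀ n, (fun x => ((eta n * X x n : ℝ) : ℂ) * F R x) =
      fun x => ((eta n * X x n * g x : ℝ) : ℂ) := by
    intro n
    rw [hFg]
    funext x
    push_cast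
    ring
  unfold com
  simp only [e]


end Vale.Agent.P352.H846

end
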