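import Vale.Agent.P352.H496.Gen4
import Vale.Agent.P352.H246.Rc6

set_option linter.all false

noncomputable section

open MeasureTheory SchwartzMap Complex Filter Topology
open scoped SchwartzMap ComplexConjugate ENNReal LineDeriv ContDiff FourierTransform

/-!
# P352 (helper993): null rotated copies of one vector are orthogonal
-/

namespace Vale.Agent.P352.H993

open GF (Ix V Fn Sch ev pd bar sim bas o)
open H246
open H496
open H246R

variable {D : Type*} [NormedAddCommGroup D] [InnerProductSpace ℂ D]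
variable {Q : GF.Theory D} {μ : Measure Mink} {T : Ix → Ix → GF.Fld D} {A : GF.Fld D}

lemma mNull_eq (b : ℝ) : mNull b = nr (b, 0) := by
  funext m n
  fin_cases m <;> fin_cases n <;> simp [mNull, nr]

lemma U_vec (hA : PField Q T A 4) {σ : ℝ} (hσ : 0 < σ) {L : Ix → V} (hL : GF.IsLor L)
    (F : 𝓢(Mink, ℂ)) : Q.U σ L 0 (A (fl F) Q.vac) = A (fl (simJ hσ hL 0 F)) Q.vac := by
  have h := hA.cov_vac σ hσ hL 0 (simJ hσ hL 0 F)
  rw [simS_simJ] at h
  simp only [sub_self, Real.rpow_zero, ofReal_one, one_smul] at h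
  exact h.symm

/-- two point function of null rotated vectors -/
lemma inner_nr (hA : PField Q T A 4) (two : Two Q A μ) (h h' : 𝓢(Mink, ℂ)) (c c' : ℝ × ℝ) :
    inner ℂ (Q.U 1 (nr c) 0 (A (fl h) Q.vac)) (Q.U 1 (nr c') 0 (A (fl h') Q.vac)) =
      ∫ p, conj (mft h (lam (nr (-c)) p)) * mft h' (lam (nr (-c')) p) ∂μ := by
  rw [U_vec hA one_pos (isLor_nr c), U_vec hA one_pos (isLor_nr c'), two]
  congr 1
  ext p
  rw [mft_simJ one_pos (isLor_nr c) _ (p' := lam (nr (-c)) p)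
      (by rw [inv_one, one_smul, lam_nr_neg]),
    mft_simJ one_pos (isLor_nr c') _ (p' := lam (nr (-c')) p)
      (by rw [inv_one, one_smul, lam_nr_neg])]
  rw [one_pow, ofReal_one, one_mul, one_mul]

lemma pm_nr (c : ℝ × ℝ) (p : Mink) : H496.pm (lam (nr c) p) = H496.pm p := by
  unfold H496.pm
  simp only [lam_apply, nr, Fin.sum_univ_four, Matrix.cons_val', Matrix.cons_val_zero,
    Matrix.cons_val_one, Matrix.cons_val, Matrix.cons_val_fin_one, Fin.isValue]
  ring

lemma nr_2 (c : ℝ × ℝ) (p : Mink) : lam (nr c) p 2 = p 2 + c.1 * H496.pm p := by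
  unfold H496.pm
  simp only [lam_apply, nr, Fin.sum_univ_four, Matrix.cons_val', Matrix.cons_val_zero,
    Matrix.cons_val_one, Matrix.cons_val, Matrix.cons_val_fin_one, Fin.isValue]
  ring

lemma nr_3 (c : ℝ × ℝ) (p : Mink) : lam (nr c) p 3 = p 3 + c.2 * H496.pm p := by
  unfold H496.pm
  simp only [lam_apply, nr, Fin.sum_univ_four, Matrix.cons_val', Matrix.cons_val_zero,
    Matrix.cons_val_one, Matrix.cons_val, Matrix.cons_val_fin_one, Fin.isValue]
  ring

/-- bounds on the support of a function supported in the open forward cone -/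
lemma PC.bounds {F : 𝓢(Mink, ℂ)} (hF : PC F) : ∃ δ R : ℝ, 0 < δ ∧ 0 ≤ R ∧
    ∀ p, F p ≠ 0 → δ ≤ H496.pm p ∧ |p 2| ≤ R ∧ |p 3| ≤ R := by
  have hK : IsCompact (tsupport F) := hF.1
  obtain ⟨R, hR⟩ := hK.isBounded.exists_norm_le
  rcases (tsupport F).eq_empty_or_nonempty with he | hne
  · refine ⟨1, 0, one_pos, le_rfl, fun p hp => ?_⟩
    have := subset_tsupport F hp
    rw [he] at this
    exact absurd this (Set.notMem_empty p)
  · obtain ⟨q, hq, hmin⟩ := hK.exists_isMinOn hne H496.continuous_pm.continuousOn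
    have hqV : 0 < H496.pm q := (hF.2 hq).1
    refine ⟨H496.pm q, max R 0, hqV, le_max_right _ _, fun p hp => ?_⟩
    have hp' := subset_tsupport F hp
    have hn := (hR p hp').trans (le_max_left R 0)
    exact ⟨hmin hp', (PiLp.norm_apply_le p 2).trans hn, (PiLp.norm_apply_le p 3).trans hn⟩

/-- null rotated copies with far parameters are orthogonal -/
theorem orth_nr (hA : PField Q T A 4) (two : Two Q A μ) {h h' : 𝓢(Mink, ℂ)}
    (hh : PC (mftS h)) (hh' : PC (mftS h')) : ∃ M : ℝ, 0 < M ∧ ∀ c c' : ℝ × ℝ,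
      (M ≤ |c.1 - c'.1| ∨ M ≤ |c.2 - c'.2|) →
      inner ℂ (Q.U 1 (nr c) 0 (A (fl h) Q.vac)) (Q.U 1 (nr c') 0 (A (fl h') Q.vac)) = 0 := by
  obtain ⟨δ, R, hδ, hR, hb⟩ := PC.bounds hh
  obtain ⟨δ', R', hδ', hR', hb'⟩ := PC.bounds hh'
  have hM : 0 < (R + R' + 1) / δ := by positivity
  refine ⟨(R + R' + 1) / δ, hM, fun c c' hc => ?_⟩
  rw [inner_nr hA two]
  have hz : ∀ p, conj (mft h (lam (nr (-c)) p)) * mft h' (lam (nr (-c')) p) = 0 := by
    intro p
    by_contra hne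
    have h1 : mftS h (lam (nr (-c)) p) ≠ 0 := by
      rw [mftS_apply]
      intro h0
      apply hne
      rw [h0, map_zero, zero_mul]
    have h2 : mftS h' (lam (nr (-c')) p) ≠ 0 := by
      rw [mftS_apply]
      intro h0
      apply hne
      rw [h0, mul_zero]
    obtain ⟨a1, a2, a3⟩ := hb _ h1
    obtain ⟨b1, b2, b3⟩ := hb' _ h2
    rw [pm_nr] at a1 b1
    rw [nr_2] at a2 b2
    rw [nr_3] at a3 b3
    have key : ∀ x y u v : ℝ, |u + -x * H496.pm p| ≤ R → |u + -y * H496.pm p| ≤ R' →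
        (R + R' + 1) / δ ≤ |x - y| → False := by
      intro x y u v e1 e2 e3
      have e4 : |x - y| * H496.pm p ≤ R + R' := by
        have e5 : (x - y) * H496.pm p = (u + -y * H496.pm p) - (u + -x * H496.pm p) := by ring
        have e6 : |(x - y) * H496.pm p| ≤ R' + R := by
          rw [e5]
          exact (abs_sub _ _).trans (add_le_add e2 e1)
        rw [abs_mul, abs_of_pos (hδ.trans_le a1)] at e6
        linarith
      rw [div_le_iff₀ hδ] at e3
      have e7 : |x - y| * δ ≤ |x - y| * H496.pm p := by gcongr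
      linarith
    rcases hc with hc | hc
    · exact key c.1 c'.1 (p 2) 0 (by simpa using a2) (by simpa using b2) hc
    · exact key c.2 c'.2 (p 3) 0 (by simpa using a3) (by simpa using b3) hc
  simp only [hz, integral_zero]

/-- the row (i) of the domain criterion -/
theorem orth (hA : PField Q T A 4) (two : Two Q A μ) {h : 𝓢(Mink, ℂ)} (hh : PC (mftS h)) :
    ∃ M : ℝ, 0 < M ∧ ∀ c c' : ℝ, M ≤ |c - c'| →
      inner ℂ (Q.U 1 (mNull c) 0 (A (fl h) Q.vac)) (Q.U 1 (mNull c') 0 (A (fl h) Q.vac)) = 0 := by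
  obtain ⟨M, hM, h1⟩ := orth_nr hA two hh hh
  refine ⟨M, hM, fun c c' hc => ?_⟩
  rw [mNull_eq, mNull_eq]
  exact h1 (c, 0) (c', 0) (Or.inl hc)

/-- norm of a sum of orthogonal vectors of equal norm -/
lemma norm_sum_orth {n : ℕ} (v : ℕ → D) (r : ℝ) (hr : ∀ j < n, ‖v j‖ = r)
    (ho : ∀ i < n, ∀ j < n, i ≠ j → inner ℂ (v i) (v j) = 0) :
    ‖∑ j ∈ Finset.range n, v j‖ ^ 2 = n * r ^ 2 := by
  induction n with
  | zero => simp
  | succ n ih =>
    have h1 := ih (fun j hj => hr j (by omega)) (fun i hi j hj hij => ho i (by omega) j (by omega) hij)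
    rw [Finset.sum_range_succ]
    have h2 : inner ℂ (∑ j ∈ Finset.range n, v j) (v n) = 0 := by
      rw [sum_inner]
      apply Finset.sum_eq_zero
      intro j hj
      rw [Finset.mem_range] at hj
      exact ho j (by omega) n (by omega) (by omega)
    have h3 := norm_add_sq_eq_norm_sq_add_norm_sq_of_inner_eq_zero (𝕜 := ℂ) _ _ h2
    rw [← pow_two, ← pow_two, ← pow_two] at h3
    rw [h3, h1, hr n (by omega)]
    push_cast
    ring

lemma norm_nr (hA : PField Q T A 4) (c : ℝ × ℝ) (v : D) : ‖Q.U 1 (nr c) 0 v‖ = ‖v‖ := by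
  have h := Q.U_inner 1 (nr c) 0 v v one_pos (isLor_nr c)
  rw [inner_self_eq_norm_sq_to_K, inner_self_eq_norm_sq_to_K] at h
  have h2 : ‖Q.U 1 (nr c) 0 v‖ ^ 2 = ‖v‖ ^ 2 := by exact_mod_cast h
  exact (pow_left_inj₀ (norm_nonneg _) (norm_nonneg _) (by norm_num)).1 h2

/-- a functional which is bounded in norm and the same on all null rotated copies vanishes -/
theorem zero_of_inv (hA : PField Q T A 4) (two : Two Q A μ) {h : 𝓢(Mink, ℂ)}
    (hh : PC (mftS h)) {φ : D → ℂ} {C : ℝ} (hC : ∀ v, ‖φ v‖ ≤ C * ‖v‖)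
    (hadd : ∀ v w, φ (v + w) = φ v + φ w) (hφ : ∀ c : ℝ,
      φ (Q.U 1 (mNull c) 0 (A (fl h) Q.vac)) = φ (A (fl h) Q.vac)) :
    φ (A (fl h) Q.vac) = 0 := by
  obtain ⟨M, hM, ho⟩ := orth hA two hh
  set w := A (fl h) Q.vac with hw
  set v : ℕ → D := fun j => Q.U 1 (mNull (j * M)) 0 w with hv
  have h0 : φ 0 = 0 := by
    have := hadd 0 0
    rw [add_zero] at this
    exact left_eq_add.1 this
  have hs : ∀ n : ℕ, φ (∑ j ∈ Finset.range n, v j) = n * φ w := by
    intro n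
    induction n with
    | zero => simp [h0]
    | succ n ih =>
      rw [Finset.sum_range_succ, hadd, ih, hv, hφ]
      push_cast
      ring
  have hn : ∀ n : ℕ, ‖∑ j ∈ Finset.range n, v j‖ ^ 2 = n * ‖w‖ ^ 2 := by
    intro n
    apply norm_sum_orth
    · intro j _
      rw [hv]
      simp only [mNull_eq]
      exact norm_nr hA _ _
    · intro i _ j _ hij
      apply ho
      rw [← sub_mul, abs_mul, abs_of_pos hM]
      have h1 : (1 : ℝ) ≤ |(i : ℝ) - j| := by
        have h2 : ((i : ℤ) - j) ≠ 0 := by omega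
        have h3 := Int.one_le_abs h2
        exact_mod_cast h3
      nlinarith
  by_contra hne
  have hpos : 0 < ‖φ w‖ := norm_pos_iff.2 hne
  have hb : ∀ n : ℕ, (n : ℝ) ^ 2 * ‖φ w‖ ^ 2 ≤ C ^ 2 * (n * ‖w‖ ^ 2) := by
    intro n
    have h1 := hC (∑ j ∈ Finset.range n, v j)
    rw [hs, norm_mul, Complex.norm_natCast] at h1
    have h2 := pow_le_pow_left₀ (by positivity) h1 2
    rw [mul_pow, mul_pow, hn] at h2
    exact h2
  obtain ⟨n, hn1⟩ := exists_nat_gt (C ^ 2 * ‖w‖ ^ 2 / ‖φ w‖ ^ 2)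
  have h1 := hb (n + 1)
  rw [div_lt_iff₀ (by positivity)] at hn1
  push_cast at h1
  have h2 : ((n : ℝ) + 1) * (((n : ℝ) + 1) * ‖φ w‖ ^ 2) ≤ ((n : ℝ) + 1) * (C ^ 2 * ‖w‖ ^ 2) := by
    nlinarith
  have h3 := le_of_mul_le_mul_left h2 (by positivity)
  nlinarith [sq_nonneg ‖φ w‖]

end Vale.Agent.P352.H993

end
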