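import Vale.Agent.P352.H993.TrFt
import Vale.Agent.P352.H731.Cross

set_option linter.all false

noncomputable section

open MeasureTheory SchwartzMap Complex Filter Topology
open scoped SchwartzMap ComplexConjugate ENNReal LineDeriv ContDiff FourierTransform

/-!
# P352 (helper993): symmetric functionals of the special conformal operators
-/

namespace Vale.Agent.P352.H993

open GF (Ix V Fn Sch ev pd bar sim bas o)
open H246
open H15

/-! ### Locality -/

/-- near a point where a function is constant its derivatives vanish -/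
lemma ld_const {χ : 𝓢(Mink, ℂ)} {p : Mink} {c : ℂ} (h : ∀ᶠ y in 𝓝 p, χ y = c) (v : Mink) :
    ∀ᶠ y in 𝓝 p, (∂_{v} χ : 𝓢(Mink, ℂ)) y = 0 := by
  filter_upwards [h.eventually_nhds] with y hy
  rw [lineDerivOp_apply_eq_fderiv]
  have h1 : (χ : Mink → ℂ) =ᶠ[𝓝 y] fun _ => c := hy
  rw [h1.fderiv_eq]
  simp

lemma dS_const {χ : 𝓢(Mink, ℂ)} {p : Mink} {c : ℂ} (h : ∀ᶠ y in 𝓝 p, χ y = c) (a : V) :
    ∀ᶠ y in 𝓝 p, dS a χ y = 0 := by
  have h1 : ∀ m : Ix, ∀ᶠ y in 𝓝 p, (∂_{eb m} χ : 𝓢(Mink, ℂ)) y = 0 := fun m => ld_const h _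
  filter_upwards [eventually_all.2 h1] with y hy
  rw [dS_apply]
  simp [hy]

lemma Eu_const {χ : 𝓢(Mink, ℂ)} {p : Mink} {c : ℂ} (h : ∀ᶠ y in 𝓝 p, χ y = c) : Eu χ p = 0 := by
  unfold Eu
  rw [SchwartzMap.sum_apply]
  refine Finset.sum_eq_zero fun m _ => ?_
  rw [Xm_apply, (ld_const h _).self_of_nhds, mul_zero]

lemma boxS_const {χ : 𝓢(Mink, ℂ)} {p : Mink} {c : ℂ} (h : ∀ᶠ y in 𝓝 p, χ y = c) :
    boxS χ p = 0 := by
  unfold boxS
  rw [SchwartzMap.sum_apply]
  refine Finset.sum_eq_zero fun m _ => ?_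
  rw [SchwartzMap.smul_apply, (ld_const (ld_const h _) _).self_of_nhds, smul_zero]

lemma Kop_const {χ : 𝓢(Mink, ℂ)} {p : Mink} {c : ℂ} (h : ∀ᶠ y in 𝓝 p, χ y = c) (a : V) (r : ℝ) :
    Kop a r χ p = 0 := by
  unfold Kop
  rw [SchwartzMap.sub_apply, SchwartzMap.add_apply, SchwartzMap.smul_apply,
    SchwartzMap.smul_apply, axS_apply, (dS_const h a).self_of_nhds, Eu_const (dS_const h a),
    boxS_const h]
  simp

lemma ev_zero {F : 𝓢(Mink, ℂ)} {p : Mink} (hp : p ∉ tsupport F) : ∀ᶠ y in 𝓝 p, F y = 0 :=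
  notMem_tsupport_iff_eventuallyEq.1 hp

/-- a cutoff near a compact set -/
lemma exists_one' {K : Set Mink} (hK : IsCompact K) :
    ∃ χ : 𝓢(Mink, ℂ), HasCompactSupport χ ∧ ∀ p ∈ K, ∀ᶠ y in 𝓝 p, χ y = 1 := by
  obtain ⟨L, hL, hKL, -⟩ := exists_compact_between hK isOpen_univ (Set.subset_univ _)
  obtain ⟨ρ, hρ1, hρ0, _⟩ := exists_contMDiffMap_one_nhds_of_subset_interior
    (n := (⊤ : ℕ∞)) (modelWithCornersSelf ℝ Mink) hK.isClosed hKL
  have hρs : ContDiff ℝ ((⊤ : ℕ∞) : WithTop ℕ∞) (ρ : Mink → ℝ) := ρ.contMDiff.contDiff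
  set G : Mink → ℂ := fun x => (ρ x : ℂ) with hG
  have hGs : ContDiff ℝ ((⊤ : ℕ∞) : WithTop ℕ∞) G := Complex.ofRealCLM.contDiff.comp hρs
  have hGt : tsupport G ⊆ L := by
    apply closure_minimal _ hL.isClosed
    intro x hx
    by_contra hxL
    apply hx
    simp [hG, hρ0 x hxL]
  have hGc : HasCompactSupport G := IsCompact.of_isClosed_subset hL (isClosed_tsupport _) hGt
  set χ : 𝓢(Mink, ℂ) := hGc.toSchwartzMap hGs with hχ
  have hχa : ∀ x, χ x = (ρ x : ℂ) := fun x => rfl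
  refine ⟨χ, hGc, fun p hp => ?_⟩
  have h3 : ∀ᶠ y in 𝓝 p, ρ y = 1 :=
    (Filter.eventually_iff.1 hρ1 |> mem_nhdsSet_iff_forall.1) p hp
  filter_upwards [h3] with y hy
  rw [hχa, hy, ofReal_one]

/-- a cutoff near the support of a test function -/
lemma exists_one {F : 𝓢(Mink, ℂ)} (hF : HasCompactSupport F) :
    ∃ χ : 𝓢(Mink, ℂ), HasCompactSupport χ ∧ ∀ p ∈ tsupport F, ∀ᶠ y in 𝓝 p, χ y = 1 :=
  exists_one' hF

lemma cs_xxS {F : 𝓢(Mink, ℂ)} (hF : HasCompactSupport F) : HasCompactSupport (xxS F) := by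
  refine hF.mono fun x hx => ?_
  rw [Function.mem_support] at hx ⊢
  intro h
  apply hx
  rw [xxS_apply, h, mul_zero]

/-- **Symmetric functionals are carried by `a·p = 0`.** -/
theorem TT_axS (TT : 𝓢(Mink, ℂ) →L[ℂ] ℂ) {a : V}
    (h : ∀ u v φ ψ : 𝓢(Mink, ℂ), (∀ p, φ p = Kop a 8 u p * v p) →
      (∀ p, ψ p = u p * Kop a 4 v p) → TT φ = TT ψ) {F : 𝓢(Mink, ℂ)} (hF : HasCompactSupport F) :
    TT (axS a F) = 0 := by
  have hA : ∀ {F : 𝓢(Mink, ℂ)}, HasCompactSupport F → TT (Kop a 4 F) = 0 := by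
    intro F hF
    obtain ⟨χ, -, hχ⟩ := exists_one hF
    rw [← h χ F 0 (Kop a 4 F), map_zero]
    · intro p
      by_cases hp : p ∈ tsupport F
      · rw [Kop_const (hχ p hp), zero_mul]; rfl
      · rw [(ev_zero hp).self_of_nhds, mul_zero]; rfl
    · intro p
      by_cases hp : p ∈ tsupport F
      · rw [(hχ p hp).self_of_nhds, one_mul]
      · rw [Kop_const (ev_zero hp), mul_zero]
  have hB : ∀ {F : 𝓢(Mink, ℂ)}, HasCompactSupport F → TT (Kop a 8 F) = 0 := by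
    intro F hF
    obtain ⟨χ, -, hχ⟩ := exists_one hF
    rw [h F χ (Kop a 8 F) 0, map_zero]
    · intro p
      by_cases hp : p ∈ tsupport F
      · rw [(hχ p hp).self_of_nhds, mul_one]
      · rw [Kop_const (ev_zero hp), zero_mul]
    · intro p
      by_cases hp : p ∈ tsupport F
      · rw [Kop_const (hχ p hp), mul_zero]; rfl
      · rw [(ev_zero hp).self_of_nhds, zero_mul]; rfl
  have hC : ∀ {F : 𝓢(Mink, ℂ)}, HasCompactSupport F → TT (dS a F) = 0 := by
    intro F hF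
    have h1 : (4 : ℂ) • dS a F = Kop a 8 F - Kop a 4 F := by
      unfold Kop
      ext x
      simp only [SchwartzMap.sub_apply, SchwartzMap.add_apply, SchwartzMap.smul_apply, smul_eq_mul]
      push_cast
      ring
    have h2 : TT ((4 : ℂ) • dS a F) = 0 := by
      rw [h1, map_sub, hA hF, hB hF, sub_zero]
    rw [map_smul, smul_eq_mul] at h2
    exact (mul_eq_zero.1 h2).resolve_left (by norm_num)
  have hD : (12 : ℂ) * TT (axS a F) = TT (xxS (Kop a 4 F)) := by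
    obtain ⟨χ, -, hχ⟩ := exists_one hF
    rw [← h (xxS χ) F ((12 : ℂ) • axS a F) (xxS (Kop a 4 F)), map_smul, smul_eq_mul]
    · intro p
      rw [Kop_xxS]
      simp only [SchwartzMap.add_apply, SchwartzMap.smul_apply, xxS_apply, axS_apply, smul_eq_mul]
      by_cases hp : p ∈ tsupport F
      · rw [Kop_const (hχ p hp), (hχ p hp).self_of_nhds, (dS_const (hχ p hp) a).self_of_nhds]
        push_cast
        ring
      · rw [(ev_zero hp).self_of_nhds]
        ring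
    · intro p
      rw [xxS_apply, xxS_apply]
      by_cases hp : p ∈ tsupport F
      · rw [(hχ p hp).self_of_nhds, mul_one]
      · rw [Kop_const (ev_zero hp), mul_zero, mul_zero]
  have h1 := hA (cs_xxS hF)
  rw [Kop_xxS, map_add, map_add, map_smul, map_smul, smul_eq_mul, smul_eq_mul] at h1
  have h2 := hC (cs_xxS hF)
  rw [dS_xxS, map_add, map_smul, smul_eq_mul] at h2
  push_cast at h1
  have h3 : (8 : ℂ) * TT (axS a F) = 0 := by linear_combination hD + h1 - 4 * h2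
  exact (mul_eq_zero.1 h3).resolve_left (by norm_num)

/-! ### Complex conjugation -/

lemma conjS_sum (g : Ix → 𝓢(Mink, ℂ)) : conjS (∑ k, g k) = ∑ k, conjS (g k) := by
  ext x
  simp only [conjS_apply, SchwartzMap.sum_apply, map_sum]

lemma conjS_Xm (m : Ix) (F : 𝓢(Mink, ℂ)) : conjS (Xm m F) = Xm m (conjS F) := by
  ext x
  simp only [conjS_apply, Xm_apply, map_mul, conj_ofReal]

lemma conjS_dS (a : V) (F : 𝓢(Mink, ℂ)) : conjS (dS a F) = dS a (conjS F) := by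
  unfold dS
  rw [conjS_sum]
  refine Finset.sum_congr rfl fun m _ => ?_
  rw [conjS_smul, conj_ofReal, conjS_lineDeriv]

lemma conjS_axS (a : V) (F : 𝓢(Mink, ℂ)) : conjS (axS a F) = axS a (conjS F) := by
  ext x
  simp only [conjS_apply, axS_apply, map_mul, conj_ofReal]

lemma conjS_Eu (F : 𝓢(Mink, ℂ)) : conjS (Eu F) = Eu (conjS F) := by
  unfold Eu
  rw [conjS_sum]
  refine Finset.sum_congr rfl fun m _ => ?_
  rw [conjS_Xm, conjS_lineDeriv]

lemma conjS_Kop (a : V) (c : ℝ) (F : 𝓢(Mink, ℂ)) : conjS (Kop a c F) = Kop a c (conjS F) := by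
  have hsub : ∀ f g : 𝓢(Mink, ℂ), conjS (f - g) = conjS f - conjS g := by
    intro f g
    ext x
    simp
  have h2 : conj (2 : ℂ) = 2 := map_ofNat _ 2
  unfold Kop
  rw [hsub, conjS_add, conjS_smul, conjS_smul, conjS_axS, conjS_boxS, conjS_Eu, conjS_dS,
    conj_ofReal, h2]

/-- symmetry of the two point function gives the symmetry of the functional -/
theorem TT_symm (TT : 𝓢(Mink, ℂ) →L[ℂ] ℂ) {a : V} {B : 𝓢(Mink, ℂ) → 𝓢(Mink, ℂ) → ℂ}
    (hTT : ∀ g f φ : 𝓢(Mink, ℂ), (∀ p, φ p = conj (mftS g p) * mftS f p) → B g f = TT φ)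
    (hB : ∀ f g, B (kdS a 4 g) f + B g (kdS a 2 f) = 0) (u v φ ψ : 𝓢(Mink, ℂ))
    (hφ : ∀ p, φ p = Kop a 8 u p * v p) (hψ : ∀ p, ψ p = u p * Kop a 4 v p) : TT φ = TT ψ := by
  obtain ⟨g, hg⟩ := H746.mftS_surj (conjS u)
  obtain ⟨f, rfl⟩ := H746.mftS_surj v
  have h1 := hB f g
  rw [hTT (kdS a 4 g) f (I • φ), hTT g (kdS a 2 f) ((-I) • ψ), map_smul, map_smul, smul_eq_mul,
    smul_eq_mul] at h1
  · have h2 : I * (TT φ - TT ψ) = 0 := by linear_combination h1
    exact sub_eq_zero.1 ((mul_eq_zero.1 h2).resolve_left I_ne_zero)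
  · intro p
    rw [mftS_kdS, hg, SchwartzMap.smul_apply, SchwartzMap.smul_apply, hψ, conjS_apply, conj_conj,
      smul_eq_mul, smul_eq_mul]
    norm_num
    ring
  · intro p
    rw [mftS_kdS, hg, SchwartzMap.smul_apply, SchwartzMap.smul_apply, hφ, ← conjS_Kop,
      smul_eq_mul, smul_eq_mul, map_mul, conjS_apply, conj_conj, map_neg, conj_I]
    norm_num
    ring

/-- vanishing of the two point function on derivatives along `a` -/
theorem TT_van (TT : 𝓢(Mink, ℂ) →L[ℂ] ℂ) {a : V} {B : 𝓢(Mink, ℂ) → 𝓢(Mink, ℂ) → ℂ}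
    (hTT : ∀ g f φ : 𝓢(Mink, ℂ), (∀ p, φ p = conj (mftS g p) * mftS f p) → B g f = TT φ)
    (hB : ∀ f g, B (kdS a 4 g) f + B g (kdS a 2 f) = 0) (g f : 𝓢(Mink, ℂ))
    (hf : HasCompactSupport (mftS f)) : B g (dS a f) = 0 := by
  have hP : ∀ p, mftS (H731.cv (H731.rc g) f) p = conj (mftS g p) * mftS f p := by
    intro p
    rw [H731.mftS_cv, mftS_apply (H731.rc g), H731.mft_rc, mftS_apply g]
  set P : 𝓢(Mink, ℂ) := mftS (H731.cv (H731.rc g) f) with hPdef
  have hPc : HasCompactSupport P := by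
    refine hf.mono fun x hx => ?_
    rw [Function.mem_support] at hx ⊢
    intro h
    apply hx
    rw [hP, h, mul_zero]
  rw [hTT g (dS a f) ((-I) • axS a P), map_smul, TT_axS TT (TT_symm TT hTT hB) hPc, smul_zero]
  intro p
  rw [mftS_dS, SchwartzMap.smul_apply, SchwartzMap.smul_apply, axS_apply, axS_apply, hP,
    smul_eq_mul, smul_eq_mul]
  ring

end Vale.Agent.P352.H993

end
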