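import Vale.Agent.P352.H993.TrCut
import Vale.Agent.P352.H731.Ct0

set_option linter.all false

noncomputable section

open MeasureTheory SchwartzMap Complex Filter Topology
open scoped SchwartzMap ComplexConjugate ENNReal LineDeriv ContDiff FourierTransform

/-!
# P352 (helper993): the polarized spectral measure
-/

namespace Vale.Agent.P352.H993

open GF (Ix V Fn Sch ev pd bar sim bas o)
open H246 H246R
open H15
open H496 (exists_data)
open H731 (simC simC_apply simS_simC w_inner w_measure Wk)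
open UniformSpace (Completion)

variable {D : Type*} [NormedAddCommGroup D] [InnerProductSpace ℂ D] {Q : GF.Theory D}

/-- **The mixed two point function is a tempered functional.** -/
theorem exists_TT {X W : 𝓢(Mink, ℂ) →L[ℂ] Completion D}
    (hX : ∀ g (a : Mink) (z : D), inner ℂ ((U1 Q a z : D) : Completion D) (X (tauS a g)) =
      inner ℂ (z : Completion D) (X g))
    (hW : ∀ g (a : Mink) (z : D), inner ℂ ((U1 Q a z : D) : Completion D) (W (tauS a g)) =
      inner ℂ (z : Completion D) (W g)) :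
    ∃ TT : 𝓢(Mink, ℂ) →L[ℂ] ℂ, ∀ g f φ : 𝓢(Mink, ℂ),
      (∀ p, φ p = conj (mftS g p) * mftS f p) → inner ℂ (X g) (W f) = TT φ := by
  have key : ∀ c : ℂ, ∃ TT : 𝓢(Mink, ℂ) →L[ℂ] ℂ, ∀ g f φ : 𝓢(Mink, ℂ),
      (∀ p, φ p = conj (mftS g p) * mftS f p) →
      inner ℂ ((X + c • W) g) ((X + c • W) f) = TT φ := by
    intro c
    set κ : 𝓢(Mink, ℂ) →L[ℂ] Completion D := X + c • W with hκ
    obtain ⟨ν, S⟩ := exists_data (Q := Q) κ (fun g a z => by
      have e : ∀ h, κ h = X h + c • W h := fun h => rfl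
      rw [e, e, inner_add_right, inner_add_right, inner_smul_right, inner_smul_right, hX, hW])
    obtain ⟨μ, hcone, hμ⟩ := S.exists_KL
    obtain ⟨C, m, hC, hb⟩ := H746.exists_ball_bound κ S hμ
    have ht := H746.temp_of_ball hC hb
    have two : ∀ f g, inner ℂ (κ f) (κ g) = ∫ p, conj (mft f p) * mft g p ∂μ :=
      SpecData.two (κ := (κ : 𝓢(Mink, ℂ) →ₗ[ℂ] Completion D)) S ht hμ
    haveI := ht
    refine ⟨SchwartzMap.integralCLM ℂ μ, fun g f φ hφ => ?_⟩
    rw [two, SchwartzMap.integralCLM_apply]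
    congr 1
    funext p
    rw [hφ, mftS_apply, mftS_apply]
  obtain ⟨T0, h0⟩ := key 1
  obtain ⟨T1, h1⟩ := key I
  obtain ⟨T2, h2⟩ := key (-1)
  obtain ⟨T3, h3⟩ := key (-I)
  refine ⟨(1 / 4 : ℂ) • (T0 - I • T1 - T2 + I • T3), fun g f φ hφ => ?_⟩
  have e0 := h0 g f φ hφ
  have e1 := h1 g f φ hφ
  have e2 := h2 g f φ hφ
  have e3 := h3 g f φ hφ
  simp only [ContinuousLinearMap.add_apply, ContinuousLinearMap.smul_apply, inner_add_left,
    inner_add_right, inner_smul_left, inner_smul_right, map_neg, conj_I, map_one] at e0 e1 e2 e3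
  simp only [ContinuousLinearMap.add_apply, ContinuousLinearMap.sub_apply,
    ContinuousLinearMap.smul_apply, smul_eq_mul]
  rw [← e0, ← e1, ← e2, ← e3]
  linear_combination ((1 / 2 : ℂ) * inner ℂ (X g) (W f) - (1 / 2 : ℂ) * inner ℂ (W g) (X f)) * I_sq

/-! ### Scalar covariance -/

lemma dot_pos {a : V} (ha : H496.IsNull a) {p : Mink} (hp : 0 ≤ p 0) (hm : 0 < mass2 p) :
    0 < GF.mdot a p.ofLp := by
  obtain ⟨h1, h2⟩ := ha
  rw [gf_mdot] at h1
  have h2' : 0 < a 0 := h2
  have h3 : p 1 ^ 2 + p 2 ^ 2 + p 3 ^ 2 < p 0 ^ 2 := by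
    unfold mass2 mdot at hm
    nlinarith
  rw [gf_mdot]
  by_contra hcon
  have h4 : a 0 * p 0 ≤ a 1 * p 1 + a 2 * p 2 + a 3 * p 3 := by
    have : ¬ 0 < a 0 * p 0 - a 1 * p 1 - a 2 * p 2 - a 3 * p 3 := hcon
    linarith
  have h5 : (a 0 * p 0) ^ 2 ≤ (a 1 * p 1 + a 2 * p 2 + a 3 * p 3) ^ 2 :=
    pow_le_pow_left₀ (mul_nonneg h2'.le hp) h4 2
  have h6 : (a 1 * p 1 + a 2 * p 2 + a 3 * p 3) ^ 2 ≤
      (a 1 ^ 2 + a 2 ^ 2 + a 3 ^ 2) * (p 1 ^ 2 + p 2 ^ 2 + p 3 ^ 2) := by
    nlinarith [sq_nonneg (a 1 * p 2 - a 2 * p 1), sq_nonneg (a 1 * p 3 - a 3 * p 1),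
      sq_nonneg (a 2 * p 3 - a 3 * p 2)]
  have h7 : a 1 ^ 2 + a 2 ^ 2 + a 3 ^ 2 = a 0 ^ 2 := by nlinarith
  rw [h7] at h6
  have h8 : 0 < a 0 ^ 2 := by positivity
  nlinarith [mul_lt_mul_of_pos_left h3 h8]

/-- **A covariant scalar of dimension four whose null derivatives vanish is zero.** -/
theorem zero_of_D {X : 𝓢(Mink, ℂ) →L[ℂ] Completion D}
    (hX : ∀ g (a : Mink) (z : D), inner ℂ ((U1 Q a z : D) : Completion D) (X (tauS a g)) =
      inner ℂ (z : Completion D) (X g))
    (hcov : ∀ {s : ℝ} (hs : 0 < s) {L : Ix → V} (hL : GF.IsLor L) (f : 𝓢(Mink, ℂ)) (v : D),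
      inner ℂ (X f) ((Q.U s L 0 v : D) : Completion D) =
      ((1 : ℝ) : ℂ) * inner ℂ (X (simC hs hL f)) (v : Completion D))
    {b : Fin 4 → V} (hb : ∀ i, H496.IsNull (b i))
    (h0 : ∀ f, HasCompactSupport (mftS f) → X (dS (b 0) (dS (b 1) (dS (b 2) (dS (b 3) f)))) = 0)
    (f : 𝓢(Mink, ℂ)) : X f = 0 := by
  obtain ⟨ν, S⟩ := exists_data X hX
  obtain ⟨μ, hcone, hμ⟩ := S.exists_KL
  obtain ⟨C, m, hC, hbb⟩ := H746.exists_ball_bound X S hμ
  have ht := H746.temp_of_ball hC hbb
  have hfin := H746.fin_compact hbb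
  have two : ∀ f g, inner ℂ (X f) (X g) = ∫ p, conj (mft f p) * mft g p ∂μ :=
    SpecData.two (κ := (X : 𝓢(Mink, ℂ) →ₗ[ℂ] Completion D)) S ht hμ
  have W : Wk μ 8 0 := by
    refine ⟨fun b => ?_, fun b => ?_, fun σ t hσ => ?_⟩
    · have h1 := w_measure S hμ one_pos one_pos (isLor_null b)
        (w_inner one_pos one_pos one_pos (isLor_null b) (isLor_null (-b))
          (hcov one_pos (isLor_null b))
          (fun f v => by rw [inv_one]; exact hcov one_pos (isLor_null (-b)) f v) (fun f => by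
            ext x
            rw [simC_apply, simC_apply, one_smul, one_smul]
            congr 1
            apply mink_ext <;> simp [Fin.sum_univ_four, mNull] <;> ring))
      simp only [inv_one, one_smul, one_pow, div_one, ENNReal.ofReal_one] at h1
      exact h1
    · have h1 := w_measure S hμ one_pos one_pos (isLor_null' b)
        (w_inner one_pos one_pos one_pos (isLor_null' b) (isLor_null' (-b))
          (hcov one_pos (isLor_null' b))
          (fun f v => by rw [inv_one]; exact hcov one_pos (isLor_null' (-b)) f v) (fun f => by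
            ext x
            rw [simC_apply, simC_apply, one_smul, one_smul]
            congr 1
            apply mink_ext <;> simp [Fin.sum_univ_four, mNull'] <;> ring))
      simp only [inv_one, one_smul, one_pow, div_one, ENNReal.ofReal_one] at h1
      exact h1
    · have h1 := w_measure S hμ one_pos hσ (isLor_boost t)
        (w_inner one_pos hσ (inv_pos.2 hσ) (isLor_boost t) (isLor_boost (-t))
          (hcov hσ (isLor_boost t))
          (fun f v => by rw [inv_one]; exact hcov (inv_pos.2 hσ) (isLor_boost (-t)) f v)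
          (fun f => by
            ext x
            rw [simC_apply, simC_apply]
            congr 1
            have hc := Real.cosh_sq t
            have hsig : σ * σ⁻¹ = 1 := mul_inv_cancel₀ hσ.ne'
            apply mink_ext
            · simp [Fin.sum_univ_four, mBoost]
              field_simp
              linear_combination (x 0) * hc
            · simp [Fin.sum_univ_four, mBoost]
              field_simp
              linear_combination (x 1) * hc
            · simp [Fin.sum_univ_four, mBoost]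
              field_simp
            · simp [Fin.sum_univ_four, mBoost]
              field_simp))
      rw [h1]
      congr 2
      simp
  have hae := W.ray_null hfin (by rw [ae_iff]; exact hcone) (by norm_num) (by norm_num)
  have hcone' : ∀ᵐ p ∂μ, p ∈ fwdCone := by rw [ae_iff]; exact hcone
  have hball : ∀ n : ℕ, ∀ᵐ p ∂μ, p ∉ Metric.closedBall (0 : Mink) n := by
    intro n
    obtain ⟨χ, hχc, hχ⟩ := exists_one' (isCompact_closedBall (0 : Mink) n)
    obtain ⟨f, rfl⟩ := H746.mftS_surj χ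
    set g : 𝓢(Mink, ℂ) := dS (b 0) (dS (b 1) (dS (b 2) (dS (b 3) f))) with hg
    have h1 := two g g
    rw [h0 f hχc, inner_zero_left] at h1
    have h2 : ∀ p, conj (mft g p) * mft g p = ((‖mft g p‖ ^ 2 : ℝ) : ℂ) := by
      intro p
      rw [mul_comm, mul_conj, normSq_eq_norm_sq]
    simp only [h2] at h1
    rw [integral_complex_ofReal] at h1
    have h3 : ∫ p, ‖mft g p‖ ^ 2 ∂μ = 0 := by exact_mod_cast h1.symm
    have h4 : Integrable (fun p => ‖mft g p‖ ^ 2) μ :=
      (memLp_two_iff_integrable_sq_norm (mft_memLp ht g).1).1 (mft_memLp ht g)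
    rw [integral_eq_zero_iff_of_nonneg (fun p => by positivity) h4] at h3
    filter_upwards [h3, hae, hcone'] with p e1 e2 e3 hp
    have e4 : mft g p = 0 := by
      have : ‖mft g p‖ ^ 2 = 0 := e1
      simpa using this
    have e5 : mft g p = (GF.mdot (b 0) p.ofLp * (GF.mdot (b 1) p.ofLp *
        (GF.mdot (b 2) p.ofLp * GF.mdot (b 3) p.ofLp)) : ℝ) := by
      rw [← mftS_apply, hg]
      simp only [mftS_dS, SchwartzMap.smul_apply, axS_apply, smul_eq_mul]
      rw [(hχ p hp).self_of_nhds]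
      push_cast
      linear_combination (GF.mdot (b 0) p.ofLp * (GF.mdot (b 1) p.ofLp *
        (GF.mdot (b 2) p.ofLp * GF.mdot (b 3) p.ofLp)) : ℂ) * (I ^ 2 - 1) * I_sq
    have e6 : ∀ i, 0 < GF.mdot (b i) p.ofLp := fun i => dot_pos (hb i) e3.1 e2.2
    have e7 := mul_pos (e6 0) (mul_pos (e6 1) (mul_pos (e6 2) (e6 3)))
    rw [e4] at e5
    have e8 := ofReal_eq_zero.1 e5.symm
    exact e7.ne' e8
  have hz : μ = 0 := by
    have h1 : ∀ᵐ p ∂μ, False := by
      filter_upwards [ae_all_iff.2 hball] with p hp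
      obtain ⟨n, hn⟩ := exists_nat_ge ‖p‖
      exact hp n (by rw [Metric.mem_closedBall, dist_zero_right]; exact hn)
    rw [ae_iff] at h1
    apply Measure.measure_univ_eq_zero.1
    simpa using h1
  have h1 : inner ℂ (X f) (X f) = (0 : ℂ) := by
    rw [two, hz, integral_zero_measure]
  exact inner_self_eq_zero.1 h1

end Vale.Agent.P352.H993

end
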